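import Vale.Agent.P141.H347.Tr1

/-!
# P141: the cost of an atom at the nodes, companions depending on the NODE, four roles

* `Wf w`: weight functional `w : ℕ → Pt → Tri → ℝ` stable under translations and transpositions;
  instances `wf_wt` (weights), `wf_wtF` (weights with a floor), `Wf.add`, `Wf.smul`;
* `CostN c o K P w F1 F2 F3`: the cost hypothesis in the position of role `0`;
* `node_costN`: the conclusion, for `h : ℕ → ℤ → Fin 4 → ℤ → ℝ` (scale, node, face).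
-/

namespace Vale.Agent.P141.H347.Tr

open Finset Vale.Agent.P141.PL Vale.Agent.P141.PL.H560
open Vale.Agent.P141.PL.H321 (t12 t23 u12 u23)
open Vale.Agent.P141.PL.H314 (nd)
open Vale.Agent.P141.PL.H315 (put)
open Vale.Agent.P141.H922 (mx3 mx3_nonneg wtF)

noncomputable section

/-! ### Weight functionals -/

/-- a weight functional: it does not increase under translation and cut and is invariant under the
transpositions -/
structure Wf (w : ℕ → Pt → H315.Tri → ℝ) : Prop where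
  uq_le : ∀ (c : LF) (K : ℕ) (x y : Pt) (u : H315.Tri) (q : ℤ × ℤ),
    w K y (uq c K (cx K x) u q) ≤ w K x u
  t12 : ∀ (K : ℕ) (p : Pt) (u : H315.Tri), w K (t12 p) (u12 u) = w K p u
  t23 : ∀ (K : ℕ) (p : Pt) (u : H315.Tri), w K (t23 p) (u23 u) = w K p u

theorem Wf.add {w w' : ℕ → Pt → H315.Tri → ℝ} (h : Wf w) (h' : Wf w') :
    Wf (fun K p u => w K p u + w' K p u) where
  uq_le c K x y u q := add_le_add (h.uq_le c K x y u q) (h'.uq_le c K x y u q)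
  t12 K p u := by rw [h.t12, h'.t12]
  t23 K p u := by rw [h.t23, h'.t23]

/-- the factor may depend on the scale -/
theorem Wf.smul {w : ℕ → Pt → H315.Tri → ℝ} (h : Wf w) {r : ℕ → ℝ} (hr : ∀ K, 0 ≤ r K) :
    Wf (fun K p u => r K * w K p u) where
  uq_le c K x y u q := mul_le_mul_of_nonneg_left (h.uq_le c K x y u q) (hr K)
  t12 K p u := by rw [h.t12]
  t23 K p u := by rw [h.t23]

theorem wf_wt {δ e : ℝ} (hδ : 0 ≤ δ) (h0 : 0 ≤ e) (h1' : e ≤ 1) :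
    Wf (fun K p u => H315.wt δ e (H315.cube3 K p) u) where
  uq_le c K x y u q := wt_uq_le c hδ h0 h1' K x y u q
  t12 K p u := wt_t12 δ e K p u
  t23 K p u := wt_t23 δ e K p u

theorem mx_cs_le {Q Q' : Finset (ℤ × ℤ)} (h : ℤ × ℤ) (u : ℤ × ℤ → ℝ) :
    H315.mx Q' (cs Q h u) ≤ H315.mx Q u := by
  refine H315.mx_le (H315.mx_nonneg _ _) fun x _ => ?_
  by_cases hx : (x.1 + h.1, x.2 + h.2) ∈ Q
  · rw [cs_of_mem hx]; exact H315.abs_le_mx hx u
  · rw [cs_of_not_mem hx, abs_zero]; exact H315.mx_nonneg _ _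

theorem mx_e12 (K : ℕ) (x : Pt) (f : ℤ × ℤ → ℝ) : H315.mx (H315.cube3 K x) (H315.e12 f) =
    H315.mx (H315.iv K x.1 ×ˢ H315.iv K x.2.1) f := by
  apply le_antisymm
  · refine H315.mx_le (H315.mx_nonneg _ _) fun q hq => ?_
    rw [H315.mem_cube3] at hq
    exact H315.abs_le_mx (x := (q.1, q.2.1)) (by
      rw [mem_product]; exact ⟨hq.1, hq.2.1⟩) f
  · refine H315.mx_le (H315.mx_nonneg _ _) fun q hq => ?_
    rw [mem_product] at hq
    exact H315.abs_le_mx (x := (q.1, q.2, x.2.2)) (by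
      rw [H315.mem_cube3]; exact ⟨hq.1, hq.2, H315.self_mem_iv K _⟩) (H315.e12 f)

theorem mx_e13 (K : ℕ) (x : Pt) (f : ℤ × ℤ → ℝ) : H315.mx (H315.cube3 K x) (H315.e13 f) =
    H315.mx (H315.iv K x.1 ×ˢ H315.iv K x.2.2) f := by
  apply le_antisymm
  · refine H315.mx_le (H315.mx_nonneg _ _) fun q hq => ?_
    rw [H315.mem_cube3] at hq
    exact H315.abs_le_mx (x := (q.1, q.2.2)) (by
      rw [mem_product]; exact ⟨hq.1, hq.2.2⟩) f
  · refine H315.mx_le (H315.mx_nonneg _ _) fun q hq => ?_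
    rw [mem_product] at hq
    exact H315.abs_le_mx (x := (q.1, x.2.1, q.2)) (by
      rw [H315.mem_cube3]; exact ⟨hq.1, H315.self_mem_iv K _, hq.2⟩) (H315.e13 f)

theorem mx_e23 (K : ℕ) (x : Pt) (f : ℤ × ℤ → ℝ) : H315.mx (H315.cube3 K x) (H315.e23 f) =
    H315.mx (H315.iv K x.2.1 ×ˢ H315.iv K x.2.2) f := by
  apply le_antisymm
  · refine H315.mx_le (H315.mx_nonneg _ _) fun q hq => ?_
    rw [H315.mem_cube3] at hq
    exact H315.abs_le_mx (x := (q.2.1, q.2.2)) (by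
      rw [mem_product]; exact ⟨hq.2.1, hq.2.2⟩) f
  · refine H315.mx_le (H315.mx_nonneg _ _) fun q hq => ?_
    rw [mem_product] at hq
    exact H315.abs_le_mx (x := (x.1, q.1, q.2)) (by
      rw [H315.mem_cube3]; exact ⟨H315.self_mem_iv K _, hq.1, hq.2⟩) (H315.e23 f)

theorem mx3_uq_le (c : LF) (K : ℕ) (x y : Pt) (u : H315.Tri) (q : ℤ × ℤ) :
    mx3 (H315.cube3 K y) (uq c K (cx K x) u q) ≤ mx3 (H315.cube3 K x) u := by
  unfold mx3
  have a1 : H315.mx (H315.cube3 K y) (H315.e12 (uq c K (cx K x) u q).1) ≤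
      H315.mx (H315.cube3 K x) (H315.e12 u.1) := by
    rw [mx_e12, mx_e12]; exact mx_cs_le _ _
  have a2 : H315.mx (H315.cube3 K y) (H315.e13 (uq c K (cx K x) u q).2.1) ≤
      H315.mx (H315.cube3 K x) (H315.e13 u.2.1) := by
    rw [mx_e13, mx_e13]; exact mx_cs_le _ _
  have a3 : H315.mx (H315.cube3 K y) (H315.e23 (uq c K (cx K x) u q).2.2) ≤
      H315.mx (H315.cube3 K x) (H315.e23 u.2.2) := by
    rw [mx_e23, mx_e23]; exact mx_cs_le _ _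
  exact mul_le_mul (mul_le_mul a1 a2 (H315.mx_nonneg _ _) (H315.mx_nonneg _ _)) a3
    (H315.mx_nonneg _ _) (mul_nonneg (H315.mx_nonneg _ _) (H315.mx_nonneg _ _))

theorem mx3_t12 (K : ℕ) (p : Pt) (u : H315.Tri) :
    mx3 (H315.cube3 K (t12 p)) (u12 u) = mx3 (H315.cube3 K p) u := by
  unfold mx3
  rw [← H321.mx_t12, ← H321.mx_t12, ← H321.mx_t12]
  have h1 : (fun q => H315.e12 (u12 u).1 (t12 q)) = H315.e12 u.1 := rfl
  have h2 : (fun q => H315.e13 (u12 u).2.1 (t12 q)) = H315.e23 u.2.2 := rfl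
  have h3 : (fun q => H315.e23 (u12 u).2.2 (t12 q)) = H315.e13 u.2.1 := rfl
  rw [h1, h2, h3]; ring

theorem mx3_t23 (K : ℕ) (p : Pt) (u : H315.Tri) :
    mx3 (H315.cube3 K (t23 p)) (u23 u) = mx3 (H315.cube3 K p) u := by
  unfold mx3
  rw [← H321.mx_t23, ← H321.mx_t23, ← H321.mx_t23]
  have h1 : (fun q => H315.e12 (u23 u).1 (t23 q)) = H315.e13 u.2.1 := rfl
  have h2 : (fun q => H315.e13 (u23 u).2.1 (t23 q)) = H315.e12 u.1 := rfl
  have h3 : (fun q => H315.e23 (u23 u).2.2 (t23 q)) = H315.e23 u.2.2 := rfl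
  rw [h1, h2, h3]; ring

theorem wf_mx3 : Wf (fun K p u => ((H315.cube3 K p).card : ℝ) * mx3 (H315.cube3 K p) u) where
  uq_le c K x y u q := by
    rw [H315.card_cube3, H315.card_cube3]
    exact mul_le_mul_of_nonneg_left (mx3_uq_le c K x y u q) (by positivity)
  t12 K p u := by rw [mx3_t12, H315.card_cube3, H315.card_cube3]
  t23 K p u := by rw [mx3_t23, H315.card_cube3, H315.card_cube3]

theorem wf_wtF {δ e φ : ℝ} (hδ : 0 ≤ δ) (h0 : 0 ≤ e) (h1' : e ≤ 1) (hφ : 0 ≤ φ) :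
    Wf (fun K p u => wtF δ e φ (H315.cube3 K p) u) := by
  have h := (wf_wt hδ h0 h1').add (wf_mx3.smul (r := fun _ => φ) fun _ => hφ)
  simpa only [wtF, mul_assoc] using h

/-! ### Role 0 -/

section role0

variable (c : LF)

/-- The cost hypothesis in the position of role `0`, companions depending on the node. -/
def CostN (o : ℤ) (K : ℕ) (P : ℝ) (w : ℕ → Pt → H315.Tri → ℝ) (F1 F2 F3 : ℕ → ℤ → Pt → ℝ) : Prop :=
  ∀ (x : Pt) (u : H315.Tri), ∑ k ∈ Icc 1 K, (2 ^ k : ℝ)⁻¹ * ∑ m ∈ cbs K (cx K x) k,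
    |loc k (bx0 o m) (H315.atm u) (F1 k (nu c m)) (F2 k (nu c m)) (F3 k (nu c m))| ≤ P * w K x u

/-- **Transfer, role 0**, companions depending on the node. -/
theorem transfer0N {K : ℕ} {o : ℤ} {P : ℝ} {w : ℕ → Pt → H315.Tri → ℝ} (hw : Wf w)
    (hP : 0 ≤ P) {F1 F2 F3 : ℕ → ℤ → Pt → ℝ} (hI : ∀ k v, Inv c (F1 k v) (F2 k v) (F3 k v))
    (hcost : CostN c o K P w F1 F2 F3) (p : Pt) (u : H315.Tri)
    (S : Finset (ℕ × ℤ)) (hS : ∀ s ∈ S, 1 ≤ s.1 ∧ s.1 ≤ K) :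
    ∑ s ∈ S, (8 ^ s.1 : ℝ)⁻¹ * |loc s.1 (o - 2 - s.2, s.2, 0, 0)
      (fun y => pf (c.e, c.d2, c.d3) K p u (lf c y)) (F1 s.1 s.2) (F2 s.1 s.2) (F3 s.1 s.2)| ≤
      8 * (P * w K p u) := by
  rw [pf_eq_push]
  refine transfer_gen c (cx K p) (H315.atm u) o F1 F2 F3 hI S hS fun q _ t => ?_
  have hx : cx K ((2 ^ K * t, p.2.1, p.2.2) : Pt) = (t, (cx K p).2.1, (cx K p).2.2) := by
    unfold cx ix
    simp only
    rw [Int.mul_ediv_cancel_left _ (by positivity)]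
  have h := hcost (2 ^ K * t, p.2.1, p.2.2) (uq c K (cx K p) u q)
  rw [hx] at h
  have h2 : (fun y => cut K (cx K p) (H315.atm u) (sh c q.1 q.2 y)) =
      H315.atm (uq c K (cx K p) u q) := funext fun y => cut_atm c K (cx K p) u q y
  rw [h2]
  exact h.trans (mul_le_mul_of_nonneg_left (hw.uq_le c K p _ u q) hP)

/-- **Transfer, role 0**, nodes in a permuted position; `wi` is the inverse of the position. -/
theorem transfer0N' {K : ℕ} {o : ℤ} {P : ℝ} {w : ℕ → Pt → H315.Tri → ℝ} (hwf : Wf w)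
    (hP : 0 ≤ P) {F1 F2 F3 : ℕ → ℤ → Pt → ℝ} (hI : ∀ k v, Inv c (F1 k v) (F2 k v) (F3 k v))
    (hcost : CostN c o K P w F1 F2 F3) (p : Pt) (u : H315.Tri)
    (S : Finset (ℕ × ℤ)) (hS : ∀ s ∈ S, 1 ≤ s.1 ∧ s.1 ≤ K)
    (wp a b : ℤ → ℤ) (hw : Function.Injective wp) (bx : ℤ → Bx)
    (hbx : ∀ v, bx v = bxm c o (wp v) (a v) (b v)) :
    ∑ s ∈ S, (8 ^ s.1 : ℝ)⁻¹ * |loc s.1 (bx s.2)
      (fun y => pf (c.e, c.d2, c.d3) K p u (lf c y)) (F1 s.1 (wp s.2)) (F2 s.1 (wp s.2))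
        (F3 s.1 (wp s.2))| ≤
      8 * (P * w K p u) := by
  classical
  have key := transfer0N c hwf hP hI hcost p u (S.image fun s => (s.1, wp s.2)) (by
    intro s hs
    rw [mem_image] at hs
    obtain ⟨s', hs', rfl⟩ := hs
    exact hS s' hs')
  rw [sum_image (by
    intro s _ s' _ h
    simp only [Prod.mk.injEq] at h
    exact Prod.ext h.1 (hw h.2))] at key
  refine le_trans (le_of_eq (sum_congr rfl fun s hs => ?_)) key
  simp only
  rw [hbx, pf_eq_push, loc_inv c (hS s hs).1 (hI s.1 (wp s.2))]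

end role0

/-! ### The four roles -/

/-- The linear form of the face `i` in the position of role `0`. -/
def cc (i : Fin 4) : LF :=
  match i with
  | 0 => c0
  | 1 => c1
  | 2 => c2
  | 3 => c3

/-- The position of the node `v` in role `i` (an involution). -/
def wi (i : Fin 4) (o v : ℤ) : ℤ :=
  match i with
  | 0 => v
  | 1 => o - 2 - v
  | 2 => 2 * (o - 2) - v
  | 3 => 3 * (o - 2) - v

theorem wi_wi (i : Fin 4) (o v : ℤ) : wi i o (wi i o v) = v := by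
  obtain rfl | rfl | rfl | rfl := fin4 i <;> simp only [wi] <;> ring

theorem wi_inj (i : Fin 4) (o : ℤ) : Function.Injective (wi i o) :=
  (show Function.Involutive (wi i o) from wi_wi i o).injective

/-- The three companions of role `i` at the scale `k` for the box of node `w` in the position of
role `0`. -/
def cmN (i : Fin 4) (o : ℤ) (h : ℕ → ℤ → Fin 4 → ℤ → ℝ) (k : ℕ) (w : ℤ) :
    (Pt → ℝ) × (Pt → ℝ) × (Pt → ℝ) :=
  cmp i fun j => lift j (h k (wi i o w) j)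

/-- The cost hypothesis of role `i`. -/
def CostR (i : Fin 4) (o : ℤ) (K : ℕ) (P : ℝ) (w : ℕ → Pt → H315.Tri → ℝ)
    (h : ℕ → ℤ → Fin 4 → ℤ → ℝ) : Prop :=
  CostN (cc i) o K P w (fun k v => (cmN i o h k v).1) (fun k v => (cmN i o h k v).2.1)
    (fun k v => (cmN i o h k v).2.2)

theorem invN (i : Fin 4) (o : ℤ) (h : ℕ → ℤ → Fin 4 → ℤ → ℝ) (k : ℕ) (v : ℤ) :
    Inv (cc i) (cmN i o h k v).1 (cmN i o h k v).2.1 (cmN i o h k v).2.2 := by
  unfold cmN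
  obtain rfl | rfl | rfl | rfl := fin4 i
  · exact inv0 _
  · exact inv1 _
  · exact inv2 _
  · exact inv3 _

/-- The sum over the nodes in the form with boxes. -/
theorem node_sum_eqN (o : ℤ) (h : ℕ → ℤ → Fin 4 → ℤ → ℝ) (i : Fin 4) (φ : ℤ → ℝ)
    (𝒩 : Finset (ℕ × ℤ)) (h𝒩 : ∀ N ∈ 𝒩, 1 ≤ N.1) :
    ∑ N ∈ 𝒩, |nd o N.1 N.2 (put i (h N.1 N.2) φ)| = ∑ N ∈ 𝒩, (8 ^ N.1 : ℝ)⁻¹ *
      |loc N.1 (o - 2 - N.2, N.2, 0, 0) (lift 0 (put i (h N.1 N.2) φ 0))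
        (lift 1 (put i (h N.1 N.2) φ 1)) (lift 2 (put i (h N.1 N.2) φ 2))
        (lift 3 (put i (h N.1 N.2) φ 3))| := by
  refine sum_congr rfl fun N hN => ?_
  rw [H314.nd_eq (h𝒩 N hN), abs_mul, abs_of_nonneg (by positivity)]

section roles

variable {K : ℕ} {o : ℤ} {P : ℝ} {w : ℕ → Pt → H315.Tri → ℝ} (hwf : Wf w) (hP : 0 ≤ P)
  (h : ℕ → ℤ → Fin 4 → ℤ → ℝ)
include hwf hP

theorem node_costN0 (hcost : CostR 0 o K P w h)
    (p : Pt) (u : H315.Tri) (𝒩 : Finset (ℕ × ℤ)) (h𝒩 : ∀ N ∈ 𝒩, 1 ≤ N.1 ∧ N.1 ≤ K) :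
    ∑ N ∈ 𝒩, |nd o N.1 N.2 (put 0 (h N.1 N.2) (pf (fc 0) K p u))| ≤ 8 * (P * w K p u) := by
  rw [node_sum_eqN o h 0 _ 𝒩 fun N hN => (h𝒩 N hN).1]
  refine le_trans (le_of_eq ?_) (transfer0N' (cc 0) hwf hP (invN 0 o h) hcost p u 𝒩 h𝒩
    (wi 0 o) (fun _ => 0) (fun _ => 0) (wi_inj 0 o) (fun v => (o - 2 - v, v, 0, 0)) ?_)
  · refine sum_congr rfl fun N _ => ?_
    have e0 : put 0 (h N.1 N.2) (pf (fc 0) K p u) 0 = pf (fc 0) K p u := rfl
    have e1 : put 0 (h N.1 N.2) (pf (fc 0) K p u) 1 = h N.1 N.2 1 := rfl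
    have e2 : put 0 (h N.1 N.2) (pf (fc 0) K p u) 2 = h N.1 N.2 2 := rfl
    have e3 : put 0 (h N.1 N.2) (pf (fc 0) K p u) 3 = h N.1 N.2 3 := rfl
    rw [e0, e1, e2, e3]
    unfold cmN
    rw [wi_wi]
    rfl
  · intro v; unfold bxm; simp [H560.h0, H560.h1, c0, cc, wi]

theorem node_costN1 (hcost : CostR 1 o K P w h)
    (p : Pt) (u : H315.Tri) (𝒩 : Finset (ℕ × ℤ)) (h𝒩 : ∀ N ∈ 𝒩, 1 ≤ N.1 ∧ N.1 ≤ K) :
    ∑ N ∈ 𝒩, |nd o N.1 N.2 (put 1 (h N.1 N.2) (pf (fc 1) K p u))| ≤ 8 * (P * w K p u) := by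
  rw [node_sum_eqN o h 1 _ 𝒩 fun N hN => (h𝒩 N hN).1]
  refine le_trans (le_of_eq ?_) (transfer0N' (cc 1) hwf hP (invN 1 o h) hcost p u 𝒩 h𝒩
    (wi 1 o) (fun _ => 0) (fun _ => 0) (wi_inj 1 o) (fun v => (v, o - 2 - v, 0, 0)) ?_)
  · refine sum_congr rfl fun N _ => ?_
    have e0 : put 1 (h N.1 N.2) (pf (fc 1) K p u) 0 = h N.1 N.2 0 := rfl
    have e1 : put 1 (h N.1 N.2) (pf (fc 1) K p u) 1 = pf (fc 1) K p u := rfl
    have e2 : put 1 (h N.1 N.2) (pf (fc 1) K p u) 2 = h N.1 N.2 2 := rfl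
    have e3 : put 1 (h N.1 N.2) (pf (fc 1) K p u) 3 = h N.1 N.2 3 := rfl
    rw [e0, e1, e2, e3, ← loc_swap01]
    unfold cmN
    rw [wi_wi]
    rfl
  · intro v; unfold bxm; simp [H560.h0, H560.h1, c1, cc, wi]

theorem node_costN2 (hcost : CostR 2 o K P w h)
    (p : Pt) (u : H315.Tri) (𝒩 : Finset (ℕ × ℤ)) (h𝒩 : ∀ N ∈ 𝒩, 1 ≤ N.1 ∧ N.1 ≤ K) :
    ∑ N ∈ 𝒩, |nd o N.1 N.2 (put 2 (h N.1 N.2) (pf (fc 2) K p u))| ≤ 8 * (P * w K p u) := by
  rw [node_sum_eqN o h 2 _ 𝒩 fun N hN => (h𝒩 N hN).1, ← hwf.t12]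
  refine le_trans (le_of_eq ?_) (transfer0N' (cc 2) hwf hP (invN 2 o h) hcost (t12 p)
    (u12 u) 𝒩 h𝒩
    (wi 2 o) (fun v => o - 2 - v) (fun _ => 0) (wi_inj 2 o)
    (fun v => (0, v, o - 2 - v, 0)) ?_)
  · have e : s12 (lift 2 (pf (fc 2) K p u)) =
        fun y => pf (c2.e, c2.d2, c2.d3) K (t12 p) (u12 u) (lf c2 y) := by
      rw [pf_t12 (fc 2) K p u]
      funext y
      have : el (fc 2) (y.2.1, y.1, y.2.2) = lf c2 y := by
        simp only [el, fc, lf, c2]; ring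
      simp only [s12, lift]
      rw [this]; rfl
    refine sum_congr rfl fun N _ => ?_
    have e0 : put 2 (h N.1 N.2) (pf (fc 2) K p u) 0 = h N.1 N.2 0 := rfl
    have e1 : put 2 (h N.1 N.2) (pf (fc 2) K p u) 1 = h N.1 N.2 1 := rfl
    have e2 : put 2 (h N.1 N.2) (pf (fc 2) K p u) 2 = pf (fc 2) K p u := rfl
    have e3 : put 2 (h N.1 N.2) (pf (fc 2) K p u) 3 = h N.1 N.2 3 := rfl
    rw [e0, e1, e2, e3, ← loc_swap12, ← loc_swap01, ← loc_swap12, e]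
    unfold cmN
    rw [wi_wi]
    rfl
  · intro v; unfold bxm; simp only [H560.h0, H560.h1, c2, cc, wi]
    ext <;> simp <;> ring

theorem node_costN3 (hcost : CostR 3 o K P w h)
    (p : Pt) (u : H315.Tri) (𝒩 : Finset (ℕ × ℤ)) (h𝒩 : ∀ N ∈ 𝒩, 1 ≤ N.1 ∧ N.1 ≤ K) :
    ∑ N ∈ 𝒩, |nd o N.1 N.2 (put 3 (h N.1 N.2) (pf (fc 3) K p u))| ≤ 8 * (P * w K p u) := by
  rw [node_sum_eqN o h 3 _ 𝒩 fun N hN => (h𝒩 N hN).1, ← hwf.t23, ← hwf.t12]
  refine le_trans (le_of_eq ?_) (transfer0N' (cc 3) hwf hP (invN 3 o h) hcost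
    (t12 (t23 p)) (u12 (u23 u)) 𝒩 h𝒩
    (wi 3 o) (fun v => o - 2 - v) (fun v => v) (wi_inj 3 o)
    (fun v => (0, 0, o - 2 - v, v)) ?_)
  · have e : s12 (s23 (lift 3 (pf (fc 3) K p u))) =
        fun y => pf (c3.e, c3.d2, c3.d3) K (t12 (t23 p)) (u12 (u23 u)) (lf c3 y) := by
      rw [pf_t23 (fc 3) K p u, pf_t12 (t23 (fc 3)) K (t23 p) (u23 u)]
      funext y
      have : el (fc 3) (y.2.1, y.2.2, y.1) = lf c3 y := by
        simp only [el, fc, lf, c3]; ring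
      simp only [s12, s23, lift]
      rw [this]; rfl
    refine sum_congr rfl fun N _ => ?_
    have e0 : put 3 (h N.1 N.2) (pf (fc 3) K p u) 0 = h N.1 N.2 0 := rfl
    have e1 : put 3 (h N.1 N.2) (pf (fc 3) K p u) 1 = h N.1 N.2 1 := rfl
    have e2 : put 3 (h N.1 N.2) (pf (fc 3) K p u) 2 = h N.1 N.2 2 := rfl
    have e3 : put 3 (h N.1 N.2) (pf (fc 3) K p u) 3 = pf (fc 3) K p u := rfl
    rw [e0, e1, e2, e3, ← loc_swap23, ← loc_swap12, ← loc_swap01, ← loc_swap23, ← loc_swap12, e]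
    unfold cmN
    rw [wi_wi]
    rfl
  · intro v; unfold bxm; simp only [H560.h0, H560.h1, c3, cc, wi]
    ext <;> simp <;> ring

/-- **The cost of a one-dimensional atom at the nodes, companions depending on the node.**
`h k v j` = companion of face `j` at the node `(k, v)`. -/
theorem node_costN (i : Fin 4) (hcost : CostR i o K P w h)
    (p : Pt) (u : H315.Tri) (𝒩 : Finset (ℕ × ℤ)) (h𝒩 : ∀ N ∈ 𝒩, 1 ≤ N.1 ∧ N.1 ≤ K) :
    ∑ N ∈ 𝒩, |nd o N.1 N.2 (put i (h N.1 N.2) (pf (fc i) K p u))| ≤ 8 * (P * w K p u) := by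
  obtain rfl | rfl | rfl | rfl := fin4 i
  · exact node_costN0 hwf hP h hcost p u 𝒩 h𝒩
  · exact node_costN1 hwf hP h hcost p u 𝒩 h𝒩
  · exact node_costN2 hwf hP h hcost p u 𝒩 h𝒩
  · exact node_costN3 hwf hP h hcost p u 𝒩 h𝒩

end roles

end

end Vale.Agent.P141.H347.Tr
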