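import Vale.Agent.P141.H347.Cell4

/-!
# P141, line W: the one-cell process (module M1a), the theorem
-/

namespace Vale.Agent.P141.H347

open Finset Vale.Agent.P141.H315 Vale.Agent.P141.PL.H318

noncomputable section

open scoped Classical

variable {X ι : Type*} {g : Grid X} {S : CSys g ι} {w : LW S} {L : ℕ} {e : ℝ} {F : X → ℝ}
  {gd : ℕ → X → Prop}

/-- The first restarts from below: at most one scale. -/
theorem last_le_one (l : ℕ) (z : X) : ∑ j ∈ range l,
    (if pR w L e F gd j z ∧ ¬ nxA w L e F gd j z then (1 : ℝ) else 0) ≤ 1 := by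
  induction l with
  | zero => simp
  | succ l ih =>
    rw [sum_range_succ]
    by_cases h : pR w L e F gd l z ∧ ¬ nxA w L e F gd l z
    · rw [if_pos h]
      have : ∑ j ∈ range l,
          (if pR w L e F gd j z ∧ ¬ nxA w L e F gd j z then (1 : ℝ) else 0) = 0 := by
        refine sum_eq_zero fun j hj => if_neg fun h' => h.2 ⟨j, mem_range.1 hj, h'.1⟩
      rw [this, zero_add]
    · rw [if_neg h, add_zero]
      exact ih

/-- **Packing of the restarts.** -/
theorem pack_le (h : Hyp g L e F gd) {l : ℕ} (hl : l ≤ L) (x : X) :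
    ∑ j ∈ range l, ∑ z ∈ g.cube l x, (if pR w L e F gd j z then (1 : ℝ) else 0) ≤
      8 / 7 * cd g l x := by
  set R := ∑ j ∈ range l, ∑ z ∈ g.cube l x, (if pR w L e F gd j z then (1 : ℝ) else 0) with hR
  have h1 : R = ∑ j ∈ range l, ∑ z ∈ g.cube l x,
        (if pR w L e F gd j z ∧ nxA w L e F gd j z then (1 : ℝ) else 0) +
      ∑ j ∈ range l, ∑ z ∈ g.cube l x,
        (if pR w L e F gd j z ∧ ¬ nxA w L e F gd j z then (1 : ℝ) else 0) := by
    rw [hR, ← sum_add_distrib]
    refine sum_congr rfl fun j _ => ?_
    rw [← sum_add_distrib]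
    refine sum_congr rfl fun z _ => ?_
    by_cases h1 : pR w L e F gd j z <;> by_cases h2 : nxA w L e F gd j z <;> simp [h1, h2]
  have h2 : ∑ j ∈ range l, ∑ z ∈ g.cube l x,
        (if pR w L e F gd j z ∧ ¬ nxA w L e F gd j z then (1 : ℝ) else 0) ≤ cd g l x := by
    rw [sum_comm, ← sum_one]
    exact sum_le_sum fun z _ => last_le_one l z
  have h3 : ∑ j ∈ range l, ∑ z ∈ g.cube l x,
        (if pR w L e F gd j z ∧ nxA w L e F gd j z then (1 : ℝ) else 0) ≤ R / 8 := by
    rw [hR, sum_div]
    refine sum_le_sum fun j hj => ?_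
    rw [mem_range] at hj
    rw [sum_div]
    refine g.sum_le_sum_of_cubes hj.le x _ _ fun y _ => ?_
    by_cases hr : pR w L e F gd j y
    · have hr' : ∀ z ∈ g.cube j y, pR w L e F gd j z := fun z hz => (pR_const h hz).2 hr
      have h4 := frac h (by omega : j ≤ L) (⟨(pR_lt hr).2, Or.inr hr⟩ : Stt w L e F gd j y)
      have h5 : ∑ z ∈ g.cube j y,
          (if pR w L e F gd j z ∧ nxA w L e F gd j z then (1 : ℝ) else 0) =
          ∑ z ∈ g.cube j y, (if nxA w L e F gd j z then (1 : ℝ) else 0) :=
        sum_congr rfl fun z hz => by simp [hr' z hz]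
      have h6 : ∑ z ∈ g.cube j y, (if pR w L e F gd j z then (1 : ℝ) else 0) / 8 =
          cd g j y / 8 := by
        rw [← sum_div, sum_ite_const hr' (fun _ => 1), sum_one]
      rw [h5, h6]
      exact h4
    · refine sum_le_sum fun z hz => ?_
      have hr' : ¬ pR w L e F gd j z := fun h' => hr ((pR_const h hz).1 h')
      rw [if_neg fun h' => hr' h'.1, if_neg hr', zero_div]
  linarith

/-- Energy alive, drops and discards. -/
theorem budget (h : Hyp g L e F gd) {l : ℕ} (hl : l ≤ L) {x : X} (hx : gd l x) :
    ∑ j ∈ range (l + 1), ∑ z ∈ g.cube l x,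
        (if gd j z then dr S j (pH w L e F gd j) z else 0) +
      ∑ j ∈ range l, ∑ z ∈ g.cube l x, (if pR w L e F gd j z then
        pV w L e F gd (j + 1) z * pV w L e F gd (j + 1) z else 0) ≤ 10 * e * cd g l x := by
  have he := h.e_pos
  have h1 := drop_aux (w := w) h hl x (Nat.zero_le l)
  have h2 : ∀ z ∈ g.cube l x, gd l z := fun z hz => (h.const l x z hz).2 hx
  have h3 : ∑ z ∈ g.cube l x, pV w L e F gd l z * pV w L e F gd l z +
      ∑ z ∈ g.cube l x, (if gd l z then dr S l (pH w L e F gd l) z else 0) ≤
      8 * e * cd g l x := by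
    rw [sum_ite_const h2, sum_dr]
    have e1 : ∑ z ∈ g.cube l x, pV w L e F gd l z * pV w L e F gd l z =
        dot (g.cube l x) (T S l (pH w L e F gd l)) (T S l (pH w L e F gd l)) :=
      sum_congr rfl fun z hz => by rw [dotV_eq h hl hx z hz]
    rw [e1]
    have := enH (w := w) h hl hx
    linarith
  have h4 : ∑ j ∈ Ico 0 l, ∑ z ∈ g.cube l x, (if pR w L e F gd j z then e else 0) ≤
      8 / 7 * cd g l x * e := by
    have := mul_le_mul_of_nonneg_right (pack_le (w := w) h hl x) he.le
    refine le_trans (le_of_eq ?_) this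
    rw [← Nat.Ico_zero_eq_range, sum_mul]
    refine sum_congr rfl fun j _ => ?_
    rw [sum_mul]
    refine sum_congr rfl fun z _ => ?_
    split_ifs <;> ring
  have h5 : 0 ≤ ∑ z ∈ g.cube l x, pV w L e F gd 0 z * pV w L e F gd 0 z :=
    sum_nonneg fun _ _ => mul_self_nonneg _
  rw [sum_add_distrib, Nat.Ico_zero_eq_range] at h1
  rw [Nat.Ico_zero_eq_range] at h4
  rw [sum_range_succ]
  have hc := mul_pos he (cd_pos g l x)
  linarith

/-- The movement of one step is paid by the drop. -/
theorem one_window (S : CSys g ι) (k : ℕ) (G : X → ℝ) (x : X) :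
    dot (g.cube k x) (G - T S k G) (G - T S k G) ≤
      (1 + 2 * S.C) * (dot (g.cube k x) G G - dot (g.cube k x) (T S k G) (T S k G)) := by
  have hC := S.C_nonneg
  have h1 := abs_dot_birth_le (S := S) (G := T S k G) (H := G) (le_refl k) (le_refl k)
    (fun y i => T_unif S k G y i) x
  rw [sum_den] at h1
  have h2 := T_energy S k G x
  have e1 : G - T S k G = birth S k G := by
    funext y
    simp only [Pi.sub_apply, T, birth]
    ring
  have e2 : G = T S k G + birth S k G := by rw [← e1]; abel
  have e3 : dot (g.cube k x) G G = dot (g.cube k x) (T S k G) (T S k G) +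
      2 * dot (g.cube k x) (T S k G) (birth S k G) +
      dot (g.cube k x) (birth S k G) (birth S k G) := by
    conv_lhs => rw [e2]
    rw [dot_add_left, dot_add_right, dot_add_right, dot_comm _ (birth S k G) (T S k G)]
    ring
  rw [e1]
  have h3 := (abs_le.mp h1).1
  have h4 := cW_nonneg S k (g.cube k x) (bm S k G (g.cube k x))
  nlinarith [mul_nonneg hC h4]

/-- Movement in one step on one cube. -/
theorem step_move (h : Hyp g L e F gd) {k : ℕ} (hk : k < L) (x : X) :
    ∑ z ∈ g.cube k x, (pV w L e F gd (k + 1) z - pV w L e F gd k z) *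
        (pV w L e F gd (k + 1) z - pV w L e F gd k z) ≤
      ∑ z ∈ g.cube k x, ((1 + 2 * S.C) * (if gd k z then dr S k (pH w L e F gd k) z else 0) +
        2 * (if pR w L e F gd k z then pV w L e F gd (k + 1) z * pV w L e F gd (k + 1) z else 0) +
        2 * (if pR w L e F gd k z then e else 0)) := by
  have he := h.e_pos
  have hC := S.C_nonneg
  by_cases hx : gd k x
  · have hg' : ∀ z ∈ g.cube k x, gd k z := fun z hz => (h.const k x z hz).2 hx
    have e2 : ∑ z ∈ g.cube k x, (if gd k z then dr S k (pH w L e F gd k) z else 0) =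
        dot (g.cube k x) (pH w L e F gd k) (pH w L e F gd k) -
          dot (g.cube k x) (T S k (pH w L e F gd k)) (T S k (pH w L e F gd k)) := by
      rw [sum_ite_const hg', sum_dr]
    rw [sum_add_distrib, sum_add_distrib, ← mul_sum, ← mul_sum, ← mul_sum, e2]
    by_cases hr : pR w L e F gd k x
    · have hr' : ∀ z ∈ g.cube k x, pR w L e F gd k z := fun z hz => (pR_const h hz).2 hr
      rw [sum_ite_const hr' (fun _ => e), sum_const, nsmul_eq_mul,
        sum_ite_const hr' (fun z => pV w L e F gd (k + 1) z * pV w L e F gd (k + 1) z)]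
      have h1 : ∀ y ∈ g.cube k x, pH w L e F gd k y = F y := fun y hy => pH_of_rs (hr' y hy)
      have h2 : dot (g.cube k x) (pH w L e F gd k) (pH w L e F gd k) ≤
          e * (g.cube k x).card := by
        rw [dot_congr h1 h1]
        exact h.energy k hk.le x hx
      have h3 := T_energy_le S k (pH w L e F gd k) x
      have h4 : ∑ z ∈ g.cube k x, (pV w L e F gd (k + 1) z - pV w L e F gd k z) *
          (pV w L e F gd (k + 1) z - pV w L e F gd k z) ≤
          2 * ∑ z ∈ g.cube k x, pV w L e F gd (k + 1) z * pV w L e F gd (k + 1) z +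
          2 * dot (g.cube k x) (T S k (pH w L e F gd k)) (T S k (pH w L e F gd k)) := by
        unfold dot
        rw [mul_sum, mul_sum, ← sum_add_distrib]
        refine sum_le_sum fun z hz => ?_
        rw [← dotV_eq h hk.le hx z hz]
        nlinarith [sq_nonneg (pV w L e F gd (k + 1) z + pV w L e F gd k z)]
      have h5 : 0 ≤ (1 + 2 * S.C) * (dot (g.cube k x) (pH w L e F gd k) (pH w L e F gd k) -
          dot (g.cube k x) (T S k (pH w L e F gd k)) (T S k (pH w L e F gd k))) :=
        mul_nonneg (by linarith) (by linarith)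
      have h6 : e * ((g.cube k x).card : ℝ) = ((g.cube k x).card : ℝ) * e := mul_comm _ _
      linarith
    · have hr' : ∀ z ∈ g.cube k x, ¬ pR w L e F gd k z := fun z hz h' =>
        hr ((pR_const h hz).1 h')
      have h1 : ∀ y ∈ g.cube k x, pH w L e F gd k y = pV w L e F gd (k + 1) y := fun y hy =>
        pH_of_not (hr' y hy)
      have h2 : ∑ z ∈ g.cube k x, (if pR w L e F gd k z then
          pV w L e F gd (k + 1) z * pV w L e F gd (k + 1) z else 0) = 0 :=
        sum_eq_zero fun z hz => if_neg (hr' z hz)
      have h3 : ∑ z ∈ g.cube k x, (if pR w L e F gd k z then e else 0) = 0 :=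
        sum_eq_zero fun z hz => if_neg (hr' z hz)
      have h4 := one_window S k (pH w L e F gd k) x
      have h5 : dot (g.cube k x) (pH w L e F gd k - T S k (pH w L e F gd k))
          (pH w L e F gd k - T S k (pH w L e F gd k)) =
          ∑ z ∈ g.cube k x, (pV w L e F gd (k + 1) z - pV w L e F gd k z) *
            (pV w L e F gd (k + 1) z - pV w L e F gd k z) := by
        refine sum_congr rfl fun z hz => ?_
        rw [Pi.sub_apply, h1 z hz, ← dotV_eq h hk.le hx z hz]
      rw [h2, h3, ← h5]
      linarith
  · have h1 : ∑ z ∈ g.cube k x, (pV w L e F gd (k + 1) z - pV w L e F gd k z) *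
        (pV w L e F gd (k + 1) z - pV w L e F gd k z) = 0 := by
      refine sum_eq_zero fun z hz => ?_
      have hz' : ¬ gd k z := fun h' => hx ((h.const k x z hz).1 h')
      rw [pV_idle hk.le hz']
      ring
    rw [h1]
    refine sum_nonneg fun z _ => ?_
    have n1 : 0 ≤ (if gd k z then dr S k (pH w L e F gd k) z else 0) := by
      split_ifs
      · exact dr_nonneg _ _ _
      · exact le_rfl
    have n2 : 0 ≤ (if pR w L e F gd k z then
        pV w L e F gd (k + 1) z * pV w L e F gd (k + 1) z else 0) := by
      split_ifs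
      · exact mul_self_nonneg _
      · exact le_rfl
    have n3 : 0 ≤ (if pR w L e F gd k z then e else 0) := by split_ifs <;> linarith
    have n4 := mul_nonneg (by linarith : 0 ≤ 1 + 2 * S.C) n1
    linarith

/-- **The one-cell process exists.** -/
theorem exists_pth (w : LW S) (h : Hyp g L e F gd) :
    Pth w L e F gd (pV w L e F gd) (pH w L e F gd) (pR w L e F gd)
      (fun k => pM w L e F gd k k) where
  rs_const k x y hy := pR_const h hy
  rs_lt k x hr := pR_lt hr
  lm_const k x y hy := (pMR_const h.const k).1 k le_rfl x y hy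
  step k hk x hx := pV_step hk hx
  idle k hk x hx := pV_idle hk.le hx
  top x := pH_top x
  keep k _ x _ hr := pH_of_not hr
  restart k x hr := pH_of_rs hr
  lm_eq k hk x hx := by
    rw [pM_eq (by omega)]
    refine sum_congr rfl fun j hj => ?_
    rw [mem_Ico] at hj
    rw [if_pos (h.up' hj.1 (by omega) hx)]
  enH k hk x hx := enH h hk hx
  enV k hk x hx := enV h hk hx
  mass k hk x hx := by
    have he := h.e_pos
    rw [pM_step hk, if_pos hx]
    have h1 : lden w k k (pH w L e F gd k) x ≤ 8 * e := by
      refine (lden_self_le w k _ x).trans ((den_le_dr k _ x).trans ?_)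
      unfold dr
      rw [div_le_iff₀ (cd_pos g k x)]
      have h2 := enH (w := w) h hk hx
      have h3 := dot_self_nonneg (g.cube k x) (T S k (pH w L e F gd k))
      linarith
    have h2 : (if pR w L e F gd k x then 0 else pM w L e F gd (k + 1) k x) ≤ 8 * e := by
      by_cases hr : pR w L e F gd k x
      · rw [if_pos hr]; linarith
      · rw [if_neg hr]
        rcases Nat.lt_or_ge k L with hkL | hkL
        · by_contra hcon
          push Not at hcon
          exact hr ⟨hkL, hx, Or.inr hcon⟩
        · rw [pM_top (by omega)]; linarith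
    linarith
  pack k hk x _ := by
    have := pack_le (w := w) h hk x
    have hc := cd_pos g k x
    linarith
  drop k hk x hx := by
    have h1 := budget (w := w) h hk hx
    have h2 : 0 ≤ ∑ j ∈ range k, ∑ z ∈ g.cube k x, (if pR w L e F gd j z then
        pV w L e F gd (j + 1) z * pV w L e F gd (j + 1) z else 0) :=
      sum_nonneg fun j _ => sum_nonneg fun z _ => by
        split_ifs
        · exact mul_self_nonneg _
        · exact le_rfl
    have hc := mul_pos h.e_pos (cd_pos g k x)
    linarith
  disc k hk x hx := by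
    have h1 := budget (w := w) h hk hx
    have h2 : 0 ≤ ∑ j ∈ range (k + 1), ∑ z ∈ g.cube k x,
        (if gd j z then dr S j (pH w L e F gd j) z else 0) :=
      sum_nonneg fun j _ => sum_nonneg fun z _ => by
        split_ifs
        · exact dr_nonneg _ _ _
        · exact le_rfl
    have hc := mul_pos h.e_pos (cd_pos g k x)
    linarith
  move k hk x hx := by
    have he := h.e_pos
    have hC := S.C_nonneg
    have h1 := budget (w := w) h hk hx
    have h3 := pack_le (w := w) h hk x
    have hc := mul_pos he (cd_pos g k x)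
    have h5 : ∑ j ∈ range k, ∑ z ∈ g.cube k x, (pV w L e F gd (j + 1) z - pV w L e F gd j z) *
        (pV w L e F gd (j + 1) z - pV w L e F gd j z) ≤
        (1 + 2 * S.C) * ∑ j ∈ range (k + 1), ∑ z ∈ g.cube k x,
          (if gd j z then dr S j (pH w L e F gd j) z else 0) +
        2 * ∑ j ∈ range k, ∑ z ∈ g.cube k x, (if pR w L e F gd j z then
          pV w L e F gd (j + 1) z * pV w L e F gd (j + 1) z else 0) +
        2 * (e * ∑ j ∈ range k, ∑ z ∈ g.cube k x, (if pR w L e F gd j z then (1 : ℝ) else 0)) := by
      have h6 : ∑ j ∈ range k, ∑ z ∈ g.cube k x,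
          (pV w L e F gd (j + 1) z - pV w L e F gd j z) *
            (pV w L e F gd (j + 1) z - pV w L e F gd j z) ≤
          ∑ j ∈ range k, ∑ z ∈ g.cube k x,
            ((1 + 2 * S.C) * (if gd j z then dr S j (pH w L e F gd j) z else 0) +
            2 * (if pR w L e F gd j z then
              pV w L e F gd (j + 1) z * pV w L e F gd (j + 1) z else 0) +
            2 * (if pR w L e F gd j z then e else 0)) := by
        refine sum_le_sum fun j hj => ?_
        rw [mem_range] at hj
        exact g.sum_le_sum_of_cubes hj.le x _ _ fun y _ => step_move h (by omega) y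
      refine h6.trans ?_
      simp only [sum_add_distrib, ← mul_sum]
      have h7 : ∑ j ∈ range k, ∑ z ∈ g.cube k x, (if pR w L e F gd j z then e else 0) =
          e * ∑ j ∈ range k, ∑ z ∈ g.cube k x, (if pR w L e F gd j z then (1 : ℝ) else 0) := by
        rw [mul_sum]
        refine sum_congr rfl fun j _ => ?_
        rw [mul_sum]
        refine sum_congr rfl fun z _ => ?_
        split_ifs <;> ring
      rw [h7, sum_range_succ]
      have h8 : 0 ≤ ∑ z ∈ g.cube k x,
          (if gd k z then dr S k (pH w L e F gd k) z else 0) :=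
        sum_nonneg fun z _ => by
          split_ifs
          · exact dr_nonneg _ _ _
          · exact le_rfl
      have h9 := mul_nonneg (by linarith : 0 ≤ 1 + 2 * S.C) h8
      linarith
    refine h5.trans ?_
    set D := ∑ j ∈ range (k + 1), ∑ z ∈ g.cube k x,
      (if gd j z then dr S j (pH w L e F gd j) z else 0) with hD
    set E := ∑ j ∈ range k, ∑ z ∈ g.cube k x, (if pR w L e F gd j z then
        pV w L e F gd (j + 1) z * pV w L e F gd (j + 1) z else 0) with hE
    set R := ∑ j ∈ range k, ∑ z ∈ g.cube k x, (if pR w L e F gd j z then (1 : ℝ) else 0)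
      with hR
    have hE0 : 0 ≤ E := sum_nonneg fun j _ => sum_nonneg fun z _ => by
        split_ifs
        · exact mul_self_nonneg _
        · exact le_rfl
    have hD0 : D ≤ 10 * e * cd g k x := by linarith
    have hD1 : (1 + 2 * S.C) * D ≤ (1 + 2 * S.C) * (10 * e * cd g k x) :=
      mul_le_mul_of_nonneg_left hD0 (by linarith)
    have hD00 : 0 ≤ D := sum_nonneg fun j _ => sum_nonneg fun z _ => by
        split_ifs
        · exact dr_nonneg _ _ _
        · exact le_rfl
    have hE1 : E ≤ 10 * e * cd g k x := by linarith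
    have hR1 : e * R ≤ e * (8 / 7 * cd g k x) := mul_le_mul_of_nonneg_left h3 he.le
    have hx1 : 0 ≤ S.C * (e * cd g k x) := mul_nonneg hC hc.le
    nlinarith

end

end Vale.Agent.P141.H347
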