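import Vale.Agent.P141.PL.H855.Win0
import Vale.Agent.P141.H297.Win7
import Vale.Agent.P141.H8.Lab
import Vale.Agent.P141.H782.Top3

/-!
# P141, line W, scale invariant version, first level, part 1: static payments

`Nd s ud 𝒲`: the nodes `𝒲` are read on cells of the region `ud`.
`Pay o w L gd c CE`: an atom alive at the top cell of a region, three static companions of local
energy at most `CE`.
`pay_alive`: data minus residual at one cell = the atoms alive.
`pay_births`: the births inside one window, three static companions.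
-/

namespace Vale.Agent.P141.H347.Fi

open Finset
open Vale.Agent.P141.H315 (Grid dot)
open Vale.Agent.P141.PL.H315 (le)
open Vale.Agent.P141.PL.H571 (W)
open Vale.Agent.P141.PL.H318 (CSys bm birth den cW)
open Vale.Agent.P141.PL.H95 (gr)
open Vale.Agent.P141.PL.H855 (wN TT wN_congr wN_update_sum wN_update_smul)
open Vale.Agent.P141.H297 (Paths tp Alv alive_sum birth_sum V_top_eq en en_le_iff Dw_end den_le_dr
  dr_nonneg cd_pos tp_const)
open Vale.Agent.P141.H347 (LW Pth lden cd dr)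
open Vale.Agent.P141.H8 (Rgn En)

noncomputable section

open scoped Classical

/-- the nodes `𝒲` are read on cells of the region `ud` -/
def Nd (s : ℤ) (ud : ℕ → ℤ → Prop) (𝒲 : Finset (ℕ × ℤ)) : Prop :=
  ∀ N ∈ 𝒲, 1 ≤ N.1 ∧ W N.1 N.2 ⊆ (gr 7 s).cube N.1 (le N) ∧ ud N.1 (le N)

variable {s : ℤ} {ι : Type*} {S : Fin 4 → CSys (gr 7 s) ι}

/-- **The static payment**: an atom alive at the top cell of a region, three static companions. -/
def Pay (o : ℤ) (w : ∀ j, LW (S j)) (L : ℕ) (gd : ℕ → ℤ → Prop) (c CE : ℝ) : Prop :=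
  ∀ (m : Fin 4) (Λ : ℕ) (x : ℤ) (ud : ℕ → ℤ → Prop), Λ ≤ L → Rgn (gr 7 s) gd Λ x ud →
    ∀ h : Fin 4 → ℤ → ℝ, (∀ j, j ≠ m → En (gr 7 s) ud (h j) CE) →
    ∀ 𝒲, Nd s ud 𝒲 → ∀ j, Λ ≤ j → j ≤ L → ∀ i,
      ∑ N ∈ 𝒲, |wN o (Function.update h m ((S m).a j i)) N| ≤
        c * (w m).ω j Λ x i * cd (gr 7 s) Λ x

theorem mem_cube_of_Nd {gd ud : ℕ → ℤ → Prop} {Λ : ℕ} {x : ℤ} (hR : Rgn (gr 7 s) gd Λ x ud)
    {𝒲 : Finset (ℕ × ℤ)} (hW : Nd s ud 𝒲) {N : ℕ × ℤ} (hN : N ∈ 𝒲) {j : ℕ} (h1 : N.1 ≤ j)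
    {y : ℤ} (hy : y ∈ W N.1 N.2) : y ∈ (gr 7 s).cube j (le N) :=
  (gr 7 s).sub_le h1 _ ((hW N hN).2.1 hy)

/-- the value of a node with a combination of atoms in one slot -/
theorem wN_update_finsupp (o : ℤ) (h : Fin 4 → ℤ → ℝ) (m : Fin 4) (b : ι →₀ ℝ)
    (a : ι → ℤ → ℝ) (N : ℕ × ℤ) :
    wN o (Function.update h m (∑ i ∈ b.support, b i • a i)) N =
      b.sum fun i c => c * wN o (Function.update h m (a i)) N := by
  rw [wN_update_sum, Finsupp.sum]
  exact sum_congr rfl fun i _ => wN_update_smul _ _ _ _ _ _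

variable {o : ℤ} {w : ∀ j, LW (S j)} {L : ℕ} {gd : ℕ → ℤ → Prop} {c CE : ℝ}

/-- **The atoms alive at one cell pay.** -/
theorem pay_alive (ho : o = 1 ∨ o = -1) (hPay : Pay o w L gd c CE) {m : Fin 4} {e : ℝ}
    {F : ℤ → ℝ} {V H : ℕ → ℤ → ℝ} {rs : ℕ → ℤ → Prop} {lm : ℕ → ℤ → ℝ}
    (hP : Pth (w m) L e F gd V H rs lm) (hup : ∀ k < L, ∀ x, gd k x → gd (k + 1) x)
    (hgc : ∀ k x y, y ∈ (gr 7 s).cube k x → (gd k y ↔ gd k x)) {Λ : ℕ} {x : ℤ} (hΛ : Λ ≤ L)
    (hx : gd Λ x) {ud : ℕ → ℤ → Prop} (hR : Rgn (gr 7 s) gd Λ x ud) {h : Fin 4 → ℤ → ℝ}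
    (hE : ∀ j, j ≠ m → En (gr 7 s) ud (h j) CE) {𝒲 : Finset (ℕ × ℤ)} (hW : Nd s ud 𝒲) :
    ∑ N ∈ 𝒲, |wN o (Function.update h m fun y => F y - V Λ y) N| ≤
      c * lm Λ x * cd (gr 7 s) Λ x := by
  -- the function on the cell
  have key : ∀ N ∈ 𝒲, wN o (Function.update h m fun y => F y - V Λ y) N =
      ∑ j ∈ Ico Λ (L + 1), if Alv rs Λ j x then (bm (S m) j (H j) ((gr 7 s).cube j x)).sum fun i b =>
        b * wN o (Function.update h m ((S m).a j i)) N else 0 := by
    intro N hN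
    have h1 : N.1 ≤ Λ := (hR.bel _ _ (hW N hN).2.2).1
    have h2 : le N ∈ (gr 7 s).cube Λ x := (hR.bel _ _ (hW N hN).2.2).2
    have e1 : wN o (Function.update h m fun y => F y - V Λ y) N =
        wN o (Function.update h m (∑ j ∈ Ico Λ (L + 1), if Alv rs Λ j x then
          ∑ i ∈ (bm (S m) j (H j) ((gr 7 s).cube j x)).support,
            (bm (S m) j (H j) ((gr 7 s).cube j x)) i • (S m).a j i else 0)) N := by
      refine wN_congr ho fun l y hy => ?_
      by_cases hl : l = m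
      · subst hl
        rw [Function.update_self, Function.update_self]
        have h3 : y ∈ (gr 7 s).cube Λ x := by
          rw [← (gr 7 s).eq_of_mem Λ x _ h2]; exact mem_cube_of_Nd hR hW hN h1 hy
        rw [alive_sum hP hup hΛ ((hgc Λ x y h3).2 hx), Finset.sum_apply]
        refine sum_congr rfl fun j hj => ?_
        rw [mem_Ico] at hj
        have h4 : Alv rs Λ j y ↔ Alv rs Λ j x :=
          forall_congr' fun i => forall_congr' fun hi => forall_congr' fun _ => by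
            rw [hP.rs_const i x y ((gr 7 s).sub_le hi x h3)]
        by_cases h5 : Alv rs Λ j x
        · rw [if_pos h5, if_pos (h4.2 h5), birth_sum (S l) j (H j) ((gr 7 s).sub_le hj.1 x h3),
            Finsupp.sum, Finset.sum_apply]
          exact sum_congr rfl fun i _ => rfl
        · rw [if_neg h5, if_neg fun h6 => h5 (h4.1 h6)]
          rfl
      · rw [Function.update_of_ne hl, Function.update_of_ne hl]
    rw [e1, wN_update_sum]
    refine sum_congr rfl fun j _ => ?_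
    split_ifs
    · exact wN_update_finsupp _ _ _ _ _ _
    · exact Vale.Agent.P141.PL.H855.wN_update_zero _ _ _ _
  have h1 : ∀ N ∈ 𝒲, |wN o (Function.update h m fun y => F y - V Λ y) N| ≤
      ∑ j ∈ Ico Λ (L + 1), if Alv rs Λ j x then (bm (S m) j (H j) ((gr 7 s).cube j x)).sum fun i b =>
        |b| * |wN o (Function.update h m ((S m).a j i)) N| else 0 := by
    intro N hN
    rw [key N hN]
    refine (abs_sum_le_sum_abs _ _).trans (sum_le_sum fun j _ => ?_)
    split_ifs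
    · unfold Finsupp.sum
      exact (abs_sum_le_sum_abs _ _).trans (le_of_eq (sum_congr rfl fun i _ => abs_mul _ _))
    · simp
  refine (sum_le_sum h1).trans ?_
  rw [sum_comm, hP.lm_eq Λ hΛ x hx, mul_sum, sum_mul]
  refine sum_le_sum fun j hj => ?_
  rw [mem_Ico] at hj
  by_cases h5 : Alv rs Λ j x
  · have h6 : (∀ i, Λ ≤ i → i < j → ¬ rs i x) := h5
    simp only [if_pos h5, if_pos h6]
    unfold Finsupp.sum lden Finsupp.sum
    rw [sum_comm, mul_sum, sum_mul]
    refine sum_le_sum fun i _ => ?_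
    rw [← mul_sum]
    have h7 := mul_le_mul_of_nonneg_left
      (hPay m Λ x ud hΛ hR h hE 𝒲 hW j hj.1 (by omega) i)
      (abs_nonneg ((bm (S m) j (H j) ((gr 7 s).cube j x)) i))
    refine h7.trans (le_of_eq ?_)
    ring
  · have h6 : ¬ (∀ i, Λ ≤ i → i < j → ¬ rs i x) := h5
    simp only [if_neg h5, if_neg h6]
    simp

/-- the local mass of the births of a cell on this cell -/
theorem lden_self_le {S₀ : CSys (gr 7 s) ι} (w : LW S₀) (j : ℕ) (G : ℤ → ℝ) (p : ℤ) :
    lden w j j G p ≤ den S₀ j G p := by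
  have hc := cd_pos (gr 7 s) j p
  unfold lden den cW Vale.Agent.P141.H315.bcost Finsupp.sum
  show _ ≤ _ / cd (gr 7 s) j p
  rw [le_div_iff₀ hc, sum_mul]
  refine sum_le_sum fun i _ => ?_
  rw [mul_assoc]
  refine mul_le_mul_of_nonneg_left ?_ (abs_nonneg _)
  have h1 := w.pack j p i (fun z => z ∈ (gr 7 s).cube j p) (fun _ => j)
    (fun z hz y hy => ⟨by rwa [← (gr 7 s).eq_of_mem j p z hz], rfl⟩) (fun _ _ _ => le_rfl)
  refine le_trans (le_of_eq ?_) h1
  rw [sum_congr rfl fun z hz => by rw [if_pos hz, w.const j j p z i hz], sum_const, nsmul_eq_mul]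
  unfold cd
  ring

end

end Vale.Agent.P141.H347.Fi
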