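import Vale.Agent.P141.H347.Lw2
import Vale.Agent.P141.PL.H560.NodeCost

/-!
# P141, line W: the local weights of `sys1`, and the cost inside one cell from `CostAt`
-/

namespace Vale.Agent.P141.H347

open Finset Vale.Agent.P141.H315 Vale.Agent.P141.PL.H318
open Vale.Agent.P141.PL.H315 (cube3 mem_cube3 gz card_cube3 atm wt wt_nonneg Tri put)
open Vale.Agent.P141.PL.H95 (gr mem_gr card_gr)
open Vale.Agent.P141.PL.H314 (nd Win)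
open Vale.Agent.P141.PL.H560 (pf CostAt cmp node_cost)
open Vale.Agent.P141.PL (Pt el fc lift)

noncomputable section

open scoped Classical

/-- The local weights of the scalar system. -/
def lw1 (c0 : ℕ) (σ : ℤ) (c : Pt) (hc : csz c ≤ 2 ^ c0) (δ e : ℝ) (hδ : 0 < δ) (h0 : 0 ≤ e)
    (h1 : e ≤ 1) : LW (sys1 c0 σ c hc δ e hδ h0 h1) :=
  lwD (wtD δ e hδ.le h0 h1) c0 σ c (sys1 c0 σ c hc δ e hδ h0 h1)
    fun j _ i => (wtD_sum δ e hδ.le h0 h1 j i.1 i.2).le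

theorem lw1_ω {c0 : ℕ} {σ : ℤ} {c : Pt} (hc : csz c ≤ 2 ^ c0) {δ e : ℝ} (hδ : 0 < δ) (h0 : 0 ≤ e)
    (h1 : e ≤ 1) (j k : ℕ) (s : ℤ) (i : Pt × Tri) :
    (lw1 c0 σ c hc δ e hδ h0 h1).ω j k s i * cd (gr c0 σ) k s =
      lwt (wtD δ e hδ.le h0 h1) c0 σ c j k s i := by
  have h2 : (0 : ℝ) < ((gr c0 σ).cube k s).card := by
    exact_mod_cast card_pos.mpr ⟨_, (gr c0 σ).mem _ _⟩
  show lwt (wtD δ e hδ.le h0 h1) c0 σ c j k s i / cd (gr c0 σ) k s * cd (gr c0 σ) k s = _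
  unfold cd
  exact div_mul_cancel₀ _ h2.ne'

/-- **Cost of an atom inside one cell, from `CostAt` at the scales of the cell.** -/
theorem local_cost_costAt {c0 : ℕ} {σ : ℤ} {o : ℤ} (ho : o = 1 ∨ o = -1) (r : Fin 4) {δ e P : ℝ}
    (hδ : 0 ≤ δ) (h0 : 0 ≤ e) (h1 : e ≤ 1) (hP : 0 ≤ P) {l K : ℕ} (hlK : l ≤ K) (s : ℤ)
    (h : ℕ → Fin 4 → ℤ → ℝ)
    (hcost : ∀ i ≤ l, CostAt o i δ e P (fun k => (cmp r fun j => lift j (h k j)).1)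
      (fun k => (cmp r fun j => lift j (h k j)).2.1)
      (fun k => (cmp r fun j => lift j (h k j)).2.2))
    (𝒩 : Finset (ℕ × ℤ)) (h𝒩 : ∀ N ∈ 𝒩, 1 ≤ N.1 ∧ N.1 ≤ l)
    (hW : ∀ N ∈ 𝒩, ∀ y ∈ Win N.1 N.2, ixs c0 σ l y = ixs c0 σ l s) (u : Tri) (p : Pt) :
    ∑ N ∈ 𝒩, |nd o N.1 N.2 (put r (h N.1) (pf (fc r) K p u))| ≤
      8 * P * lwt (wtD δ e hδ h0 h1) c0 σ (fc r) K l s (p, u) := by
  refine local_cost (wtD δ e hδ h0 h1) ho r (csz_fc_le r) hlK s 𝒩 (fun N hN => (h𝒩 N hN).2) hW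
    (fun N => h N.1) u ?_ p
  intro i hi z _
  rw [wtD_sum, mul_assoc]
  refine node_cost hδ h0 h1 hP h r (hcost i hi) z u _ fun N hN => ?_
  rw [mem_filter] at hN
  exact ⟨(h𝒩 N hN.1).1, hN.2⟩

end

end Vale.Agent.P141.H347
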