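import Vale.Agent.P141.H347.Tr2
import Vale.Agent.P141.H347.Lw3

/-!
# P141: densities with a floor, the local weights of the floor system, and the cost inside one cell
for companions depending on the node

* `Dens.add`, `Dens.smul`, `mxD`, `wtFD` (`wtFD_sum : ∑ = wtF`), `lwF : LW (sysF …)`, `lwF_ω`;
* `wf_dens`: the total of a density is a weight functional as soon as one step is checked;
* `local_costN`: `local_cost` from `CostR` at the scales of the cell.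
-/

namespace Vale.Agent.P141.H347

open Finset Vale.Agent.P141.H315 Vale.Agent.P141.PL.H318
open Vale.Agent.P141.PL.H315 (cube3 mem_cube3 gz card_cube3 atm wt wt_nonneg Tri put)
open Vale.Agent.P141.PL.H95 (gr mem_gr card_gr)
open Vale.Agent.P141.PL.H314 (nd Win)
open Vale.Agent.P141.PL.H560 (pf)
open Vale.Agent.P141.PL (Pt el fc lift)
open Vale.Agent.P141.H922 (mx3 mx3_nonneg mx3_mono wtF sysF)
open Vale.Agent.P141.H347.Tr (Wf CostR node_costN)

noncomputable section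

open scoped Classical

theorem Dens.ext_sum (d : Dens) (k : ℕ) (p : Pt) (u : Tri) :
    ∑ y ∈ cube3 k p, d.D k y u = (cube3 k p).card * d.D k p u := by
  rw [sum_congr rfl fun y hy => d.const k p y u hy, sum_const, nsmul_eq_mul]

/-- sum of two densities -/
def Dens.add (d d' : Dens) : Dens where
  D k y u := d.D k y u + d'.D k y u
  nonneg k y u := add_nonneg (d.nonneg k y u) (d'.nonneg k y u)
  const k y y' u h := by rw [d.const k y y' u h, d'.const k y y' u h]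
  step k p u := by
    rw [sum_add_distrib, sum_add_distrib]
    exact add_le_add (d.step k p u) (d'.step k p u)

/-- multiple of a density, the factor may increase with the scale -/
def Dens.smul (d : Dens) (r : ℕ → ℝ) (hr : ∀ k, 0 ≤ r k) (hm : Monotone r) : Dens where
  D k y u := r k * d.D k y u
  nonneg k y u := mul_nonneg (hr k) (d.nonneg k y u)
  const k y y' u h := by rw [d.const k y y' u h]
  step k p u := by
    rw [← mul_sum, ← mul_sum]
    exact mul_le_mul (hm (Nat.le_succ k)) (d.step k p u)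
      (sum_nonneg fun y _ => d.nonneg _ _ _) (hr _)

/-- the density of the product of the sup norms -/
def mxD : Dens where
  D k y u := mx3 (cube3 k y) u
  nonneg k y u := mx3_nonneg _ _
  const k y y' u h := by rw [show cube3 k y' = cube3 k y from gz.eq_of_mem k y y' h]
  step k p u := sum_le_sum fun y hy => mx3_mono (gz.sub_le (Nat.le_succ k) y) u

theorem mxD_sum (k : ℕ) (p : Pt) (u : Tri) :
    ∑ y ∈ cube3 k p, mxD.D k y u = (cube3 k p).card * mx3 (cube3 k p) u := mxD.ext_sum k p u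

/-- The density of the weights with a floor. -/
def wtFD (δ e φ : ℝ) (hδ : 0 ≤ δ) (h0 : 0 ≤ e) (h1 : e ≤ 1) (hφ : 0 ≤ φ) : Dens :=
  (wtD δ e hδ h0 h1).add (mxD.smul (fun _ => φ) (fun _ => hφ) monotone_const)

theorem wtFD_sum {δ e φ : ℝ} (hδ : 0 ≤ δ) (h0 : 0 ≤ e) (h1 : e ≤ 1) (hφ : 0 ≤ φ) (k : ℕ) (p : Pt)
    (u : Tri) : ∑ y ∈ cube3 k p, (wtFD δ e φ hδ h0 h1 hφ).D k y u = wtF δ e φ (cube3 k p) u := by
  unfold wtFD wtF Dens.add Dens.smul
  simp only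
  rw [sum_add_distrib, wtD_sum, ← mul_sum, mxD_sum]
  ring

/-- **The local weights of the scalar system with a floor.** -/
def lwF (c0 : ℕ) (σ : ℤ) (c : Pt) (hc : csz c ≤ 2 ^ c0) (δ e φ : ℝ) (hδ : 0 < δ) (h0 : 0 ≤ e)
    (h1 : e ≤ 1) (hφ : 0 ≤ φ) : LW (sysF c0 σ c hc δ e φ hδ h0 h1 hφ) :=
  lwD (wtFD δ e φ hδ.le h0 h1 hφ) c0 σ c (sysF c0 σ c hc δ e φ hδ h0 h1 hφ)
    fun j _ i => (wtFD_sum hδ.le h0 h1 hφ j i.1 i.2).le

theorem lwF_ω {c0 : ℕ} {σ : ℤ} {c : Pt} (hc : csz c ≤ 2 ^ c0) {δ e φ : ℝ} (hδ : 0 < δ)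
    (h0 : 0 ≤ e) (h1 : e ≤ 1) (hφ : 0 ≤ φ) (j k : ℕ) (s : ℤ) (i : Pt × Tri) :
    (lwF c0 σ c hc δ e φ hδ h0 h1 hφ).ω j k s i * cd (gr c0 σ) k s =
      lwt (wtFD δ e φ hδ.le h0 h1 hφ) c0 σ c j k s i := by
  have h2 : (0 : ℝ) < ((gr c0 σ).cube k s).card := by
    exact_mod_cast card_pos.mpr ⟨_, (gr c0 σ).mem _ _⟩
  show lwt (wtFD δ e φ hδ.le h0 h1 hφ) c0 σ c j k s i / cd (gr c0 σ) k s *
    cd (gr c0 σ) k s = _
  unfold cd
  exact div_mul_cancel₀ _ h2.ne'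

/-- **Cost of an atom inside one cell, companions depending on the node**, from `CostR` at the
scales of the cell; the weight functional is the total of the density. -/
theorem local_costN (d : Dens) (hd : Wf fun K p u => ∑ y ∈ cube3 K p, d.D K y u)
    {c0 : ℕ} {σ : ℤ} {o : ℤ} (ho : o = 1 ∨ o = -1) (r : Fin 4) {P : ℝ} (hP : 0 ≤ P)
    {l K : ℕ} (hlK : l ≤ K) (s : ℤ) (h : ℕ → ℤ → Fin 4 → ℤ → ℝ)
    (hcost : ∀ i ≤ l, CostR r o i P (fun K p u => ∑ y ∈ cube3 K p, d.D K y u) h)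
    (𝒩 : Finset (ℕ × ℤ)) (h𝒩 : ∀ N ∈ 𝒩, 1 ≤ N.1 ∧ N.1 ≤ l)
    (hW : ∀ N ∈ 𝒩, ∀ y ∈ Win N.1 N.2, ixs c0 σ l y = ixs c0 σ l s) (u : Tri) (p : Pt) :
    ∑ N ∈ 𝒩, |nd o N.1 N.2 (put r (h N.1 N.2) (pf (fc r) K p u))| ≤
      8 * P * lwt d c0 σ (fc r) K l s (p, u) := by
  refine local_cost d ho r (csz_fc_le r) hlK s 𝒩 (fun N hN => (h𝒩 N hN).2) hW
    (fun N => h N.1 N.2) u ?_ p
  intro i hi z _
  rw [mul_assoc]
  refine node_costN hd hP h r (hcost i hi) z u _ fun N hN => ?_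
  rw [mem_filter] at hN
  exact ⟨(h𝒩 N hN.1).1, hN.2⟩

theorem wf_wtD {δ e : ℝ} (hδ : 0 ≤ δ) (h0 : 0 ≤ e) (h1 : e ≤ 1) :
    Wf fun K p u => ∑ y ∈ cube3 K p, (wtD δ e hδ h0 h1).D K y u := by
  have := Tr.wf_wt hδ h0 h1
  simpa only [wtD_sum] using this

theorem wf_wtFD {δ e φ : ℝ} (hδ : 0 ≤ δ) (h0 : 0 ≤ e) (h1 : e ≤ 1) (hφ : 0 ≤ φ) :
    Wf fun K p u => ∑ y ∈ cube3 K p, (wtFD δ e φ hδ h0 h1 hφ).D K y u := by
  have := Tr.wf_wtF hδ h0 h1 hφ
  simpa only [wtFD_sum] using this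

end

end Vale.Agent.P141.H347
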