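import Vale.Agent.P141.H347.TrP
import Vale.Agent.P141.H922.PairS1

/-!
# P141: the density of the pair weight

`pwD δ : Dens`, `pwD_sum : ∑ y ∈ cube3 k p, D k y u = wP δ (cube3 k p) u`, `wf_pwD`.
-/

namespace Vale.Agent.P141.H347

open Finset Vale.Agent.P141.H315 Vale.Agent.P141.PL.H318
open Vale.Agent.P141.PL.H315 (cube3 mem_cube3 gz card_cube3 atm e12 e13 e23 Tri)
open Vale.Agent.P141.H922 (pw3 pw3_nonneg wP wP_nonneg wP_super)
open Vale.Agent.P141.PL (Pt)
open Vale.Agent.P141.H347.Tr (Wf)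

noncomputable section

/-- The density of the pair weight. -/
def pwD (δ : ℝ) (hδ : 0 ≤ δ) : Dens where
  D k y u := δ * pw3 (cube3 k y) u
  nonneg k y u := mul_nonneg hδ (pw3_nonneg _ _)
  const k y y' u h := by rw [show cube3 k y' = cube3 k y from gz.eq_of_mem k y y' h]
  step k p u := by
    have h1 := wP_super hδ (Nat.le_succ k) p u
    have e1 : ∀ y ∈ cube3 (k + 1) p, (8 ^ k : ℝ)⁻¹ * wP δ (cube3 k y) u =
        δ * pw3 (cube3 k y) u := by
      intro y _
      unfold wP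
      rw [card_cube3]
      push_cast
      have h8 : (8 : ℝ) ^ k ≠ 0 := by positivity
      field_simp
    have e2 : ∀ y ∈ cube3 (k + 1) p, δ * pw3 (cube3 (k + 1) y) u =
        δ * pw3 (cube3 (k + 1) p) u := by
      intro y hy
      rw [show cube3 (k + 1) y = cube3 (k + 1) p from gz.eq_of_mem (k + 1) p y hy]
    rw [sum_congr rfl e1] at h1
    rw [sum_congr rfl e2, sum_const, nsmul_eq_mul]
    refine h1.trans (le_of_eq ?_)
    unfold wP
    ring

theorem pwD_sum {δ : ℝ} (hδ : 0 ≤ δ) (k : ℕ) (p : Pt) (u : Tri) :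
    ∑ y ∈ cube3 k p, (pwD δ hδ).D k y u = wP δ (cube3 k p) u := by
  rw [(pwD δ hδ).ext_sum k p u]
  unfold wP pwD
  ring

theorem wf_pwD {δ : ℝ} (hδ : 0 ≤ δ) :
    Wf fun K p u => ∑ y ∈ cube3 K p, (pwD δ hδ).D K y u := by
  have := Tr.wf_wP hδ
  simpa only [pwD_sum] using this

end

end Vale.Agent.P141.H347
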