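import Vale.Agent.P141.H347.GSys
import Vale.Agent.P141.H829.GenL

/-!
# P141, scale invariant version: the total systems of the levels and of the rounds

* `gfL`: 829's generic tests with the local floor as a family `GFam`; `gen_gfL : Par.gen = genL`;
* `Par.scale`: the parameters multiplied by `s`; `scale_W`, `un_scale`, `un_smul`;
* `Ex`: the exponents; `Ex.mp e j`: the parameters of the level `j` (`δ = 2 ^ (-j)`,
  `θ = 2 ^ (g j)`), `Ex.rp e j`: those of the rounds (`δ = 2 ^ (-(1 - c) j)`, `θ = 2 ^ (c j)`), the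
  same classes: level `K 2 ^ (-(1 - c) j)`, energy `K`;
* `Ex.T`: the main systems, `Ex.R j s`: the systems of the rounds of the level `j`, round `i` scaled
  by `s i`; `T_lim`, `T_δ_inv`, `T_K`, `T_C`, `T_cmp`, `mix_R`, `un_R`, `un_T_rp`.
-/

namespace Vale.Agent.P141.H347.Gs

open Finset Function
open Vale.Agent.P141.H315 (Grid dot dot_self_nonneg)
open Vale.Agent.P141.PL (Pt fc)
open Vale.Agent.P141.PL.H315 (le Tri)
open Vale.Agent.P141.PL.H95 (gr shf)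
open Vale.Agent.P141.PL.H318
open Vale.Agent.P141.H347 (Fam LW cd)
open Vale.Agent.P141.H782 (gb LSys LSys.S LSys.w)
open Vale.Agent.P141.H8 (Rgn En Un)
open Vale.Agent.P141.H922 (wP wP_nonneg sysP sysPT CgP)
open Vale.Agent.P141.H736 (Cls CW PSys Fg psg l2 one_le_CgP)
open Vale.Agent.P141.H444 (l2c csz_fc_7 TDat TSys)
open Vale.Agent.P141.H829 (genL lsc lsc_nonneg lsc_pack)

noncomputable section

open scoped Classical

/-! ### 829's family -/

/-- **The family of the generic tests with the local floor.** -/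
def gfL (σ : ℤ) (r : Fin 4) : GFam (gr 7 σ) Fg where
  ψ := psg (fc r)
  top i := i.1
  D := lsc 7 σ (fc r)
  D_nonneg _ _ _ := lsc_nonneg _ _ _
  D_pack j x i A m hF hm := lsc_pack i j x A m hF hm

theorem gen_gfL (p : Par) (σ : ℤ) (r : Fin 4) : p.gen (gfL σ r) r =
    genL (p.cw σ r) (fc r) p.θ p.φ p.φ' p.θ_pos.le p.φ_pos p.φ'_nn := rfl

/-- the families of all the types and slots -/
def gfs (n : ℕ) (b : Bool) (i : Fin 4) : GFam (gr 7 (shf (n + 7) b)) Fg :=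
  gfL (shf (n + 7) b) i

/-! ### Scaling -/

theorem un_smul {X ι : Type*} {g : Grid X} {S : CSys g ι} {C s : ℝ} (hs : 0 < s)
    {ud : ℕ → X → Prop} {F : X → ℝ} (h : Un S (C * s) ud F) :
    Un S C ud fun y => s⁻¹ * F y := by
  intro k y hk i
  have h1 := h k y hk i
  have h2 : dot (g.cube k y) (fun y => s⁻¹ * F y) (S.a k i) =
      s⁻¹ * dot (g.cube k y) F (S.a k i) := by
    unfold dot
    rw [mul_sum]
    exact sum_congr rfl fun y _ => by ring
  rw [h2, abs_mul, abs_of_pos (inv_pos.2 hs), inv_mul_le_iff₀ hs]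
  refine h1.trans (le_of_eq ?_)
  ring

theorem en_smul {X : Type*} {g : Grid X} {E s : ℝ} (hs : 0 < s) {ud : ℕ → X → Prop} {F : X → ℝ}
    (h : En g ud F (s ^ 2 * E)) : En g ud (fun y => s⁻¹ * F y) E := by
  intro k y hk
  have h1 := h k y hk
  have e1 : dot (g.cube k y) (fun y => s⁻¹ * F y) (fun y => s⁻¹ * F y) =
      (s ^ 2)⁻¹ * dot (g.cube k y) F F := by
    unfold dot
    rw [mul_sum]
    refine sum_congr rfl fun y _ => ?_
    rw [← inv_pow]
    ring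
  rw [e1, inv_mul_le_iff₀ (by positivity), ← mul_assoc]
  exact h1

theorem un_mono_c {X ι : Type*} {g : Grid X} {S : CSys g ι} {C C' : ℝ} (hC : C ≤ C')
    {ud : ℕ → X → Prop} {F : X → ℝ} (h : Un S C ud F) : Un S C' ud F := fun k y hk i =>
  (h k y hk i).trans (mul_le_mul_of_nonneg_right hC (S.W_nonneg _ _ _))

theorem en_mono {X : Type*} {g : Grid X} {E E' : ℝ} (hE : E ≤ E') {ud : ℕ → X → Prop} {F : X → ℝ}
    (h : En g ud F E) : En g ud F E' := fun k y hk =>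
  (h k y hk).trans (mul_le_mul_of_nonneg_right hE (Nat.cast_nonneg _))

namespace Par

/-- **The parameters multiplied by `s`**, the same classes. -/
def scale (p : Par) (s : ℝ) (hs : 0 < s) : Par where
  t := p.t
  E := p.E
  δ := s * p.δ
  θ := s * p.θ
  φ := s * p.φ
  φ' := s * p.φ'
  t_pos := p.t_pos
  E_pos := p.E_pos
  δ_pos := mul_pos hs p.δ_pos
  θ_pos := mul_pos hs p.θ_pos
  φ_pos := mul_pos hs p.φ_pos
  φ'_nn := mul_nonneg hs.le p.φ'_nn

variable (p : Par) {s : ℝ} (hs : 0 < s) {σ : ℤ} {ι : Type} (G : GFam (gr 7 σ) ι)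

theorem scale_gen_W (r : Fin 4) (k : ℕ) (Q : Finset ℤ) (i : ι) :
    ((p.scale s hs).gen G r).W k Q i = s * (p.gen G r).W k Q i := by
  show s * p.θ * (p.cw σ r).cst (G.ψ i) k Q + s * p.φ * l2 Q (G.ψ i) + s * p.φ' * G.D k Q i =
    s * (p.θ * (p.cw σ r).cst (G.ψ i) k Q + p.φ * l2 Q (G.ψ i) + p.φ' * G.D k Q i)
  ring

theorem scale_W (r : Fin 4) (k : ℕ) (Q : Finset ℤ) (i : (Pt × Tri) ⊕ ι) :
    ((p.scale s hs).tot G r).W k Q i = s * (p.tot G r).W k Q i := by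
  rcases i with i | i
  · exact H922.wP_mul s p.δ _ _
  · exact p.scale_gen_W hs G r k Q i

theorem scale_a (r : Fin 4) (k : ℕ) (i : (Pt × Tri) ⊕ ι) :
    ((p.scale s hs).tot G r).a k i = (p.tot G r).a k i := rfl

/-- uniformity for the scaled system -/
theorem un_scale {C : ℝ} {r : Fin 4} {ud : ℕ → ℤ → Prop} {F : ℤ → ℝ} :
    Un ((p.scale s hs).tot G r) C ud F ↔ Un (p.tot G r) (C * s) ud F := by
  unfold Un
  simp only [scale_W, scale_a, mul_assoc]

/-- uniformity for the scaled system, after division by `s` -/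
theorem un_of_scale {C : ℝ} {r : Fin 4} {ud : ℕ → ℤ → Prop} {F : ℤ → ℝ}
    (h : Un ((p.scale s hs).tot G r) C ud F) : Un (p.tot G r) C ud fun y => s⁻¹ * F y :=
  un_smul hs ((p.un_scale hs G).1 h)

end Par

/-! ### The exponents -/

/-- powers of `2` -/
def e2 (x : ℝ) (j : ℕ) : ℝ := (2 : ℝ) ^ (x * (j : ℝ))

theorem e2_pos (x : ℝ) (j : ℕ) : 0 < e2 x j := Real.rpow_pos_of_pos two_pos _

theorem e2_le {x y : ℝ} (h : x ≤ y) (j : ℕ) : e2 x j ≤ e2 y j :=
  Real.rpow_le_rpow_of_exponent_le one_le_two (mul_le_mul_of_nonneg_right h (Nat.cast_nonneg j))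

theorem e2_succ (x : ℝ) (j : ℕ) : e2 x (j + 1) = 2 ^ x * e2 x j := by
  unfold e2
  rw [← Real.rpow_add two_pos]
  congr 1
  push_cast
  ring

theorem e2_inv (x : ℝ) (j : ℕ) : (e2 x j)⁻¹ = e2 (-x) j := by
  unfold e2
  rw [← Real.rpow_neg two_pos.le]
  congr 1
  ring

theorem one_le_e2 {x : ℝ} (h : 0 ≤ x) (j : ℕ) : 1 ≤ e2 x j :=
  Real.one_le_rpow one_le_two (mul_nonneg h (Nat.cast_nonneg j))

theorem e2_mul (x y : ℝ) (j : ℕ) : e2 x j * e2 y j = e2 (x + y) j := by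
  unfold e2
  rw [← Real.rpow_add two_pos]
  congr 1
  ring

theorem e2_neg_succ_le {x : ℝ} (h : 0 ≤ x) (j : ℕ) : e2 (-x) (j + 1) ≤ e2 (-x) j := by
  rw [e2_succ]
  refine mul_le_of_le_one_left (e2_pos _ _).le ?_
  exact Real.rpow_le_one_of_one_le_of_nonpos one_le_two (by linarith)

/-- **The exponents of the systems**: `K` constant of the classes, `g` and `c` the powers of `θ`
for the levels and for the rounds, `a`, `a'` the powers of the floors. -/
structure Ex where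
  K : ℝ
  g : ℝ
  c : ℝ
  a : ℝ
  a' : ℝ
  K_pos : 0 < K
  g_nn : 0 ≤ g
  g_le : g ≤ c
  c_le : c ≤ 1
  a_nn : 0 ≤ a
  a'_nn : 0 ≤ a'

namespace Ex

variable (e : Ex)

/-- **The parameters of the level `j`.** -/
def mp (j : ℕ) : Par where
  t := e.K * e2 (-(1 - e.c)) j
  E := e.K
  δ := e2 (-1) j
  θ := e2 e.g j
  φ := e2 (-e.a) j
  φ' := e2 (-e.a') j
  t_pos := mul_pos e.K_pos (e2_pos _ _)
  E_pos := e.K_pos
  δ_pos := e2_pos _ _
  θ_pos := e2_pos _ _
  φ_pos := e2_pos _ _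
  φ'_nn := (e2_pos _ _).le

/-- **The parameters of the rounds of the level `j`**, energy one. -/
def rp (j : ℕ) : Par where
  t := e.K * e2 (-(1 - e.c)) j
  E := e.K
  δ := e2 (-(1 - e.c)) j
  θ := e2 e.c j
  φ := e2 (-e.a) j
  φ' := e2 (-e.a') j
  t_pos := mul_pos e.K_pos (e2_pos _ _)
  E_pos := e.K_pos
  δ_pos := e2_pos _ _
  θ_pos := e2_pos _ _
  φ_pos := e2_pos _ _
  φ'_nn := (e2_pos _ _).le

theorem δ_le (j : ℕ) : (e.mp j).δ ≤ (e.rp j).δ := e2_le (by linarith [e.g_nn, e.g_le]) j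

/-- **The main systems.** -/
def T (n : ℕ) : TSys n Fg := mkT (fun j => e.mp j) (gfs n)

/-- **The systems of the rounds of the level `j`**; the round `i` is scaled by `s i`. -/
def R (n j : ℕ) (s : ℕ → ℝ) (hs : ∀ i, 0 < s i) : TSys n Fg :=
  mkT (fun i => (e.rp j).scale (s i) (hs i)) (gfs n)

variable {n : ℕ}

@[simp] theorem T_δ (j : ℕ) : (e.T n).δ j = e2 (-1) j := rfl

theorem T_P (j : ℕ) (b : Bool) (i : Fin 4) : (e.T n).P j b i =
    genL ((e.mp j).cw (shf (n + 7) b) i) (fc i) (e.mp j).θ (e.mp j).φ (e.mp j).φ'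
      (e.mp j).θ_pos.le (e.mp j).φ_pos (e.mp j).φ'_nn := rfl

theorem T_S (j : ℕ) (b : Bool) (i : Fin 4) :
    (e.T n).sys.S j b i = (e.mp j).tot (gfs n b i) i := rfl

theorem R_S (j : ℕ) (s : ℕ → ℝ) (hs : ∀ i, 0 < s i) (l : ℕ) (b : Bool) (i : Fin 4) :
    (e.R n j s hs).sys.S l b i = ((e.rp j).scale (s l) (hs l)).tot (gfs n b i) i := rfl

/-- the levels tend to `0` -/
theorem T_lim (ε : ℝ) (hε : 0 < ε) : ∃ J, ∀ j, J ≤ j → (e.T n).δ j ≤ ε := by
  obtain ⟨J, hJ⟩ := exists_pow_lt_of_lt_one hε (by norm_num : (2 : ℝ)⁻¹ < 1)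
  refine ⟨J, fun j hj => ?_⟩
  have h1 : e2 (-1) j = (2 : ℝ)⁻¹ ^ j := by
    unfold e2
    rw [neg_one_mul, Real.rpow_neg two_pos.le, Real.rpow_natCast, inv_pow]
  rw [T_δ, h1]
  exact (pow_le_pow_of_le_one (by norm_num) (by norm_num) hj).trans hJ.le

theorem T_δ_inv (j : ℕ) : ((e.T n).δ j)⁻¹ ≤ e2 1 j := by
  rw [T_δ, e2_inv, neg_neg]

/-- the constants of the `L²` norms -/
theorem T_K (j : ℕ) : 1 ≤ (e.T n).K j ∧ (e.T n).K j ≤ 130 * e2 (1 + e.a) j := by
  refine ⟨(e.mp j).K_facts.1, ?_⟩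
  show (1 : ℝ) + 2 ^ 7 / e2 (-1) j + (e2 (-e.a) j)⁻¹ ≤ _
  rw [div_eq_mul_inv, e2_inv, e2_inv, neg_neg, neg_neg]
  have h0 := e.a_nn
  have h1 : e2 1 j ≤ e2 (1 + e.a) j := e2_le (by linarith) j
  have h2 : e2 e.a j ≤ e2 (1 + e.a) j := e2_le (by linarith) j
  have h3 : 1 ≤ e2 (1 + e.a) j := one_le_e2 (by linarith) j
  linarith

theorem T_C (j : ℕ) (b : Bool) (i : Fin 4) : ((e.T n).P j b i).C = CgP ^ 3 := rfl

theorem R_C (j : ℕ) (s : ℕ → ℝ) (hs : ∀ i, 0 < s i) (l : ℕ) (b : Bool) (i : Fin 4) :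
    ((e.R n j s hs).P l b i).C = CgP ^ 3 := rfl

theorem CgP_le_cube : CgP ≤ CgP ^ 3 := by
  have h := one_le_CgP
  have h1 : CgP ^ 1 ≤ CgP ^ 3 := pow_le_pow_right₀ h (by norm_num)
  rwa [pow_one] at h1

/-- mixed inheritance, main systems -/
theorem mix_T (j : ℕ) (b : Bool) (i : Fin 4) :
    Vale.Agent.P141.H297.Mix ((e.T n).sys.S j b i) (CgP ^ 3) :=
  (e.T n).mix_sys CgP_le_cube (le_of_eq (e.T_C j b i))

/-- mixed inheritance, rounds -/
theorem mix_R (j : ℕ) (s : ℕ → ℝ) (hs : ∀ i, 0 < s i) (l : ℕ) (b : Bool) (i : Fin 4) :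
    Vale.Agent.P141.H297.Mix ((e.R n j s hs).sys.S l b i) (CgP ^ 3) :=
  (e.R n j s hs).mix_sys CgP_le_cube (le_of_eq (e.R_C j s hs l b i))

/-- **(H5)**: uniform for the level `j + 1` implies uniform for the level `j`. -/
theorem T_cmp (j : ℕ) (b : Bool) (i : Fin 4) {A : ℝ} (hA : 0 ≤ A) {ud : ℕ → ℤ → Prop} {F : ℤ → ℝ}
    (hF : Un ((e.T n).sys.S (j + 1) b i) A ud F) :
    Un ((e.T n).sys.S j b i) (A * 2 ^ e.g) ud F := by
  have h1 := e.c_le
  have h2 : (1 : ℝ) ≤ 2 ^ e.g := Real.one_le_rpow one_le_two e.g_nn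
  have hle : ∀ x : ℝ, 0 ≤ x → e2 (-x) (j + 1) ≤ 2 ^ e.g * e2 (-x) j := fun x hx =>
    (e2_neg_succ_le hx j).trans (le_mul_of_one_le_left (e2_pos _ _).le h2)
  refine un_mono (gfs n b i) (p := e.mp (j + 1)) (p' := e.mp j) (s := 1) (C := 2 ^ e.g) le_rfl
    ?_ ?_ ?_ ?_ ?_ ?_ hA i hF
  · show e.K * e2 (-(1 - e.c)) (j + 1) ≤ 1 * (e.K * e2 (-(1 - e.c)) j)
    rw [one_mul]
    exact mul_le_mul_of_nonneg_left (e2_neg_succ_le (by linarith) j) e.K_pos.le
  · show e.K ≤ 1 ^ 2 * e.K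
    rw [one_pow, one_mul]
  · show e2 e.g (j + 1) * 1 ^ 3 ≤ 2 ^ e.g * e2 e.g j
    rw [one_pow, mul_one, e2_succ]
  · exact hle _ e.a_nn
  · exact hle _ e.a'_nn
  · exact hle _ zero_le_one

/-- **uniform for the level `j` implies uniform for the parameters of the rounds**, energy one -/
theorem un_T_rp (j : ℕ) (b : Bool) (i : Fin 4) {A : ℝ} (hA : 0 ≤ A) {ud : ℕ → ℤ → Prop}
    {F : ℤ → ℝ} (hF : Un ((e.T n).sys.S j b i) A ud F) :
    Un ((e.rp j).tot (gfs n b i) i) A ud F := by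
  have key := un_mono (gfs n b i) (p := e.mp j) (p' := e.rp j) (s := 1) (C := 1) le_rfl
    (by rw [one_mul]; exact le_rfl) (by rw [one_pow, one_mul]; exact le_rfl)
    (by
      rw [one_pow, mul_one, one_mul]
      exact e2_le e.g_le j)
    (by rw [one_mul]; exact le_rfl) (by rw [one_mul]; exact le_rfl)
    (by rw [one_mul]; exact e.δ_le j) hA i hF
  rwa [mul_one] at key

/-- **uniform for the system of a round**: after division by the scale it is uniform for the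
parameters of the rounds -/
theorem un_R {j : ℕ} {s : ℕ → ℝ} {hs : ∀ i, 0 < s i} {l : ℕ} {b : Bool} {i : Fin 4} {A : ℝ}
    {ud : ℕ → ℤ → Prop} {F : ℤ → ℝ} (hF : Un ((e.R n j s hs).sys.S l b i) A ud F) :
    Un ((e.rp j).tot (gfs n b i) i) A ud fun y => (s l)⁻¹ * F y :=
  (e.rp j).un_of_scale (hs l) (gfs n b i) hF

/-- the classes of the level `j + 1` and of the level `j` -/
theorem t_succ (j : ℕ) : (e.mp j).t ≤ 2 * (e.mp (j + 1)).t := by
  show e.K * e2 (-(1 - e.c)) j ≤ 2 * (e.K * e2 (-(1 - e.c)) (j + 1))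
  rw [e2_succ]
  have h1 : (2 : ℝ) * (e.K * (2 ^ (-(1 - e.c)) * e2 (-(1 - e.c)) j)) =
      (2 * 2 ^ (-(1 - e.c))) * (e.K * e2 (-(1 - e.c)) j) := by ring
  rw [h1]
  refine le_mul_of_one_le_left (mul_pos e.K_pos (e2_pos _ _)).le ?_
  have h2 : (2 : ℝ) * 2 ^ (-(1 - e.c)) = 2 ^ e.c := by
    nth_rewrite 1 [← Real.rpow_one (2 : ℝ)]
    rw [← Real.rpow_add two_pos]
    congr 1
    ring
  rw [h2]
  exact Real.one_le_rpow one_le_two (e.g_nn.trans e.g_le)

/-- **the cost of a generic test of the level `j`** in the classes of the level `j` -/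
theorem cost_T (j : ℕ) (b : Bool) (z : Fin 4) {o : ℤ} (ho : o = 1 ∨ o = -1) (r : Fin 4) (k : ℕ)
    (x : ℤ) (i : Fg) :
    H736.cost (kap (shf (n + 7) b) (e.mp j).t (e.mp j).t_pos e.K e.K_pos.le z) o r
      (((e.T n).P j b r).ψ i) k ((gb n b).cube k x) ≤
      1 / e2 e.g j * ((e.T n).P j b r).W k ((gb n b).cube k x) i := by
  have key := gen_cost_le (e.mp j) (gfs n b r) (t' := (e.mp j).t) (E' := e.K)
    (ht' := (e.mp j).t_pos) (hE' := e.K_pos.le) (s := 1) le_rfl (by rw [one_mul])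
    (by rw [one_pow, one_mul]; exact le_rfl) z ho r k x i
  rwa [one_pow] at key

/-- **the cost of a generic test of the level `j + 1`** in the classes of the level `j` -/
theorem cost_T_succ (j : ℕ) (b : Bool) (z : Fin 4) {o : ℤ} (ho : o = 1 ∨ o = -1) (r : Fin 4)
    (k : ℕ) (x : ℤ) (i : Fg) :
    H736.cost (kap (shf (n + 7) b) (e.mp j).t (e.mp j).t_pos e.K e.K_pos.le z) o r
      (((e.T n).P (j + 1) b r).ψ i) k ((gb n b).cube k x) ≤
      8 / e2 e.g j * ((e.T n).P (j + 1) b r).W k ((gb n b).cube k x) i := by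
  have key := gen_cost_le (e.mp (j + 1)) (gfs n b r) (t' := (e.mp j).t) (E' := e.K)
    (ht' := (e.mp j).t_pos) (hE' := e.K_pos.le) (s := 2) one_le_two (e.t_succ j)
    (by
      show e.K ≤ 2 ^ 2 * e.K
      have := e.K_pos
      linarith) z ho r k x i
  refine key.trans (mul_le_mul_of_nonneg_right ?_ (PSys.W_nonneg _ _ _ _))
  have h1 : (2 : ℝ) ^ 3 = 8 := by norm_num
  rw [h1]
  refine div_le_div_of_nonneg_left (by norm_num) (e2_pos _ _) ?_
  show e2 e.g j ≤ e2 e.g (j + 1)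
  rw [e2_succ]
  exact le_mul_of_one_le_left (e2_pos _ _).le (Real.one_le_rpow one_le_two e.g_nn)

/-- **the cost of a generic test of a round** in the classes of the level `j` -/
theorem cost_R (j : ℕ) (s : ℕ → ℝ) (hs : ∀ i, 0 < s i) (l : ℕ) (b : Bool) (z : Fin 4) {o : ℤ}
    (ho : o = 1 ∨ o = -1) (r : Fin 4) (k : ℕ) (x : ℤ) (i : Fg) :
    H736.cost (kap (shf (n + 7) b) (e.mp j).t (e.mp j).t_pos e.K e.K_pos.le z) o r
      (((e.R n j s hs).P l b r).ψ i) k ((gb n b).cube k x) ≤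
      1 / (s l * e2 e.c j) * ((e.R n j s hs).P l b r).W k ((gb n b).cube k x) i := by
  have key := gen_cost_le ((e.rp j).scale (s l) (hs l)) (gfs n b r) (t' := (e.mp j).t)
    (E' := e.K) (ht' := (e.mp j).t_pos) (hE' := e.K_pos.le) (s := 1) le_rfl
    (by rw [one_mul]; exact le_rfl) (by rw [one_pow, one_mul]; exact le_rfl) z ho r k x i
  rwa [one_pow] at key

end Ex

end

end Vale.Agent.P141.H347.Gs
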