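import Vale.Agent.P141.PL.H318.Reset

/-!
# P141, line W: the one-cell process (module M1a)

A static function `F` on the cells of scale `L`, births of a system `S` at all the scales `≤ L`, on
the used cells `gd`, with restarts from `F` when the local energy or the local mass is too large.
Densities: everything local is a function of `(k, x)` which is constant on `g.cube k x`, and sums
over cells are sums over points.
-/

namespace Vale.Agent.P141.H347

open Finset Vale.Agent.P141.H315 Vale.Agent.P141.PL.H318

noncomputable section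

open scoped Classical

variable {X ι : Type*}

/-- `A` is a union of disjoint cubes: the cube of `z ∈ A` has the scale `m z`. -/
def Fam (g : Grid X) (A : X → Prop) (m : X → ℕ) : Prop :=
  ∀ z, A z → ∀ y ∈ g.cube (m z) z, A y ∧ m y = m z

/-- Local weights: `ω j k x i` is the density, on the cube `g.cube k x`, of the local weight of the
atom `i` born on `g.cube j x`. -/
structure LW {g : Grid X} (S : CSys g ι) where
  /-- the density -/
  ω : ℕ → ℕ → X → ι → ℝ
  nonneg : ∀ j k x i, 0 ≤ ω j k x i
  const : ∀ j k x y i, y ∈ g.cube k x → ω j k y i = ω j k x i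
  pack : ∀ j x i (A : X → Prop) (m : X → ℕ), Fam g A m → (∀ z ∈ g.cube j x, A z → m z ≤ j) →
    ∑ z ∈ g.cube j x, (if A z then ω j (m z) z i else 0) ≤ S.W j (g.cube j x) i

variable {g : Grid X} {S : CSys g ι}

/-- The local mass density at the scale `k` of the births of the scale `j` from `G`. -/
def lden (w : LW S) (j k : ℕ) (G : X → ℝ) (x : X) : ℝ :=
  (bm S j G (g.cube j x)).sum fun i b => |b| * w.ω j k x i

/-- The number of points of a cube. -/
def cd (g : Grid X) (k : ℕ) (x : X) : ℝ := (g.cube k x).card

/-- The energy drop density of the births of the scale `k` from `G`. -/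
def dr (S : CSys g ι) (k : ℕ) (G : X → ℝ) (x : X) : ℝ :=
  (dot (g.cube k x) G G - dot (g.cube k x) (T S k G) (T S k G)) / cd g k x

/-- **The path of one function on one cell.**  `gd k x` : the cube `g.cube k x` is used;
`V k` = residual after the births of the scale `k`, `H k` = residual before them, `rs k x`: a
restart from `F` at the cube `g.cube k x`, `lm k x` = density of the local mass of the births which
are alive at `g.cube k x`. -/
structure Pth (w : LW S) (L : ℕ) (e : ℝ) (F : X → ℝ) (gd : ℕ → X → Prop)
    (V H : ℕ → X → ℝ) (rs : ℕ → X → Prop) (lm : ℕ → X → ℝ) : Prop where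
  rs_const : ∀ k x y, y ∈ g.cube k x → (rs k y ↔ rs k x)
  rs_lt : ∀ k x, rs k x → k < L ∧ gd k x
  lm_const : ∀ k x y, y ∈ g.cube k x → lm k y = lm k x
  /-- the births -/
  step : ∀ k ≤ L, ∀ x, gd k x → V k x = T S k (H k) x
  /-- nothing happens outside the used cells -/
  idle : ∀ k < L, ∀ x, ¬ gd k x → V k x = V (k + 1) x
  top : ∀ x, H L x = F x
  keep : ∀ k < L, ∀ x, gd k x → ¬ rs k x → H k x = V (k + 1) x
  restart : ∀ k x, rs k x → H k x = F x
  /-- the local mass is the sum over the births alive -/
  lm_eq : ∀ k ≤ L, ∀ x, gd k x → lm k x = ∑ j ∈ Ico k (L + 1),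
    if (∀ i, k ≤ i → i < j → ¬ rs i x) then lden w j k (H j) x else 0
  /-- local energy before the births, after the births, local mass -/
  enH : ∀ k ≤ L, ∀ x, gd k x → dot (g.cube k x) (H k) (H k) ≤ 8 * e * cd g k x
  enV : ∀ k ≤ L, ∀ x, gd k x → dot (g.cube k x) (V k) (V k) ≤ 8 * e * cd g k x
  mass : ∀ k ≤ L, ∀ x, gd k x → lm k x ≤ 16 * e
  /-- packing of the restarts below every used cell -/
  pack : ∀ k ≤ L, ∀ x, gd k x →
    ∑ j ∈ range k, ∑ z ∈ g.cube k x, (if rs j z then (1 : ℝ) else 0) ≤ 2 * cd g k x
  /-- total drop (hence total mass, `den ≤ dr`) below every used cell -/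
  drop : ∀ k ≤ L, ∀ x, gd k x →
    ∑ j ∈ range (k + 1), ∑ z ∈ g.cube k x, (if gd j z then dr S j (H j) z else 0) ≤
      32 * e * cd g k x
  /-- the energy discarded at the restarts below every used cell -/
  disc : ∀ k ≤ L, ∀ x, gd k x →
    ∑ j ∈ range k, ∑ z ∈ g.cube k x, (if rs j z then V (j + 1) z * V (j + 1) z else 0) ≤
      32 * e * cd g k x
  /-- the total movement strictly below every used cell -/
  move : ∀ k ≤ L, ∀ x, gd k x →
    ∑ j ∈ range k, ∑ z ∈ g.cube k x, (V (j + 1) z - V j z) * (V (j + 1) z - V j z) ≤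
      (128 + 64 * S.C) * e * cd g k x

end

end Vale.Agent.P141.H347
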