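import Vale.Agent.P141.H347.Lw1

/-!
# P141, line W, scale invariant version: the `L²` local weights

* `lw2 S K`: the local weight `K⁻¹ √(average of (a j i)² over the cell)`; it packs with constant `1`
  by Cauchy–Schwarz as soon as `|cube| ∑ (a k i)² ≤ (K W)²` (`L2Bd`);
* `LW.mix w w'`: the mean of two local weights;
* `l2W_mix`: the `L²` average of an atom on a cell is at most `2 K` times its local density for
  `w.mix (lw2 S K)`.
-/

namespace Vale.Agent.P141.H347

open Finset Vale.Agent.P141.H315 Vale.Agent.P141.PL.H318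

noncomputable section

open scoped Classical

variable {X ι : Type*} {g : Grid X}

/-- the `L²` norm of a test on its cube is at most `K` times its weight -/
def L2Bd (S : CSys g ι) (K : ℝ) : Prop :=
  ∀ k x i, dot (g.cube k x) (S.a k i) (S.a k i) * (g.cube k x).card ≤
    (K * S.W k (g.cube k x) i) ^ 2

/-- exchange: averages over the cubes of a family -/
theorem fam_avg {A : X → Prop} {m : X → ℕ} (hF : Fam g A m) {j : ℕ} {x : X}
    (hm : ∀ z ∈ g.cube j x, A z → m z ≤ j) (φ : X → ℝ) :
    ∑ z ∈ g.cube j x, (if A z then (∑ y ∈ g.cube (m z) z, φ y) / cd g (m z) z else 0) =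
      ∑ y ∈ g.cube j x, if A y then φ y else 0 := by
  have hsub : ∀ z ∈ g.cube j x, A z → g.cube (m z) z ⊆ g.cube j x := fun z hz hA => by
    have h1 : g.cube (m z) z ⊆ g.cube j z := g.cube_subset (hm z hz hA) (g.mem j z)
    rwa [g.eq_of_mem j x z hz] at h1
  have h1 : ∀ z ∈ g.cube j x, (if A z then (∑ y ∈ g.cube (m z) z, φ y) / cd g (m z) z else 0) =
      ∑ y ∈ g.cube j x, (if A z ∧ y ∈ g.cube (m z) z then φ y / cd g (m z) z else 0) := by
    intro z hz
    by_cases hA : A z
    · rw [if_pos hA, sum_div]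
      rw [← sum_subset (hsub z hz hA) (fun y _ hy => if_neg fun h => hy h.2)]
      exact sum_congr rfl fun y hy => (if_pos ⟨hA, hy⟩).symm
    · rw [if_neg hA]
      exact (sum_eq_zero fun y _ => if_neg fun h => hA h.1).symm
  rw [sum_congr rfl h1, sum_comm]
  refine sum_congr rfl fun y hy => ?_
  by_cases hA : A y
  · rw [if_pos hA]
    have h2 : ∀ z ∈ g.cube j x, (if A z ∧ y ∈ g.cube (m z) z then φ y / cd g (m z) z else 0) =
        if z ∈ g.cube (m y) y then φ y / cd g (m y) y else 0 := by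
      intro z _
      by_cases h : A z ∧ y ∈ g.cube (m z) z
      · obtain ⟨h3, h4⟩ := h
        obtain ⟨_, h5⟩ := hF z h3 y h4
        have h6 : z ∈ g.cube (m y) y := by
          rw [h5, g.eq_of_mem (m z) z y h4]; exact g.mem _ _
        rw [if_pos ⟨h3, h4⟩, if_pos h6, h5]
        unfold cd; rw [g.eq_of_mem (m z) z y h4]
      · rw [if_neg h, if_neg]
        intro h6
        obtain ⟨h7, h8⟩ := hF y hA z h6
        refine h ⟨h7, ?_⟩
        rw [h8, g.eq_of_mem (m y) y z h6]
        exact g.mem _ _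
    rw [sum_congr rfl h2, ← sum_filter]
    have h3 : (g.cube j x).filter (fun z => z ∈ g.cube (m y) y) = g.cube (m y) y := by
      ext z
      rw [mem_filter]
      exact ⟨fun h => h.2, fun h => ⟨hsub y hy hA h, h⟩⟩
    rw [h3, sum_const, nsmul_eq_mul]
    have h4 : (0 : ℝ) < cd g (m y) y := by
      unfold cd; exact_mod_cast card_pos.mpr ⟨y, g.mem _ _⟩
    show cd g (m y) y * (φ y / cd g (m y) y) = φ y
    field_simp
  · rw [if_neg hA]
    refine sum_eq_zero fun z _ => if_neg ?_
    rintro ⟨h3, h4⟩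
    exact hA (hF z h3 y h4).1

/-- **The `L²` local weight.** -/
def lw2 (S : CSys g ι) {K : ℝ} (hK : 0 < K) (hS : L2Bd S K) : LW S where
  ω j k x i := K⁻¹ * √((∑ y ∈ g.cube k x, S.a j i y ^ 2) / cd g k x)
  nonneg j k x i := mul_nonneg (inv_nonneg.2 hK.le) (Real.sqrt_nonneg _)
  const j k x y i h := by unfold cd; rw [g.eq_of_mem k x y h]
  pack j x i A m hF hm := by
    set E : X → ℝ := fun z => (∑ y ∈ g.cube (m z) z, S.a j i y ^ 2) / cd g (m z) z with hE
    have hE0 : ∀ z, 0 ≤ E z := fun z =>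
      div_nonneg (sum_nonneg fun _ _ => sq_nonneg _) (Nat.cast_nonneg _)
    have h1 : ∑ z ∈ g.cube j x, (if A z then K⁻¹ * √(E z) else 0) ≤
        K⁻¹ * √((g.cube j x).card * ∑ y ∈ g.cube j x, S.a j i y ^ 2) := by
      have e1 : ∀ z ∈ g.cube j x, (if A z then K⁻¹ * √(E z) else 0) =
          K⁻¹ * (1 * √(if A z then E z else 0)) := by
        intro z _
        split_ifs
        · rw [one_mul]
        · rw [Real.sqrt_zero]; ring
      rw [sum_congr rfl e1, ← mul_sum]
      refine mul_le_mul_of_nonneg_left ?_ (inv_nonneg.2 hK.le)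
      refine Real.le_sqrt_of_sq_le ?_
      have h2 := sum_mul_sq_le_sq_mul_sq (g.cube j x) (fun _ => (1 : ℝ))
        (fun z => √(if A z then E z else 0))
      refine h2.trans ?_
      rw [sum_congr rfl fun z _ => one_pow 2, sum_const, nsmul_eq_mul, mul_one]
      refine mul_le_mul_of_nonneg_left ?_ (Nat.cast_nonneg _)
      have e2 : ∀ z ∈ g.cube j x, √(if A z then E z else 0) ^ 2 = if A z then E z else 0 := by
        intro z _
        exact Real.sq_sqrt (by split_ifs; exacts [hE0 z, le_rfl])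
      rw [sum_congr rfl e2, hE, fam_avg hF hm (fun y => S.a j i y ^ 2)]
      refine sum_le_sum fun y _ => ?_
      split_ifs
      · exact le_rfl
      · positivity
    refine h1.trans ?_
    rw [inv_mul_le_iff₀ hK]
    have h3 := hS j x i
    have h4 : dot (g.cube j x) (S.a j i) (S.a j i) = ∑ y ∈ g.cube j x, S.a j i y ^ 2 :=
      sum_congr rfl fun y _ => by rw [sq]
    rw [h4] at h3
    refine (Real.sqrt_le_sqrt (le_of_eq_of_le (mul_comm _ _) h3)).trans (le_of_eq ?_)
    exact Real.sqrt_sq (mul_nonneg hK.le (S.W_nonneg _ _ _))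

/-- the mean of two local weights -/
def LW.mix {S : CSys g ι} (w w' : LW S) : LW S where
  ω j k x i := (w.ω j k x i + w'.ω j k x i) / 2
  nonneg j k x i := div_nonneg (add_nonneg (w.nonneg _ _ _ _) (w'.nonneg _ _ _ _)) (by norm_num)
  const j k x y i h := by rw [w.const j k x y i h, w'.const j k x y i h]
  pack j x i A m hF hm := by
    have h1 := w.pack j x i A m hF hm
    have h2 := w'.pack j x i A m hF hm
    have e : ∀ z ∈ g.cube j x, (if A z then (w.ω j (m z) z i + w'.ω j (m z) z i) / 2 else 0) =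
        ((if A z then w.ω j (m z) z i else 0) + (if A z then w'.ω j (m z) z i else 0)) / 2 := by
      intro z _
      split_ifs
      · rfl
      · norm_num
    rw [sum_congr rfl e, ← sum_div, sum_add_distrib]
    linarith

theorem LW.le_mix_left {S : CSys g ι} (w w' : LW S) (j k : ℕ) (x : X) (i : ι) :
    w.ω j k x i ≤ 2 * (w.mix w').ω j k x i := by
  show _ ≤ 2 * ((w.ω j k x i + w'.ω j k x i) / 2)
  have := w'.nonneg j k x i
  linarith

theorem LW.le_mix_right {S : CSys g ι} (w w' : LW S) (j k : ℕ) (x : X) (i : ι) :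
    w'.ω j k x i ≤ 2 * (w.mix w').ω j k x i := by
  show _ ≤ 2 * ((w.ω j k x i + w'.ω j k x i) / 2)
  have := w.nonneg j k x i
  linarith

/-- **The `L²` average of an atom on a cell is at most `2 K` times its local density.** -/
theorem l2W_mix {S : CSys g ι} {K : ℝ} (hK : 0 < K) (hS : L2Bd S K) (w : LW S) (j k : ℕ) (x : X)
    (i : ι) : ∑ y ∈ g.cube k x, S.a j i y ^ 2 ≤
      (2 * K * (w.mix (lw2 S hK hS)).ω j k x i) ^ 2 * cd g k x := by
  have hc : (0 : ℝ) < cd g k x := by
    unfold cd; exact_mod_cast card_pos.mpr ⟨x, g.mem _ _⟩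
  have h1 := w.le_mix_right (lw2 S hK hS) j k x i
  have h2 : (lw2 S hK hS).ω j k x i = K⁻¹ * √((∑ y ∈ g.cube k x, S.a j i y ^ 2) / cd g k x) := rfl
  rw [h2, inv_mul_le_iff₀ hK] at h1
  have h3 : √((∑ y ∈ g.cube k x, S.a j i y ^ 2) / cd g k x) ≤
      2 * K * (w.mix (lw2 S hK hS)).ω j k x i := by linarith
  have h4 : (∑ y ∈ g.cube k x, S.a j i y ^ 2) / cd g k x ≤
      (2 * K * (w.mix (lw2 S hK hS)).ω j k x i) ^ 2 := by
    have h5 := pow_le_pow_left₀ (Real.sqrt_nonneg _) h3 2
    rwa [Real.sq_sqrt (div_nonneg (sum_nonneg fun _ _ => sq_nonneg _) hc.le)] at h5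
  rwa [div_le_iff₀ hc] at h4

end

end Vale.Agent.P141.H347
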