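import Vale.Agent.P141.PL.H855.BootB

/-!
# P141, line W, scale invariant version: the frame without heights

* `Dat2`, `Root2 n P`: the root estimate for functions with window `L²` averages `≤ 1` on a closure
  of nodes; no bound on the heights, no exponent;
* `LvSys2`, `LevelSys2`: a system of levels in whose steps the root constant of the same number of
  scales may be used with a gain `ρ ^ j`;
* `root2_of_levelSys2`, `boundedAt_444_of_levelSys2`: the conclusion.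
-/

namespace Vale.Agent.P141.H347

open Finset
open Vale.Agent.P141.PL.H571 (W)
open Vale.Agent.P141.PL.H620 (loc1 nn)
open Vale.Agent.P141.PL.H855 (wN Bel Bad gd gdU mem_gd mem_gdU ediv_pow_add sum_two_pow_le
  abs_tele_le sum_geom_le')

noncomputable section

/-- admissible data: functions with window `L²` averages `≤ 1` on the closure `𝒩` of nodes below
the root `(K, V)` -/
structure Dat2 (n : ℕ) (f : Fin 4 → ℤ → ℝ) (o : ℤ) (K : ℕ) (V : ℤ)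
    (𝒩 : Finset (ℕ × ℤ)) : Prop where
  supp : ∀ j, (Function.support (f j)).Finite
  ho : o = 1 ∨ o = -1
  hK : K ≤ n
  root : ∀ N ∈ 𝒩, 1 ≤ N.1 ∧ N.1 ≤ K ∧ N.2 / 2 ^ (K - N.1) = V
  cl : ∀ N ∈ 𝒩, ∀ k', N.1 ≤ k' → k' ≤ K → (k', N.2 / 2 ^ (k' - N.1)) ∈ 𝒩
  l2 : ∀ N ∈ 𝒩, ∀ j, ∑ y ∈ W N.1 N.2, |f j y| ^ 2 ≤ 2 ^ (N.1 + 5)

/-- the root estimate -/
def Root2 (n : ℕ) (P : ℝ) : Prop :=
  ∀ f o K V 𝒩, Dat2 n f o K V 𝒩 → ∑ N ∈ 𝒩, |wN o f N| ≤ P * 2 ^ K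

theorem Root2.mono {n : ℕ} {P P' : ℝ} (h : Root2 n P) (hP : P ≤ P') : Root2 n P' :=
  fun f o K V 𝒩 hd => (h f o K V 𝒩 hd).trans (mul_le_mul_of_nonneg_right hP (by positivity))

/-- the format of `H337` -/
theorem root2_iff {n : ℕ} {P : ℝ} : Root2 n P ↔ Vale.Agent.P141.H337.RootQ 2 n P := by
  have e : ∀ (f : Fin 4 → ℤ → ℝ) (o : ℤ) (N : ℕ × ℤ),
      ((4 : ℝ) ^ N.1)⁻¹ * |loc1 N.1 (nn o N.2 0 0) f| = |wN o f N| := by
    intro f o N
    rw [wN, abs_mul, abs_of_nonneg (by positivity : (0 : ℝ) ≤ ((4 : ℝ) ^ N.1)⁻¹)]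
  constructor
  · intro h f hf o ho K hK V 𝒩 h1 h2 hav
    rw [sum_congr rfl fun N _ => e f o N]
    refine h f o K V 𝒩 ⟨hf, ho, hK, h1, h2, fun N hN j => ?_⟩
    have h3 := hav N hN j
    simpa only [Real.rpow_two] using h3
  · intro h f o K V 𝒩 hd
    rw [← sum_congr rfl fun N _ => e f o N]
    refine h f hd.supp o hd.ho K hd.hK V 𝒩 hd.root hd.cl fun N hN j => ?_
    have h3 := hd.l2 N hN j
    simpa only [Real.rpow_two] using h3

/-- restriction to a sub-root -/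
theorem Dat2.cut {n : ℕ} {f : Fin 4 → ℤ → ℝ} {o : ℤ} {K : ℕ} {V : ℤ}
    {𝒩 : Finset (ℕ × ℤ)} (h : Dat2 n f o K V 𝒩) {Q : ℕ × ℤ} (hQ : Q ∈ 𝒩)
    {𝒩' : Finset (ℕ × ℤ)} (h𝒩' : ∀ N, N ∈ 𝒩' ↔ N ∈ 𝒩 ∧ Bel N Q) :
    Dat2 n f o Q.1 Q.2 𝒩' := by
  have hQK := (h.root Q hQ).2.1
  refine ⟨h.supp, h.ho, hQK.trans h.hK, fun N hN => ?_, fun N hN k' h1 h2 => ?_,
    fun N hN => h.l2 N ((h𝒩' N).1 hN).1⟩
  · obtain ⟨h1, h2⟩ := (h𝒩' N).1 hN
    exact ⟨(h.root N h1).1, h2.1, h2.2⟩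
  · obtain ⟨h3, h4⟩ := (h𝒩' N).1 hN
    refine (h𝒩' _).2 ⟨h.cl N h3 k' h1 (h2.trans hQK), h2, ?_⟩
    show N.2 / 2 ^ (k' - N.1) / 2 ^ (Q.1 - k') = Q.2
    rw [← ediv_pow_add, ← h4.2]
    congr 2
    omega

/-- the trivial bound -/
theorem root2_trivial (n : ℕ) : Root2 n (2 ^ 10 * n) := by
  intro f o K V 𝒩 h
  have h1 : ∀ N ∈ 𝒩, |wN o f N| ≤ 2 ^ 10 * 2 ^ N.1 := by
    intro N hN
    have h2 := Vale.Agent.P141.PL.H571.single_scale (k := N.1) (v := N.2) h.ho f (fun _ => 1) (by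
      intro j; rw [mul_one]; exact h.l2 N hN j)
    rw [Real.sqrt_one, prod_const_one, mul_one] at h2
    unfold wN
    rwa [abs_mul, abs_of_pos (by positivity : (0 : ℝ) < ((4 : ℝ) ^ N.1)⁻¹)]
  refine (sum_le_sum h1).trans ?_
  rw [← mul_sum]
  have h3 := sum_two_pow_le h.root
  have h4 : (K : ℝ) * 2 ^ K ≤ n * 2 ^ K :=
    mul_le_mul_of_nonneg_right (by exact_mod_cast h.hK) (by positivity)
  have h5 := mul_le_mul_of_nonneg_left (h3.trans h4) (by norm_num : (0 : ℝ) ≤ 2 ^ 10)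
  linarith

/-- a system of levels; `F` is the cost of the first level, `E` the size of the black box; nodes
below a bad cell of any level `≤ j + 1` are not seen by the step `j` -/
structure LvSys2 (ρ C F : ℝ) (j0 : ℕ) (E : ℝ) (f : Fin 4 → ℤ → ℝ) (o : ℤ) (K : ℕ)
    (𝒩 : Finset (ℕ × ℤ)) (X : ℕ → ℕ × ℤ → ℝ) (ℬ : ℕ → Finset (ℕ × ℤ)) : Prop where
  sub : ∀ j, j0 ≤ j → ℬ j ⊆ 𝒩
  bad : ∀ j, j0 ≤ j → ∑ Q ∈ ℬ j, (2 : ℝ) ^ Q.1 ≤ C * ρ ^ j * 2 ^ K
  first : ∑ N ∈ gd 𝒩 (ℬ j0), |wN o f N - X j0 N| ≤ (F + C * ρ ^ j0 * E) * 2 ^ K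
  step : ∀ j, j0 ≤ j → ∑ N ∈ gdU j0 (j + 1) 𝒩 ℬ, |X j N - X (j + 1) N| ≤
    C * ρ ^ j * E * 2 ^ K
  lim : ∀ N ∈ 𝒩, (∀ j, j0 ≤ j → ¬ Bad (ℬ j) N) → ∀ ε : ℝ, 0 < ε → ∃ J, ∀ j, J ≤ j → |X j N| ≤ ε

/-- **The target of the level construction**: `ρ`, `C`, `F` are absolute. -/
def LevelSys2 : Prop := ∃ ρ C : ℝ, ∃ F : ℕ → ℝ, 0 ≤ ρ ∧ ρ < 1 ∧ 0 ≤ C ∧
  ∀ j0 : ℕ, 1 ≤ j0 → ∀ (n : ℕ) (P : ℝ), 0 ≤ P → Root2 n P →
    ∀ f o K V 𝒩, Dat2 n f o K V 𝒩 →
      ∃ X ℬ, LvSys2 ρ C (F j0) j0 (1 + P) f o K 𝒩 X ℬ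

/-- one step of the bootstrap for one datum -/
theorem boot_dat2 {ρ C M E F : ℝ} {j0 n : ℕ} (hρ0 : 0 ≤ ρ)
    {f : Fin 4 → ℤ → ℝ} {o : ℤ} {K : ℕ} {V : ℤ} {𝒩 : Finset (ℕ × ℤ)}
    (hd : Dat2 n f o K V 𝒩) {X : ℕ → ℕ × ℤ → ℝ} {ℬ : ℕ → Finset (ℕ × ℤ)}
    (hs : LvSys2 ρ C F j0 E f o K 𝒩 X ℬ) (hM : 0 ≤ M) (hE : 0 ≤ E) (hroot : Root2 n M)
    (hρ1 : ρ < 1) (hj : C * ρ ^ j0 ≤ (1 - ρ) * (1 / 8)) :
    ∑ N ∈ 𝒩, |wN o f N| ≤ (F + 1 + E / 4 + M / 4) * 2 ^ K := by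
  classical
  have h2K : (1 : ℝ) ≤ 2 ^ K := one_le_pow₀ (by norm_num)
  set G : Finset (ℕ × ℤ) := 𝒩.filter fun N => ∀ j, j0 ≤ j → ¬ Bad (ℬ j) N with hG
  set B : Finset (ℕ × ℤ) := 𝒩.filter fun N => ¬ ∀ j, j0 ≤ j → ¬ Bad (ℬ j) N with hB
  -- the last level
  have hb : ∀ N, ∃ j, N ∈ B → j0 ≤ j ∧ Bad (ℬ j) N := by
    intro N
    by_cases h : N ∈ B
    · have h1 := (mem_filter.1 h).2
      push Not at h1
      obtain ⟨j, h2, h3⟩ := h1
      exact ⟨j, fun _ => ⟨h2, h3⟩⟩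
    · exact ⟨0, fun h' => absurd h' h⟩
  choose jb hjb using hb
  set ε : ℝ := 1 / (𝒩.card + 1) with hε
  have hε0 : 0 < ε := by positivity
  have hg : ∀ N, ∃ J, N ∈ G → ∀ j, J ≤ j → |X j N| ≤ ε := by
    intro N
    by_cases h : N ∈ G
    · obtain ⟨J, hJ⟩ := hs.lim N (mem_filter.1 h).1 (mem_filter.1 h).2 ε hε0
      exact ⟨J, fun _ => hJ⟩
    · exact ⟨0, fun h' => absurd h' h⟩
  choose jg hjg using hg
  set m : ℕ := (𝒩.sup jb) + (𝒩.sup jg) + 1 with hm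
  -- the good part
  have hgood : ∑ N ∈ G, |wN o f N| ≤ (F + 1 + E / 4) * 2 ^ K := by
    have h1 : ∑ N ∈ G, |wN o f N| ≤ ∑ N ∈ G, (|wN o f N - X j0 N| +
        ∑ i ∈ range m, |X (j0 + i) N - X (j0 + i + 1) N| + |X (j0 + m) N|) :=
      sum_le_sum fun N _ => abs_tele_le _ (fun j => X j N) j0 m
    refine h1.trans ?_
    rw [sum_add_distrib, sum_add_distrib]
    have hsubG : ∀ j, j0 ≤ j → G ⊆ gd 𝒩 (ℬ j) := fun j hj' N hN =>
      mem_gd.2 ⟨(mem_filter.1 hN).1, (mem_filter.1 hN).2 j hj'⟩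
    have a1 : ∑ N ∈ G, |wN o f N - X j0 N| ≤ (F + E / 8) * 2 ^ K := by
      refine (sum_le_sum_of_subset_of_nonneg (hsubG j0 le_rfl) fun _ _ _ =>
        abs_nonneg _).trans (hs.first.trans ?_)
      refine mul_le_mul_of_nonneg_right ?_ (by positivity)
      have h3 : C * ρ ^ j0 ≤ 1 / 8 := by nlinarith
      have h4 := mul_le_mul_of_nonneg_right h3 hE
      linarith
    have a2 : ∑ N ∈ G, ∑ i ∈ range m, |X (j0 + i) N - X (j0 + i + 1) N| ≤ E / 8 * 2 ^ K := by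
      rw [sum_comm]
      have h2 : ∀ i ∈ range m, ∑ N ∈ G, |X (j0 + i) N - X (j0 + i + 1) N| ≤
          C * ρ ^ (j0 + i) * (E * 2 ^ K) := by
        intro i _
        refine (sum_le_sum_of_subset_of_nonneg ?_ fun _ _ _ => abs_nonneg _).trans
          ((hs.step (j0 + i) (by omega)).trans (le_of_eq (by ring)))
        intro N hN
        exact mem_gdU.2 ⟨(mem_filter.1 hN).1, fun i' h1 _ => (mem_filter.1 hN).2 i' h1⟩
      refine (sum_le_sum h2).trans ?_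
      rw [← sum_mul]
      have h3 := mul_le_mul_of_nonneg_right (sum_geom_le' hρ0 hj (by norm_num) m)
        (by positivity : 0 ≤ E * 2 ^ K)
      linarith
    have a3 : ∑ N ∈ G, |X (j0 + m) N| ≤ 1 := by
      have h2 : ∀ N ∈ G, |X (j0 + m) N| ≤ ε := by
        intro N hN
        refine hjg N hN _ ?_
        have := Finset.le_sup (f := jg) (mem_filter.1 hN).1
        omega
      refine (sum_le_sum h2).trans ?_
      rw [sum_const, nsmul_eq_mul]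
      have h3 : (G.card : ℝ) ≤ 𝒩.card := by exact_mod_cast card_le_card (filter_subset _ _)
      have h4 : ((𝒩.card : ℝ) + 1) * ε = 1 := by rw [hε]; field_simp
      nlinarith
    nlinarith
  -- the bad part
  have hbad : ∑ N ∈ B, |wN o f N| ≤ M / 8 * 2 ^ K := by
    have h1 : ∑ N ∈ B, |wN o f N| ≤ ∑ i ∈ range m, ∑ Q ∈ ℬ (j0 + i),
        ∑ N ∈ 𝒩.filter (fun N => Bel N Q), |wN o f N| := by
      have h2 : ∀ N ∈ B, |wN o f N| ≤ ∑ i ∈ range m, ∑ Q ∈ ℬ (j0 + i),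
          (if Bel N Q then |wN o f N| else 0) := by
        intro N hN
        obtain ⟨h3, Q, hQ, hNQ⟩ := hjb N hN
        have h4 : jb N - j0 ∈ range m := by
          have := Finset.le_sup (f := jb) (mem_filter.1 hN).1
          rw [mem_range]
          omega
        have h5 : j0 + (jb N - j0) = jb N := by omega
        have nn : ∀ i ∈ range m, 0 ≤ ∑ Q ∈ ℬ (j0 + i), (if Bel N Q then |wN o f N| else 0) :=
          fun i _ => sum_nonneg fun Q _ => by split_ifs <;> simp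
        refine le_trans ?_ (single_le_sum nn h4)
        simp only [h5]
        refine le_trans (le_of_eq ?_) (single_le_sum (f := fun Q => if Bel N Q then |wN o f N|
          else 0) (fun Q _ => by split_ifs <;> simp) hQ)
        simp only [if_pos hNQ]
      refine (sum_le_sum h2).trans ?_
      rw [sum_comm]
      refine sum_le_sum fun i _ => ?_
      rw [sum_comm]
      refine sum_le_sum fun Q _ => ?_
      have h5 : ∑ N ∈ B, (if Bel N Q then |wN o f N| else 0) ≤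
          ∑ N ∈ 𝒩, (if Bel N Q then |wN o f N| else 0) :=
        sum_le_sum_of_subset_of_nonneg (filter_subset _ _) fun _ _ _ => by
          split_ifs <;> simp
      refine h5.trans (le_of_eq ?_)
      rw [sum_filter]
    refine h1.trans ?_
    have h2 : ∀ i ∈ range m, ∑ Q ∈ ℬ (j0 + i), ∑ N ∈ 𝒩.filter (fun N => Bel N Q), |wN o f N| ≤
        M * 2 ^ K * (C * ρ ^ (j0 + i)) := by
      intro i _
      have h3 : ∀ Q ∈ ℬ (j0 + i), ∑ N ∈ 𝒩.filter (fun N => Bel N Q), |wN o f N| ≤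
          M * 2 ^ Q.1 := by
        intro Q hQ
        exact hroot f o Q.1 Q.2 _ (hd.cut (hs.sub (j0 + i) (by omega) hQ) fun N => mem_filter)
      refine (sum_le_sum h3).trans ?_
      rw [← mul_sum]
      have h4 := mul_le_mul_of_nonneg_left (hs.bad (j0 + i) (by omega)) hM
      linarith
    refine (sum_le_sum h2).trans ?_
    rw [← mul_sum]
    have h3 := mul_le_mul_of_nonneg_left (sum_geom_le' hρ0 hj (by norm_num) m)
      (by positivity : 0 ≤ M * 2 ^ K)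
    linarith
  have hsplit : ∑ N ∈ 𝒩, |wN o f N| = ∑ N ∈ G, |wN o f N| + ∑ N ∈ B, |wN o f N| := by
    rw [hG, hB]
    exact (sum_filter_add_sum_filter_not 𝒩 _ _).symm
  rw [hsplit]
  have h9 : 0 ≤ M * 2 ^ K := by positivity
  linarith

/-- **The bootstrap.** -/
theorem root2_of_levelSys2 (h : LevelSys2) : ∃ P : ℝ, 0 ≤ P ∧ ∀ n : ℕ, Root2 n P := by
  obtain ⟨ρ, C, F, hρ0, hρ1, hC, h⟩ := h
  -- the first level
  obtain ⟨js, hjs1, hjs⟩ : ∃ js : ℕ, 1 ≤ js ∧ C * ρ ^ js ≤ (1 - ρ) * (1 / 8) := by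
    have h1 : Filter.Tendsto (fun j : ℕ => C * ρ ^ j) Filter.atTop (nhds (C * 0)) :=
      (tendsto_pow_atTop_nhds_zero_of_lt_one hρ0 hρ1).const_mul C
    rw [mul_zero] at h1
    have h2 : (0 : ℝ) < (1 - ρ) * (1 / 8) := by linarith
    obtain ⟨j1, hj1⟩ := Filter.eventually_atTop.1 (h1.eventually_le_const h2)
    exact ⟨j1 + 1, by omega, hj1 (j1 + 1) (by omega)⟩
  set Bc : ℝ := |F js| + 5 / 4 with hBc
  have hBc0 : 0 ≤ Bc := by positivity
  -- one step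
  have hstep : ∀ n : ℕ, ∀ P : ℝ, 0 ≤ P → Root2 n P → Root2 n (Bc + P / 2) := by
    intro n P hP hPr f o K V 𝒩 hd
    obtain ⟨X, ℬ, hs⟩ := h js hjs1 n P hP hPr f o K V 𝒩 hd
    have h1 := boot_dat2 hρ0 hd hs hP (by linarith) hPr hρ1 hjs
    refine h1.trans (mul_le_mul_of_nonneg_right ?_ (by positivity))
    have h2 := le_abs_self (F js)
    rw [hBc]
    linarith
  refine ⟨2 * Bc, by positivity, fun n f o K V 𝒩 hd => ?_⟩
  -- iteration
  have hit : ∀ i : ℕ, Root2 n (2 * Bc + 2 ^ 10 * n / 2 ^ i) := by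
    intro i
    induction i with
    | zero =>
      refine (root2_trivial n).mono ?_
      rw [pow_zero, div_one]
      linarith
    | succ i ih =>
      refine (hstep n _ (by positivity) ih).mono (le_of_eq ?_)
      rw [pow_succ]
      field_simp
      ring
  have hlim : Filter.Tendsto (fun i : ℕ => (2 * Bc + 2 ^ 10 * (n : ℝ) / 2 ^ i) * 2 ^ K)
      Filter.atTop (nhds ((2 * Bc + 0) * 2 ^ K)) := by
    have h1 : Filter.Tendsto (fun i : ℕ => 2 ^ 10 * (n : ℝ) / 2 ^ i) Filter.atTop (nhds 0) := by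
      have h2 := (tendsto_pow_atTop_nhds_zero_of_lt_one (by norm_num : (0 : ℝ) ≤ 1 / 2)
        (by norm_num)).const_mul (2 ^ 10 * (n : ℝ))
      rw [mul_zero] at h2
      refine h2.congr fun i => ?_
      rw [one_div, inv_pow]
      rfl
    exact (h1.const_add _).mul_const _
  rw [add_zero] at hlim
  exact ge_of_tendsto' hlim fun i => hit i f o K V 𝒩 hd

/-- **Level systems without heights give the boundedness at `(4, 4, 4)`.** -/
theorem boundedAt_444_of_levelSys2 (h : LevelSys2) : Vale.Agent.P141.BoundedAt 4 4 4 (4 / 3) := by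
  obtain ⟨P, hP, H⟩ := root2_of_levelSys2 h
  exact Vale.Agent.P141.H337.bounded_444 (by norm_num) (by norm_num) hP fun n =>
    root2_iff.1 (H n)

end

end Vale.Agent.P141.H347
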