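import Vale.Agent.P141.H347.Cell1

/-!
# P141, line W: the one-cell process (module M1a), construction
-/

namespace Vale.Agent.P141.H347

open Finset Vale.Agent.P141.H315 Vale.Agent.P141.PL.H318

noncomputable section

open scoped Classical

variable {X ι : Type*} {g : Grid X} {S : CSys g ι}

/-! ### elementary facts -/

theorem cd_pos (g : Grid X) (k : ℕ) (x : X) : 0 < cd g k x := by
  unfold cd
  exact_mod_cast card_pos.mpr ⟨x, g.mem k x⟩

theorem cd_const {k : ℕ} {x y : X} (h : y ∈ g.cube k x) : cd g k y = cd g k x := by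
  unfold cd; rw [g.eq_of_mem k x y h]

theorem lden_nonneg (w : LW S) (j k : ℕ) (G : X → ℝ) (x : X) : 0 ≤ lden w j k G x :=
  Finset.sum_nonneg fun _ _ => mul_nonneg (abs_nonneg _) (w.nonneg _ _ _ _)

theorem lden_const (w : LW S) {j k : ℕ} (hkj : k ≤ j) (G : X → ℝ) {x y : X}
    (h : y ∈ g.cube k x) : lden w j k G y = lden w j k G x := by
  unfold lden
  rw [g.eq_of_mem j x y (g.sub_le hkj x h)]
  unfold Finsupp.sum
  exact sum_congr rfl fun i _ => by simp only [w.const j k x y i h]

/-- Packing of the local masses of one birth. -/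
theorem sum_lden_le (w : LW S) (j : ℕ) (G : X → ℝ) (x : X) (A : X → Prop) [DecidablePred A]
    (m : X → ℕ) (hF : Fam g A m) (hm : ∀ z ∈ g.cube j x, A z → m z ≤ j) :
    ∑ z ∈ g.cube j x, (if A z then lden w j (m z) G z else 0) ≤
      cW S j (g.cube j x) (bm S j G (g.cube j x)) := by
  have h1 : ∀ z ∈ g.cube j x, (if A z then lden w j (m z) G z else 0) =
      ∑ i ∈ (bm S j G (g.cube j x)).support,
        |bm S j G (g.cube j x) i| * (if A z then w.ω j (m z) z i else 0) := by
    intro z hz
    by_cases hA : A z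
    · rw [if_pos hA]
      unfold lden Finsupp.sum
      rw [g.eq_of_mem j x z hz]
      exact sum_congr rfl fun i _ => by rw [if_pos hA]
    · rw [if_neg hA]
      exact (sum_eq_zero fun i _ => by rw [if_neg hA, mul_zero]).symm
  rw [sum_congr rfl h1, sum_comm]
  unfold cW bcost Finsupp.sum
  refine sum_le_sum fun i _ => ?_
  rw [← mul_sum]
  refine mul_le_mul_of_nonneg_left (le_trans (le_of_eq ?_) (w.pack j x i A m hF hm)) (abs_nonneg _)
  exact sum_congr rfl fun z _ => by congr

theorem lden_self_le (w : LW S) (k : ℕ) (G : X → ℝ) (x : X) :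
    lden w k k G x ≤ den S k G x := by
  have h := sum_lden_le w k G x (fun _ => True) (fun _ => k) (fun z _ y _ => ⟨trivial, rfl⟩)
    (fun z _ _ => le_rfl)
  simp only [if_true] at h
  have h1 : ∑ z ∈ g.cube k x, lden w k k G z = cd g k x * lden w k k G x := by
    rw [sum_congr rfl fun z hz => lden_const w le_rfl G hz, sum_const, nsmul_eq_mul]
    rfl
  rw [h1] at h
  unfold den
  rw [le_div_iff₀ (show (0 : ℝ) < ((g.cube k x).card : ℝ) from cd_pos g k x)]
  calc lden w k k G x * ((g.cube k x).card : ℝ) = cd g k x * lden w k k G x := by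
        unfold cd; ring
    _ ≤ _ := h

theorem sum_dr (k : ℕ) (G : X → ℝ) (x : X) :
    ∑ z ∈ g.cube k x, dr S k G z =
      dot (g.cube k x) G G - dot (g.cube k x) (T S k G) (T S k G) := by
  have h : ∀ z ∈ g.cube k x, dr S k G z = dr S k G x := by
    intro z hz
    unfold dr
    rw [g.eq_of_mem k x z hz, cd_const hz]
  rw [sum_congr rfl h, sum_const, nsmul_eq_mul]
  unfold dr
  have := cd_pos g k x
  unfold cd at this ⊢
  field_simp

theorem den_le_dr (k : ℕ) (G : X → ℝ) (x : X) : den S k G x ≤ dr S k G x := by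
  unfold den dr cd
  have h0 : (0 : ℝ) < (g.cube k x).card := cd_pos g k x
  refine div_le_div_of_nonneg_right ?_ h0.le
  have := T_energy S k G x
  linarith

theorem dr_nonneg (k : ℕ) (G : X → ℝ) (x : X) : 0 ≤ dr S k G x :=
  (den_nonneg S k G x).trans (den_le_dr k G x)

/-! ### the recursion -/

section rec_

variable (w : LW S) (L : ℕ) (e : ℝ) (F : X → ℝ) (gd : ℕ → X → Prop)

/-- The restart rule. -/
def rsf (k : ℕ) (s : (X → ℝ) × (ℕ → X → ℝ)) (x : X) : Prop :=
  k < L ∧ gd k x ∧ (8 * e * cd g k x < dot (g.cube k x) s.1 s.1 ∨ 8 * e < s.2 k x)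

/-- The function after the restarts. -/
def Hf (k : ℕ) (s : (X → ℝ) × (ℕ → X → ℝ)) (x : X) : ℝ :=
  if rsf (g := g) L e gd k s x then F x else s.1 x

/-- One step. -/
def upd (k : ℕ) (s : (X → ℝ) × (ℕ → X → ℝ)) : (X → ℝ) × (ℕ → X → ℝ) :=
  (fun x => if gd k x then T S k (Hf (g := g) L e F gd k s) x else s.1 x,
   fun i x => (if rsf (g := g) L e gd k s x then 0 else s.2 i x) +
     (if gd k x then lden w k i (Hf (g := g) L e F gd k s) x else 0))

/-- The states, indexed by the number of steps. -/
def stn : ℕ → (X → ℝ) × (ℕ → X → ℝ)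
  | 0 => (F, 0)
  | d + 1 => upd w L e F gd (L - d) (stn d)

/-- The state at the scale `k`. -/
def stt (k : ℕ) : (X → ℝ) × (ℕ → X → ℝ) := stn w L e F gd (L + 1 - k)

/-- The residual at the scale `k`. -/
def pV (k : ℕ) : X → ℝ := (stt w L e F gd k).1

/-- The mass at the scale `k`. -/
def pM (k : ℕ) : ℕ → X → ℝ := (stt w L e F gd k).2

/-- The restarts. -/
def pR (k : ℕ) (x : X) : Prop := rsf (g := g) L e gd k (stt w L e F gd (k + 1)) x

/-- The function before the births. -/
def pH (k : ℕ) : X → ℝ := Hf (g := g) L e F gd k (stt w L e F gd (k + 1))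

variable {w L e F gd}

theorem stt_step {k : ℕ} (hk : k ≤ L) :
    stt w L e F gd k = upd w L e F gd k (stt w L e F gd (k + 1)) := by
  unfold stt
  have h1 : L + 1 - k = (L - k) + 1 := by omega
  have h2 : L + 1 - (k + 1) = L - k := by omega
  have h3 : L - (L - k) = k := by omega
  rw [h1, h2, stn, h3]

theorem stt_top {k : ℕ} (hk : L + 1 ≤ k) : stt w L e F gd k = (F, 0) := by
  unfold stt
  have : L + 1 - k = 0 := by omega
  rw [this, stn]

theorem pR_lt {k : ℕ} {x : X} (h : pR w L e F gd k x) : k < L ∧ gd k x := ⟨h.1, h.2.1⟩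

theorem pH_of_rs {k : ℕ} {x : X} (h : pR w L e F gd k x) : pH w L e F gd k x = F x := by
  unfold pH Hf
  exact if_pos h

theorem pH_of_not {k : ℕ} {x : X} (h : ¬ pR w L e F gd k x) :
    pH w L e F gd k x = pV w L e F gd (k + 1) x := by
  unfold pH Hf pV
  exact if_neg h

theorem pV_step {k : ℕ} (hk : k ≤ L) {x : X} (h : gd k x) :
    pV w L e F gd k x = T S k (pH w L e F gd k) x := by
  unfold pV pH
  rw [stt_step hk]
  exact if_pos h

theorem pV_idle {k : ℕ} (hk : k ≤ L) {x : X} (h : ¬ gd k x) :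
    pV w L e F gd k x = pV w L e F gd (k + 1) x := by
  unfold pV
  rw [stt_step hk]
  exact if_neg h

theorem pM_step {k : ℕ} (hk : k ≤ L) (i : ℕ) (x : X) :
    pM w L e F gd k i x = (if pR w L e F gd k x then 0 else pM w L e F gd (k + 1) i x) +
      (if gd k x then lden w k i (pH w L e F gd k) x else 0) := by
  unfold pM pR pH
  rw [stt_step hk]
  rfl

theorem pV_top {k : ℕ} (hk : L + 1 ≤ k) (x : X) : pV w L e F gd k x = F x := by
  unfold pV; rw [stt_top hk]

theorem pM_top {k : ℕ} (hk : L + 1 ≤ k) (i : ℕ) (x : X) : pM w L e F gd k i x = 0 := by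
  unfold pM; rw [stt_top hk]; rfl

theorem pH_top (x : X) : pH w L e F gd L x = F x := by
  rw [pH_of_not (fun h => absurd h.1 (lt_irrefl _)), pV_top le_rfl]

end rec_

/-! ### constancy -/

section const

variable {w : LW S} {L : ℕ} {e : ℝ} {F : X → ℝ} {gd : ℕ → X → Prop}

theorem pMR_const (hgd : ∀ k x y, y ∈ g.cube k x → (gd k y ↔ gd k x)) :
    ∀ k, (∀ i ≤ k, ∀ x y, y ∈ g.cube i x → pM w L e F gd k i y = pM w L e F gd k i x) ∧
      (∀ x y, y ∈ g.cube k x → (pR w L e F gd k y ↔ pR w L e F gd k x)) := by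
  have key : ∀ d k, k + d = L + 1 →
      (∀ i ≤ k, ∀ x y, y ∈ g.cube i x → pM w L e F gd k i y = pM w L e F gd k i x) := by
    intro d
    induction d with
    | zero =>
      intro k hk i _ x y _
      rw [pM_top (by omega), pM_top (by omega)]
    | succ d ih =>
      intro k hk i hi x y hy
      have ih' := ih (k + 1) (by omega)
      have hR : pR w L e F gd k y ↔ pR w L e F gd k x := by
        have hy' : y ∈ g.cube k x := g.sub_le hi x hy
        unfold pR rsf
        rw [hgd k x y hy', g.eq_of_mem k x y hy', cd_const hy']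
        have := ih' k (by omega) x y hy'
        unfold pM at this
        rw [this]
      have hG : gd k y ↔ gd k x := hgd k x y (g.sub_le hi x hy)
      have hkL : k ≤ L := by omega
      rw [pM_step hkL i y, pM_step hkL i x, ih' i (by omega) x y hy,
        lden_const w hi _ hy]
      congr 1
      · by_cases h : pR w L e F gd k x
        · rw [if_pos h, if_pos (hR.2 h)]
        · rw [if_neg h, if_neg (fun h' => h (hR.1 h'))]
      · by_cases h : gd k x
        · rw [if_pos h, if_pos (hG.2 h)]
        · rw [if_neg h, if_neg (fun h' => h (hG.1 h'))]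
  have key2 : ∀ k, (∀ i ≤ k, ∀ x y, y ∈ g.cube i x →
      pM w L e F gd k i y = pM w L e F gd k i x) := by
    intro k
    rcases Nat.lt_or_ge (L + 1) k with h | h
    · intro i _ x y _
      rw [pM_top (by omega), pM_top (by omega)]
    · exact key (L + 1 - k) k (by omega)
  intro k
  refine ⟨key2 k, fun x y hy => ?_⟩
  unfold pR rsf
  rw [hgd k x y hy, g.eq_of_mem k x y hy, cd_const hy]
  have := key2 (k + 1) k (by omega) x y hy
  unfold pM at this
  rw [this]

end const

end

end Vale.Agent.P141.H347
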