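import Vale.Agent.P141.H347.Cell2

/-!
# P141, line W: the one-cell process (module M1a), estimates
-/

namespace Vale.Agent.P141.H347

open Finset Vale.Agent.P141.H315 Vale.Agent.P141.PL.H318

noncomputable section

open scoped Classical

variable {X ι : Type*} {g : Grid X} {S : CSys g ι} {w : LW S} {L : ℕ} {e : ℝ} {F : X → ℝ}
  {gd : ℕ → X → Prop}

/-- The hypotheses on the used cells. -/
structure Hyp (g : Grid X) (L : ℕ) (e : ℝ) (F : X → ℝ) (gd : ℕ → X → Prop) : Prop where
  e_pos : 0 < e
  const : ∀ k x y, y ∈ g.cube k x → (gd k y ↔ gd k x)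
  up : ∀ k < L, ∀ x, gd k x → gd (k + 1) x
  energy : ∀ k ≤ L, ∀ x, gd k x → dot (g.cube k x) F F ≤ e * cd g k x

theorem Hyp.up' (h : Hyp g L e F gd) {k j : ℕ} (hkj : k ≤ j) (hj : j ≤ L) {x : X}
    (hx : gd k x) : gd j x := by
  induction j, hkj using Nat.le_induction with
  | base => exact hx
  | succ j hkj ih => exact h.up j (by omega) x (ih (by omega))

theorem pR_const (h : Hyp g L e F gd) {k : ℕ} {x y : X} (hy : y ∈ g.cube k x) :
    pR w L e F gd k y ↔ pR w L e F gd k x := (pMR_const h.const k).2 x y hy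

/-- The function before the births has energy at most `8 e`. -/
theorem enH (h : Hyp g L e F gd) {k : ℕ} (hk : k ≤ L) {x : X} (hx : gd k x) :
    dot (g.cube k x) (pH w L e F gd k) (pH w L e F gd k) ≤ 8 * e * cd g k x := by
  have hc := cd_pos g k x
  have he := h.e_pos
  by_cases hr : pR w L e F gd k x
  · have h1 : ∀ y ∈ g.cube k x, pH w L e F gd k y = F y := fun y hy =>
      pH_of_rs ((pR_const h hy).2 hr)
    rw [dot_congr h1 h1]
    have := h.energy k hk x hx
    nlinarith
  · have h1 : ∀ y ∈ g.cube k x, pH w L e F gd k y = pV w L e F gd (k + 1) y := fun y hy =>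
      pH_of_not (fun h' => hr ((pR_const h hy).1 h'))
    rw [dot_congr h1 h1]
    rcases Nat.lt_or_ge k L with hkL | hkL
    · by_contra hcon
      push Not at hcon
      exact hr ⟨hkL, hx, Or.inl hcon⟩
    · have h2 : ∀ y ∈ g.cube k x, pV w L e F gd (k + 1) y = F y := fun y _ =>
        pV_top (by omega) y
      rw [dot_congr h2 h2]
      have := h.energy k hk x hx
      nlinarith

theorem dotV_eq (h : Hyp g L e F gd) {k : ℕ} (hk : k ≤ L) {x : X} (hx : gd k x) :
    ∀ y ∈ g.cube k x, pV w L e F gd k y = T S k (pH w L e F gd k) y := fun y hy =>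
  pV_step hk ((h.const k x y hy).2 hx)

theorem enV (h : Hyp g L e F gd) {k : ℕ} (hk : k ≤ L) {x : X} (hx : gd k x) :
    dot (g.cube k x) (pV w L e F gd k) (pV w L e F gd k) ≤ 8 * e * cd g k x := by
  rw [dot_congr (dotV_eq h hk hx) (dotV_eq h hk hx)]
  exact (T_energy_le S k _ x).trans (enH h hk hx)

/-! ### the total drop -/

/-- Telescoping. -/
theorem tel {A D R : ℕ → ℝ} {l : ℕ} (h : ∀ k < l, A k + D k ≤ A (k + 1) + R k) {k : ℕ}
    (hk : k ≤ l) : A k + ∑ j ∈ Ico k l, D j ≤ A l + ∑ j ∈ Ico k l, R j := by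
  induction hk using Nat.decreasingInduction with
  | self => simp
  | of_succ k hk ih =>
    rw [sum_eq_sum_Ico_succ_bot hk, sum_eq_sum_Ico_succ_bot hk]
    have := h k hk
    linarith

theorem sum_ite_const {k : ℕ} {x : X} {p : X → Prop} [DecidablePred p]
    (hp : ∀ z ∈ g.cube k x, p z) (f : X → ℝ) :
    ∑ z ∈ g.cube k x, (if p z then f z else 0) = ∑ z ∈ g.cube k x, f z :=
  sum_congr rfl fun z hz => if_pos (hp z hz)

theorem sum_one (g : Grid X) (k : ℕ) (x : X) : ∑ _z ∈ g.cube k x, (1 : ℝ) = cd g k x := by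
  rw [sum_const, nsmul_eq_mul, mul_one]; rfl

/-- One step of energies on one cube, with the restarts and the discarded energy. -/
theorem step_energy (h : Hyp g L e F gd) {k : ℕ} (hk : k < L) (x : X) :
    ∑ z ∈ g.cube k x, (pV w L e F gd k z * pV w L e F gd k z +
        ((if gd k z then dr S k (pH w L e F gd k) z else 0) +
        (if pR w L e F gd k z then pV w L e F gd (k + 1) z * pV w L e F gd (k + 1) z else 0))) ≤
      ∑ z ∈ g.cube k x, (pV w L e F gd (k + 1) z * pV w L e F gd (k + 1) z +
        (if pR w L e F gd k z then e else 0)) := by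
  have he := h.e_pos
  by_cases hx : gd k x
  · have hg' : ∀ z ∈ g.cube k x, gd k z := fun z hz => (h.const k x z hz).2 hx
    have e2 : ∑ z ∈ g.cube k x, pV w L e F gd k z * pV w L e F gd k z =
        dot (g.cube k x) (T S k (pH w L e F gd k)) (T S k (pH w L e F gd k)) :=
      sum_congr rfl fun z hz => by rw [dotV_eq h hk.le hx z hz]
    rw [sum_add_distrib, sum_add_distrib, sum_add_distrib, sum_ite_const hg', sum_dr, e2]
    by_cases hr : pR w L e F gd k x
    · have hr' : ∀ z ∈ g.cube k x, pR w L e F gd k z := fun z hz => (pR_const h hz).2 hr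
      have h1 : ∀ y ∈ g.cube k x, pH w L e F gd k y = F y := fun y hy => pH_of_rs (hr' y hy)
      rw [dot_congr h1 h1, sum_ite_const hr' (fun _ => e), sum_const,
        nsmul_eq_mul, sum_ite_const hr' (fun z => pV w L e F gd (k + 1) z *
          pV w L e F gd (k + 1) z)]
      have := h.energy k hk.le x hx
      unfold cd at this
      linarith
    · have hr' : ∀ z ∈ g.cube k x, ¬ pR w L e F gd k z := fun z hz h' =>
        hr ((pR_const h hz).1 h')
      have h1 : ∀ y ∈ g.cube k x, pH w L e F gd k y = pV w L e F gd (k + 1) y := fun y hy =>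
        pH_of_not (hr' y hy)
      have h2 : ∑ z ∈ g.cube k x, (if pR w L e F gd k z then
          pV w L e F gd (k + 1) z * pV w L e F gd (k + 1) z else 0) = 0 :=
        sum_eq_zero fun z hz => if_neg (hr' z hz)
      have h3 : ∑ z ∈ g.cube k x, (if pR w L e F gd k z then e else 0) = 0 :=
        sum_eq_zero fun z hz => if_neg (hr' z hz)
      rw [dot_congr h1 h1, h2, h3]
      unfold dot
      linarith
  · refine sum_le_sum fun z hz => ?_
    have hz' : ¬ gd k z := fun h' => hx ((h.const k x z hz).1 h')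
    have hr' : ¬ pR w L e F gd k z := fun h' => hz' h'.2.1
    rw [if_neg hz', if_neg hr', if_neg hr', pV_idle hk.le hz']
    linarith

/-- Energies, drops and discards below a cube. -/
theorem drop_aux (h : Hyp g L e F gd) {l : ℕ} (hl : l ≤ L) (x : X) {k : ℕ} (hk : k ≤ l) :
    ∑ z ∈ g.cube l x, pV w L e F gd k z * pV w L e F gd k z +
        ∑ j ∈ Ico k l, (∑ z ∈ g.cube l x, (if gd j z then dr S j (pH w L e F gd j) z else 0) +
          ∑ z ∈ g.cube l x, (if pR w L e F gd j z then
            pV w L e F gd (j + 1) z * pV w L e F gd (j + 1) z else 0)) ≤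
      ∑ z ∈ g.cube l x, pV w L e F gd l z * pV w L e F gd l z +
        ∑ j ∈ Ico k l, ∑ z ∈ g.cube l x, (if pR w L e F gd j z then e else 0) := by
  refine tel (A := fun k => ∑ z ∈ g.cube l x, pV w L e F gd k z * pV w L e F gd k z)
    (D := fun j => ∑ z ∈ g.cube l x, (if gd j z then dr S j (pH w L e F gd j) z else 0) +
          ∑ z ∈ g.cube l x, (if pR w L e F gd j z then
            pV w L e F gd (j + 1) z * pV w L e F gd (j + 1) z else 0))
    (R := fun j => ∑ z ∈ g.cube l x, (if pR w L e F gd j z then e else 0)) ?_ hk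
  intro j hj
  rw [← sum_add_distrib, ← sum_add_distrib, ← sum_add_distrib]
  exact g.sum_le_sum_of_cubes hj.le x _ _ fun y _ => step_energy h (by omega) y

/-! ### one period -/

/-- The start cubes. -/
def Stt (w : LW S) (L : ℕ) (e : ℝ) (F : X → ℝ) (gd : ℕ → X → Prop) (l : ℕ) (x : X) : Prop :=
  gd l x ∧ (l = L ∨ pR w L e F gd l x)

/-- No restart at the scales `[j, l)`. -/
def nr (w : LW S) (L : ℕ) (e : ℝ) (F : X → ℝ) (gd : ℕ → X → Prop) (l j : ℕ) (z : X) : Prop :=
  ∀ i, j ≤ i → i < l → ¬ pR w L e F gd i z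

theorem nr_const (h : Hyp g L e F gd) {l j : ℕ} {x z : X} (hz : z ∈ g.cube j x) :
    nr w L e F gd l j z ↔ nr w L e F gd l j x := by
  unfold nr
  refine forall_congr' fun i => forall_congr' fun hi => forall_congr' fun _ => ?_
  rw [pR_const h (g.sub_le hi x hz)]

/-- The stopped square. -/
def sv (w : LW S) (L : ℕ) (e : ℝ) (F : X → ℝ) (gd : ℕ → X → Prop) (l : ℕ) :
    ℕ → X → ℝ
  | 0 => fun z => pV w L e F gd l z * pV w L e F gd l z
  | d + 1 => fun z => if nr w L e F gd l (l - (d + 1)) z then
      pV w L e F gd (l - (d + 1)) z * pV w L e F gd (l - (d + 1)) z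
      else sv w L e F gd l d z

/-- The stopped square at the scale `j`. -/
def sw (w : LW S) (L : ℕ) (e : ℝ) (F : X → ℝ) (gd : ℕ → X → Prop) (l j : ℕ) (z : X) : ℝ :=
  sv w L e F gd l (l - j) z

theorem sw_self (l : ℕ) (z : X) : sw w L e F gd l l z =
    pV w L e F gd l z * pV w L e F gd l z := by
  unfold sw; rw [Nat.sub_self, sv]

theorem sw_step {l j : ℕ} (hj : j < l) (z : X) : sw w L e F gd l j z =
    if nr w L e F gd l j z then pV w L e F gd j z * pV w L e F gd j z
      else sw w L e F gd l (j + 1) z := by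
  unfold sw
  have h1 : l - j = (l - (j + 1)) + 1 := by omega
  have h2 : l - (l - (j + 1) + 1) = j := by omega
  rw [h1, sv, h2]

theorem sw_of_nr {l j : ℕ} (hj : j ≤ l) {z : X} (h : nr w L e F gd l j z) :
    sw w L e F gd l j z = pV w L e F gd j z * pV w L e F gd j z := by
  rcases Nat.eq_or_lt_of_le hj with rfl | hlt
  · exact sw_self _ _
  · rw [sw_step hlt, if_pos h]

theorem sw_nonneg (l : ℕ) {j : ℕ} (hj : j ≤ l) (z : X) : 0 ≤ sw w L e F gd l j z := by
  induction hj using Nat.decreasingInduction with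
  | self => rw [sw_self]; exact mul_self_nonneg _
  | of_succ j hj ih =>
    rw [sw_step hj]
    split_ifs
    · exact mul_self_nonneg _
    · exact ih

/-- One step of the stopped energies on one cube. -/
theorem step_stop (h : Hyp g L e F gd) {l k : ℕ} (hl : l ≤ L) (hk : k < l) (x : X) :
    ∑ z ∈ g.cube k x, (sw w L e F gd l k z +
        (if nr w L e F gd l k z ∧ gd k z then den S k (pH w L e F gd k) z else 0)) ≤
      ∑ z ∈ g.cube k x, sw w L e F gd l (k + 1) z := by
  by_cases hn : nr w L e F gd l k x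
  · have hn' : ∀ z ∈ g.cube k x, nr w L e F gd l k z := fun z hz => (nr_const h hz).2 hn
    have hn1 : ∀ z ∈ g.cube k x, nr w L e F gd l (k + 1) z := fun z hz i hi =>
      hn' z hz i (by omega)
    have e3 : ∑ z ∈ g.cube k x, sw w L e F gd l (k + 1) z =
        ∑ z ∈ g.cube k x, pV w L e F gd (k + 1) z * pV w L e F gd (k + 1) z :=
      sum_congr rfl fun z hz => sw_of_nr hk (hn1 z hz)
    by_cases hx : gd k x
    · have hg' : ∀ z ∈ g.cube k x, gd k z := fun z hz => (h.const k x z hz).2 hx
      have e1 : ∑ z ∈ g.cube k x, (sw w L e F gd l k z +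
          (if nr w L e F gd l k z ∧ gd k z then den S k (pH w L e F gd k) z else 0)) =
          dot (g.cube k x) (T S k (pH w L e F gd k)) (T S k (pH w L e F gd k)) +
            cW S k (g.cube k x) (bm S k (pH w L e F gd k) (g.cube k x)) := by
        rw [sum_add_distrib, sum_ite_const (p := fun z => nr w L e F gd l k z ∧ gd k z)
          (fun z hz => ⟨hn' z hz, hg' z hz⟩), sum_den]
        congr 1
        refine sum_congr rfl fun z hz => ?_
        rw [sw_of_nr hk.le (hn' z hz), dotV_eq h (by omega) hx z hz]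
      have h1 : ∀ y ∈ g.cube k x, pH w L e F gd k y = pV w L e F gd (k + 1) y := fun y hy =>
        pH_of_not (hn' y hy k le_rfl hk)
      rw [e1, e3]
      refine (T_energy S k _ x).trans (le_of_eq ?_)
      exact dot_congr h1 h1
    · rw [e3]
      refine sum_le_sum fun z hz => ?_
      have hz' : ¬ gd k z := fun h' => hx ((h.const k x z hz).1 h')
      rw [if_neg fun h' => hz' h'.2, sw_of_nr hk.le (hn' z hz), pV_idle (by omega) hz', add_zero]
  · refine sum_le_sum fun z hz => ?_
    have hz' : ¬ nr w L e F gd l k z := fun h' => hn ((nr_const h hz).1 h')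
    rw [if_neg fun h' => hz' h'.1, sw_step hk, if_neg hz', add_zero]

/-- **Energy inequality of one period.** -/
theorem period (h : Hyp g L e F gd) {l : ℕ} {x : X} (hs : Stt w L e F gd l x) (hl : l ≤ L) {k : ℕ}
    (hk : k ≤ l) :
    ∑ z ∈ g.cube l x, sw w L e F gd l k z +
        ∑ j ∈ Ico k (l + 1), ∑ z ∈ g.cube l x,
          (if nr w L e F gd l j z ∧ gd j z then den S j (pH w L e F gd j) z else 0) ≤
      e * cd g l x := by
  have h1 := tel (A := fun k => ∑ z ∈ g.cube l x, sw w L e F gd l k z)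
    (D := fun j => ∑ z ∈ g.cube l x,
      (if nr w L e F gd l j z ∧ gd j z then den S j (pH w L e F gd j) z else 0))
    (R := fun _ => 0) (l := l) (fun j hj => by
      rw [← sum_add_distrib, add_zero]
      exact g.sum_le_sum_of_cubes hj.le x _ _ fun y _ => step_stop h hl hj y) hk
  rw [sum_const_zero, add_zero] at h1
  have hn' : ∀ z ∈ g.cube l x, nr w L e F gd l l z ∧ gd l z := fun z hz =>
    ⟨fun i hi hi' => absurd hi (by omega), (h.const l x z hz).2 hs.1⟩
  have h2 : ∑ z ∈ g.cube l x, sw w L e F gd l l z + ∑ z ∈ g.cube l x,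
      (if nr w L e F gd l l z ∧ gd l z then den S l (pH w L e F gd l) z else 0) ≤
      e * cd g l x := by
    rw [sum_ite_const (p := fun z => nr w L e F gd l l z ∧ gd l z) hn', sum_den]
    have e1 : ∑ z ∈ g.cube l x, sw w L e F gd l l z =
        dot (g.cube l x) (T S l (pH w L e F gd l)) (T S l (pH w L e F gd l)) :=
      sum_congr rfl fun z hz => by rw [sw_self, dotV_eq h hl hs.1 z hz]
    rw [e1]
    refine (T_energy S l _ x).trans ?_
    have h3 : ∀ y ∈ g.cube l x, pH w L e F gd l y = F y := by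
      intro y hy
      rcases hs.2 with rfl | hr
      · exact pH_top y
      · exact pH_of_rs ((pR_const h hy).2 hr)
    rw [dot_congr h3 h3]
    exact h.energy l hl x hs.1
  rw [sum_Ico_succ_top hk]
  linarith

end

end Vale.Agent.P141.H347
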