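import Vale.Agent.P141.H347.Cell3

/-!
# P141, line W: the one-cell process (module M1a), packing of the restarts
-/

namespace Vale.Agent.P141.H347

open Finset Vale.Agent.P141.H315 Vale.Agent.P141.PL.H318

noncomputable section

open scoped Classical

variable {X ι : Type*} {g : Grid X} {S : CSys g ι} {w : LW S} {L : ℕ} {e : ℝ} {F : X → ℝ}
  {gd : ℕ → X → Prop}

/-- Comparison of sums over a family of cubes of mixed scales. -/
theorem fam_le {A : X → Prop} [DecidablePred A] {m : X → ℕ} (hF : Fam g A m) (f f' : X → ℝ) :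
    ∀ l x, (∀ z ∈ g.cube l x, A z → m z ≤ l) →
      (∀ z ∈ g.cube l x, A z → ∑ y ∈ g.cube (m z) z, f y ≤ ∑ y ∈ g.cube (m z) z, f' y) →
      ∑ z ∈ g.cube l x, (if A z then f z else 0) ≤
        ∑ z ∈ g.cube l x, (if A z then f' z else 0) := by
  have top : ∀ l x, (∀ z ∈ g.cube l x, A z → ∑ y ∈ g.cube (m z) z, f y ≤
      ∑ y ∈ g.cube (m z) z, f' y) → (∃ z ∈ g.cube l x, A z ∧ m z = l) →
      ∑ z ∈ g.cube l x, (if A z then f z else 0) ≤
        ∑ z ∈ g.cube l x, (if A z then f' z else 0) := by
    rintro l x h ⟨z, hz, hA, hm⟩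
    have hc : g.cube (m z) z = g.cube l x := by rw [hm, g.eq_of_mem l x z hz]
    have hall : ∀ y ∈ g.cube l x, A y := fun y hy => (hF z hA y (hc ▸ hy)).1
    rw [sum_ite_const hall, sum_ite_const hall, ← hc]
    exact h z hz hA
  intro l
  induction l with
  | zero =>
    intro x hm h
    by_cases hex : ∃ z ∈ g.cube 0 x, A z
    · obtain ⟨z, hz, hA⟩ := hex
      exact top 0 x h ⟨z, hz, hA, Nat.le_zero.mp (hm z hz hA)⟩
    · push Not at hex
      rw [sum_eq_zero fun z hz => if_neg (hex z hz), sum_eq_zero fun z hz => if_neg (hex z hz)]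
  | succ l ih =>
    intro x hm h
    by_cases hex : ∃ z ∈ g.cube (l + 1) x, A z ∧ m z = l + 1
    · exact top _ x h hex
    · push Not at hex
      refine g.sum_le_sum_of_cubes (Nat.le_succ l) x _ _ fun y hy => ?_
      have hs : g.cube l y ⊆ g.cube (l + 1) x := g.cube_subset (Nat.le_succ l) hy
      refine ih y (fun z hz hA => ?_) fun z hz hA => h z (hs hz) hA
      have h1 := hm z (hs hz) hA
      have h2 := hex z (hs hz) hA
      omega

/-! ### the mass formula -/

theorem pM_eq {k : ℕ} (hk : k ≤ L + 1) (i : ℕ) (x : X) :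
    pM w L e F gd k i x = ∑ j ∈ Ico k (L + 1),
      if (∀ i', k ≤ i' → i' < j → ¬ pR w L e F gd i' x) then
        (if gd j x then lden w j i (pH w L e F gd j) x else 0) else 0 := by
  induction hk using Nat.decreasingInduction with
  | self => rw [pM_top le_rfl]; simp
  | of_succ k hk ih =>
    have hkL : k ≤ L := by omega
    have h0 : ∀ i', k ≤ i' → i' < k → ¬ pR w L e F gd i' x := by
      intro i' h1 h2
      omega
    rw [pM_step hkL, sum_eq_sum_Ico_succ_bot hk, ih, add_comm, if_pos h0]
    congr 1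
    · by_cases hr : pR w L e F gd k x
      · rw [if_pos hr]
        refine (sum_eq_zero fun j hj => ?_).symm
        rw [mem_Ico] at hj
        exact if_neg fun h' => h' k le_rfl (by omega) hr
      · rw [if_neg hr]
        refine sum_congr rfl fun j hj => ?_
        rw [mem_Ico] at hj
        by_cases h1 : ∀ i', k + 1 ≤ i' → i' < j → ¬ pR w L e F gd i' x
        · have h5 : ∀ i', k ≤ i' → i' < j → ¬ pR w L e F gd i' x := by
            intro i' h2 h3
            rcases Nat.eq_or_lt_of_le h2 with rfl | h4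
            · exact hr
            · exact h1 i' h4 h3
          rw [if_pos h1, if_pos h5]
        · have h5 : ¬ ∀ i', k ≤ i' → i' < j → ¬ pR w L e F gd i' x :=
            fun h2 => h1 fun i' h3 h4 => h2 i' (by omega) h4
          rw [if_neg h1, if_neg h5]

/-- The mass formula inside one period. -/
theorem pM_period (h : Hyp g L e F gd) {l k : ℕ} (hl : l ≤ L) (hk : k < l) {x z : X}
    (hs : Stt w L e F gd l x) (hz : z ∈ g.cube l x) (hn : nr w L e F gd l (k + 1) z) (i : ℕ) :
    pM w L e F gd (k + 1) i z = ∑ j ∈ Ico (k + 1) (l + 1),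
      (if gd j z then lden w j i (pH w L e F gd j) z else 0) := by
  rw [pM_eq (by omega), ← sum_Ico_consecutive _ (by omega : k + 1 ≤ l + 1)
    (by omega : l + 1 ≤ L + 1)]
  have h2 : ∑ j ∈ Ico (l + 1) (L + 1), (if (∀ i', k + 1 ≤ i' → i' < j →
      ¬ pR w L e F gd i' z) then
        (if gd j z then lden w j i (pH w L e F gd j) z else 0) else 0) = 0 := by
    refine sum_eq_zero fun j hj => ?_
    rw [mem_Ico] at hj
    rcases hs.2 with rfl | hr
    · omega
    · exact if_neg fun h' => h' l hk (by omega) ((pR_const h hz).2 hr)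
  rw [h2, add_zero]
  refine sum_congr rfl fun j hj => ?_
  rw [mem_Ico] at hj
  have h5 : ∀ i', k + 1 ≤ i' → i' < j → ¬ pR w L e F gd i' z := by
    intro i' h3 h4
    exact hn i' h3 (by omega)
  rw [if_pos h5]

/-! ### the next restart -/

/-- There is a restart below the scale `l`. -/
def nxA (w : LW S) (L : ℕ) (e : ℝ) (F : X → ℝ) (gd : ℕ → X → Prop) (l : ℕ) (z : X) : Prop :=
  ∃ k < l, pR w L e F gd k z

/-- The scale of the next restart below the scale `l`. -/
def nxS (w : LW S) (L : ℕ) (e : ℝ) (F : X → ℝ) (gd : ℕ → X → Prop) (l : ℕ) (z : X) : ℕ :=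
  Nat.findGreatest (fun k => k < l ∧ pR w L e F gd k z) l

theorem nxS_spec {l : ℕ} {z : X} (h : nxA w L e F gd l z) :
    nxS w L e F gd l z < l ∧ pR w L e F gd (nxS w L e F gd l z) z := by
  obtain ⟨k, hk, hr⟩ := h
  exact Nat.findGreatest_spec (P := fun k => k < l ∧ pR w L e F gd k z) hk.le ⟨hk, hr⟩

theorem nxS_nr {l : ℕ} {z : X} : nr w L e F gd l (nxS w L e F gd l z + 1) z := by
  intro i h1 h2 h3
  exact Nat.findGreatest_is_greatest (P := fun k => k < l ∧ pR w L e F gd k z)
    (show nxS w L e F gd l z < i by omega) h2.le ⟨h2, h3⟩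

theorem nxS_eq {l k : ℕ} {z : X} (hk : k < l) (hr : pR w L e F gd k z)
    (hn : nr w L e F gd l (k + 1) z) : nxS w L e F gd l z = k := by
  have hA : nxA w L e F gd l z := ⟨k, hk, hr⟩
  have h1 := nxS_spec hA
  refine le_antisymm ?_ ?_
  · by_contra hcon
    push Not at hcon
    exact hn _ hcon h1.1 h1.2
  · exact Nat.le_findGreatest (P := fun k => k < l ∧ pR w L e F gd k z) hk.le ⟨hk, hr⟩

theorem nx_fam (h : Hyp g L e F gd) (l : ℕ) :
    Fam g (nxA w L e F gd l) (nxS w L e F gd l) := by
  intro z hz y hy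
  obtain ⟨h1, h2⟩ := nxS_spec hz
  have h3 : pR w L e F gd (nxS w L e F gd l z) y := (pR_const h hy).2 h2
  refine ⟨⟨_, h1, h3⟩, nxS_eq h1 h3 ?_⟩
  intro i hi hi' hr
  exact nxS_nr (w := w) (L := L) (e := e) (F := F) (gd := gd) (l := l) (z := z) i hi hi'
    ((pR_const h (g.sub_le (by omega : nxS w L e F gd l z ≤ i) z hy)).1 hr)

theorem sw_zero {l : ℕ} {z : X} (hz : nxA w L e F gd l z) :
    sw w L e F gd l 0 z = pV w L e F gd (nxS w L e F gd l z + 1) z *
      pV w L e F gd (nxS w L e F gd l z + 1) z := by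
  obtain ⟨h1, h2⟩ := nxS_spec hz
  have key : ∀ j ≤ nxS w L e F gd l z + 1,
      sw w L e F gd l j z = sw w L e F gd l (nxS w L e F gd l z + 1) z := by
    intro j hj
    induction hj using Nat.decreasingInduction with
    | self => rfl
    | of_succ j hj ih =>
      rw [sw_step (by omega), if_neg, ih]
      intro hn
      exact hn _ (by omega) h1 h2
  rw [key 0 (Nat.zero_le _), sw_of_nr (by omega) nxS_nr]

/-- **The next restarts have measure at most one eighth.** -/
theorem frac (h : Hyp g L e F gd) {l : ℕ} {x : X} (hl : l ≤ L) (hs : Stt w L e F gd l x) :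
    ∑ z ∈ g.cube l x, (if nxA w L e F gd l z then (1 : ℝ) else 0) ≤ cd g l x / 8 := by
  set A := nxA w L e F gd l with hA
  set m := nxS w L e F gd l with hm
  have he := h.e_pos
  have hfam : Fam g A m := nx_fam h l
  set A1 : X → Prop := fun z => A z ∧ 8 * e * cd g (m z) z <
    dot (g.cube (m z) z) (pV w L e F gd (m z + 1)) (pV w L e F gd (m z + 1)) with hA1
  set A2 : X → Prop := fun z => A z ∧ 8 * e < pM w L e F gd (m z + 1) (m z) z with hA2
  have f1 : Fam g A1 m := by
    intro z hz y hy
    obtain ⟨h1, h2⟩ := hfam z hz.1 y hy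
    refine ⟨⟨h1, ?_⟩, h2⟩
    rw [h2, g.eq_of_mem (m z) z y hy, cd_const hy]
    exact hz.2
  have f2 : Fam g A2 m := by
    intro z hz y hy
    obtain ⟨h1, h2⟩ := hfam z hz.1 y hy
    refine ⟨⟨h1, ?_⟩, h2⟩
    rw [h2, (pMR_const h.const (m z + 1)).1 (m z) (by omega) z y hy]
    exact hz.2
  have hml : ∀ z, A z → m z < l := fun z hz => (nxS_spec hz).1
  have hcov : ∀ z, A z → A1 z ∨ A2 z := by
    intro z hz
    have h1 := (nxS_spec hz).2
    rcases h1.2.2 with h2 | h2
    · exact Or.inl ⟨hz, h2⟩
    · exact Or.inr ⟨hz, h2⟩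
  -- the first kind
  have b1 : ∑ z ∈ g.cube l x, (if A1 z then 8 * e else 0) ≤
      ∑ z ∈ g.cube l x, sw w L e F gd l 0 z := by
    have h1 := fam_le f1 (fun _ => 8 * e) (fun z => sw w L e F gd l 0 z) l x
      (fun z _ hz => (hml z hz.1).le) (fun z _ hz => by
        rw [sum_const, nsmul_eq_mul]
        have h2 : ∑ y ∈ g.cube (m z) z, sw w L e F gd l 0 y =
            dot (g.cube (m z) z) (pV w L e F gd (m z + 1)) (pV w L e F gd (m z + 1)) := by
          refine sum_congr rfl fun y hy => ?_
          obtain ⟨h3, h4⟩ := hfam z hz.1 y hy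
          rw [sw_zero h3]
          have h5 : nxS w L e F gd l y = m z := h4
          rw [h5]
        rw [h2]
        have := hz.2
        unfold cd at this
        linarith)
    refine h1.trans (sum_le_sum fun z _ => ?_)
    split_ifs
    · exact le_rfl
    · exact sw_nonneg l (Nat.zero_le _) z
  -- the second kind
  have b2 : ∑ z ∈ g.cube l x, (if A2 z then 8 * e else 0) ≤
      ∑ j ∈ Ico 0 (l + 1), ∑ z ∈ g.cube l x,
        (if nr w L e F gd l j z ∧ gd j z then den S j (pH w L e F gd j) z else 0) := by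
    have h1 : ∀ z ∈ g.cube l x, (if A2 z then 8 * e else 0) ≤
        ∑ j ∈ Ico 0 (l + 1), (if A2 z ∧ m z < j then
          lden w j (m z) (pH w L e F gd j) z else 0) := by
      intro z hz
      by_cases hz2 : A2 z
      · rw [if_pos hz2]
        have h2 := hz2.2
        have hml' := hml z hz2.1
        rw [pM_period h hl hml' hs hz nxS_nr] at h2
        refine h2.le.trans ?_
        have h3 : ∑ j ∈ Ico (m z + 1) (l + 1),
            (if gd j z then lden w j (m z) (pH w L e F gd j) z else 0) ≤
            ∑ j ∈ Ico (m z + 1) (l + 1), (if A2 z ∧ m z < j then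
              lden w j (m z) (pH w L e F gd j) z else 0) := by
          refine sum_le_sum fun j hj => ?_
          rw [mem_Ico] at hj
          rw [if_pos (⟨hz2, by omega⟩ : A2 z ∧ m z < j)]
          split_ifs
          · exact le_rfl
          · exact lden_nonneg _ _ _ _ _
        refine h3.trans (sum_le_sum_of_subset_of_nonneg ?_ fun j _ _ => ?_)
        · intro j hj
          rw [mem_Ico] at hj ⊢
          omega
        · split_ifs
          · exact lden_nonneg _ _ _ _ _
          · exact le_rfl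
      · rw [if_neg hz2]
        refine sum_nonneg fun j _ => ?_
        split_ifs
        · exact lden_nonneg _ _ _ _ _
        · exact le_rfl
    refine (sum_le_sum h1).trans ?_
    rw [sum_comm]
    refine sum_le_sum fun j hj => ?_
    rw [mem_Ico] at hj
    refine g.sum_le_sum_of_cubes (by omega : j ≤ l) x _ _ fun y hy => ?_
    have hsub : g.cube j y ⊆ g.cube l x := g.cube_subset (by omega) hy
    by_cases hex : ∃ z ∈ g.cube j y, A2 z ∧ m z < j
    · obtain ⟨z, hz, hz2, hzj⟩ := hex
      have hnr : nr w L e F gd l j z := fun i h1 h2 h3 =>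
        nxS_nr (w := w) (L := L) (e := e) (F := F) (gd := gd) (l := l) (z := z) i
          (by have : nxS w L e F gd l z = m z := rfl
              omega) h2 h3
      have hgd : gd j z := h.up' (by omega : m z ≤ j) (by omega) (nxS_spec hz2.1).2.2.1
      have hc : g.cube j z = g.cube j y := g.eq_of_mem j y z hz
      have hall : ∀ y' ∈ g.cube j y, nr w L e F gd l j y' ∧ gd j y' := fun y' hy' => by
        rw [← hc] at hy'
        exact ⟨(nr_const h hy').2 hnr, (h.const j z y' hy').2 hgd⟩
      rw [sum_ite_const (p := fun z => nr w L e F gd l j z ∧ gd j z) hall, sum_den]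
      refine sum_lden_le w j _ y (fun z => A2 z ∧ m z < j) m ?_ fun z _ hz => hz.2.le
      intro z' hz' y' hy'
      obtain ⟨h1, h2⟩ := f2 z' hz'.1 y' hy'
      exact ⟨⟨h1, by rw [h2]; exact hz'.2⟩, h2⟩
    · push Not at hex
      rw [sum_eq_zero fun z hz => if_neg fun h' => absurd h'.2 (not_lt.2 (hex z hz h'.1))]
      refine sum_nonneg fun z _ => ?_
      split_ifs
      · exact den_nonneg _ _ _ _
      · exact le_rfl
  have h3 := period h hs hl (Nat.zero_le l)
  have h4 : ∑ z ∈ g.cube l x, (if A z then (1 : ℝ) else 0) * (8 * e) ≤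
      ∑ z ∈ g.cube l x, ((if A1 z then 8 * e else 0) + (if A2 z then 8 * e else 0)) := by
    refine sum_le_sum fun z _ => ?_
    have n1 : 0 ≤ (if A1 z then 8 * e else 0) := by split_ifs <;> linarith
    have n2 : 0 ≤ (if A2 z then 8 * e else 0) := by split_ifs <;> linarith
    by_cases hz : A z
    · rw [if_pos hz, one_mul]
      rcases hcov z hz with h5 | h5
      · rw [if_pos h5]; linarith
      · rw [if_pos h5]; linarith
    · rw [if_neg hz, zero_mul]; linarith
  rw [← sum_mul, sum_add_distrib] at h4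
  have h5 : (∑ z ∈ g.cube l x, (if A z then (1 : ℝ) else 0)) * (8 * e) ≤ e * cd g l x := by
    linarith
  rw [le_div_iff₀ (by norm_num : (0 : ℝ) < 8)]
  have h6 : ((∑ z ∈ g.cube l x, (if A z then (1 : ℝ) else 0)) * 8) * e ≤ cd g l x * e := by
    linarith
  exact le_of_mul_le_mul_right h6 he

end

end Vale.Agent.P141.H347
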