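import Vale.Agent.P141.H347.First1

/-!
# P141, line W, scale invariant version, first level, part 2: the births inside a region pay
-/

namespace Vale.Agent.P141.H347.Fi

open Finset
open Vale.Agent.P141.H315 (Grid dot)
open Vale.Agent.P141.PL.H315 (le)
open Vale.Agent.P141.PL.H571 (W)
open Vale.Agent.P141.PL.H318 (CSys bm birth den cW)
open Vale.Agent.P141.PL.H95 (gr)
open Vale.Agent.P141.PL.H855 (wN TT wN_congr wN_update_sum wN_update_smul)
open Vale.Agent.P141.H297 (Paths Sub du tp Alv alive_sum birth_sum V_top_eq en en_le_iff Dw_end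
  den_le_dr dr_nonneg cd_pos tp_const ud_le)
open Vale.Agent.P141.H347 (LW Pth lden cd dr)
open Vale.Agent.P141.H8 (Rgn En)

noncomputable section

open scoped Classical

variable {s : ℤ} {ι : Type*} {S : Fin 4 → CSys (gr 7 s) ι}
variable {o : ℤ} {w : ∀ j, LW (S j)} {L : ℕ} {gd : ℕ → ℤ → Prop} {c CE : ℝ}

/-- the births of one scale at one node, atom by atom -/
theorem abs_wN_birth_le (ho : o = 1 ∨ o = -1) (m : Fin 4) (G : ℤ → ℝ) (h : Fin 4 → ℤ → ℝ)
    {N : ℕ × ℤ} (hN : W N.1 N.2 ⊆ (gr 7 s).cube N.1 (le N)) {i : ℕ} (hi : N.1 ≤ i) :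
    |wN o (Function.update h m (birth (S m) i G)) N| ≤
      ∑ a ∈ (bm (S m) i G ((gr 7 s).cube i (le N))).support,
        |(bm (S m) i G ((gr 7 s).cube i (le N))) a| *
          |wN o (Function.update h m ((S m).a i a)) N| := by
  have e1 : wN o (Function.update h m (birth (S m) i G)) N =
      wN o (Function.update h m (∑ a ∈ (bm (S m) i G ((gr 7 s).cube i (le N))).support,
        (bm (S m) i G ((gr 7 s).cube i (le N))) a • (S m).a i a)) N := by
    refine wN_congr ho fun l y hy => ?_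
    by_cases hl : l = m
    · subst hl
      rw [Function.update_self, Function.update_self, birth_sum (S l) i G
        ((gr 7 s).sub_le hi _ (hN hy)), Finsupp.sum, Finset.sum_apply]
      exact sum_congr rfl fun i _ => rfl
    · rw [Function.update_of_ne hl, Function.update_of_ne hl]
  rw [e1, wN_update_finsupp]
  unfold Finsupp.sum
  exact (abs_sum_le_sum_abs _ _).trans (le_of_eq (sum_congr rfl fun i _ => abs_mul _ _))

/-- **The births inside a region pay**, three static companions. -/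
theorem pay_births (ho : o = 1 ∨ o = -1) (hPay : Pay o w L gd c CE) (hc0 : 0 ≤ c) {m : Fin 4}
    {H : Fin 4 → ℕ → ℤ → ℝ} {rs : Fin 4 → ℕ → ℤ → Prop} {K : ℕ} {x : ℤ} {ud : ℕ → ℤ → Prop}
    {R D : ℝ} (hU : Sub S L gd H rs K ud R D) (hR : Rgn (gr 7 s) gd K x ud) (hx : ud K x)
    {h : Fin 4 → ℤ → ℝ} (hE : ∀ j, j ≠ m → En (gr 7 s) ud (h j) CE) {𝒲 : Finset (ℕ × ℤ)}
    (hW : Nd s ud 𝒲) :
    ∑ N ∈ 𝒲, ∑ i ∈ Ico N.1 K, |wN o (Function.update h m (birth (S m) i (H m i))) N| ≤
      c * (D * cd (gr 7 s) K x) := by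
  -- the bound at one node
  set Q : ℕ → ℕ × ℤ → ℝ := fun i N => ∑ a ∈ (bm (S m) i (H m i) ((gr 7 s).cube i (le N))).support,
    |(bm (S m) i (H m i) ((gr 7 s).cube i (le N))) a| *
      |wN o (Function.update h m ((S m).a i a)) N| with hQ
  have hbel : ∀ N ∈ 𝒲, N.1 ≤ K ∧ le N ∈ (gr 7 s).cube K x := fun N hN => hR.bel _ _ (hW N hN).2.2
  have h1 : ∑ N ∈ 𝒲, ∑ i ∈ Ico N.1 K,
      |wN o (Function.update h m (birth (S m) i (H m i))) N| ≤
      ∑ N ∈ 𝒲, ∑ i ∈ range K, if N.1 ≤ i then Q i N else 0 := by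
    refine sum_le_sum fun N hN => ?_
    rw [← sum_filter]
    refine (sum_le_sum fun i hi => abs_wN_birth_le ho m (H m i) h (hW N hN).2.1
      (mem_Ico.1 hi).1).trans ?_
    refine sum_le_sum_of_subset_of_nonneg (fun i hi => ?_) fun i _ _ =>
      sum_nonneg fun a _ => by positivity
    rw [mem_Ico] at hi
    rw [mem_filter, mem_range]
    exact ⟨hi.2, hi.1⟩
  refine h1.trans ?_
  rw [sum_comm]
  -- averaging over the points of the cell
  have h2 : ∀ i ∈ range K, ∀ N ∈ 𝒲, (if N.1 ≤ i then Q i N else 0) =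
      ∑ p ∈ (gr 7 s).cube K x, if N.1 ≤ i ∧ le N ∈ (gr 7 s).cube i p then
        Q i N / cd (gr 7 s) i p else 0 := by
    intro i hi N hN
    rw [mem_range] at hi
    by_cases hNi : N.1 ≤ i
    · simp only [hNi, true_and, if_true]
      rw [← sum_filter]
      have e1 : ((gr 7 s).cube K x).filter (fun p => le N ∈ (gr 7 s).cube i p) =
          (gr 7 s).cube i (le N) := by
        ext p
        rw [mem_filter]
        constructor
        · rintro ⟨-, hp⟩
          rw [(gr 7 s).eq_of_mem i p _ hp]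
          exact (gr 7 s).mem i p
        · intro hp
          refine ⟨(gr 7 s).cube_subset hi.le (hbel N hN).2 hp, ?_⟩
          rw [(gr 7 s).eq_of_mem i _ _ hp]
          exact (gr 7 s).mem i (le N)
      rw [e1]
      have e2 : ∀ p ∈ (gr 7 s).cube i (le N), Q i N / cd (gr 7 s) i p =
          Q i N / cd (gr 7 s) i (le N) := by
        intro p hp
        unfold cd
        rw [(gr 7 s).eq_of_mem i _ _ hp]
      rw [sum_congr rfl e2, sum_const, nsmul_eq_mul]
      have hcd := cd_pos (gr 7 s) i (le N)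
      unfold cd at hcd ⊢
      field_simp
    · simp [hNi]
  have h3 : ∑ i ∈ range K, ∑ N ∈ 𝒲, (if N.1 ≤ i then Q i N else 0) =
      ∑ i ∈ range K, ∑ p ∈ (gr 7 s).cube K x, ∑ N ∈ 𝒲,
        if N.1 ≤ i ∧ le N ∈ (gr 7 s).cube i p then Q i N / cd (gr 7 s) i p else 0 := by
    refine sum_congr rfl fun i hi => ?_
    rw [sum_congr rfl fun N hN => h2 i hi N hN, sum_comm]
  rw [h3]
  -- one cell
  have h4 : ∀ i ∈ range K, ∀ p ∈ (gr 7 s).cube K x, ∑ N ∈ 𝒲,
      (if N.1 ≤ i ∧ le N ∈ (gr 7 s).cube i p then Q i N / cd (gr 7 s) i p else 0) ≤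
        c * du S H ud m i p := by
    intro i hi p hp
    rw [mem_range] at hi
    have hcd := cd_pos (gr 7 s) i p
    by_cases hu : ud i p
    · set 𝒲' := 𝒲.filter fun N => N.1 ≤ i ∧ le N ∈ (gr 7 s).cube i p with h𝒲'
      set ud' : ℕ → ℤ → Prop := fun k y => ud k y ∧ k ≤ i ∧ y ∈ (gr 7 s).cube i p with hud'
      have hR' : Rgn (gr 7 s) gd i p ud' := by
        refine ⟨fun k y z hz => ?_, fun k hk y hy => ?_, fun k y hy => ⟨hy.2.1, hy.2.2⟩,
          fun k y hy => hR.sub k y hy.1⟩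
        · constructor
          · rintro ⟨a1, a2, a3⟩
            refine ⟨(hR.const k y z hz).1 a1, a2, ?_⟩
            have : y ∈ (gr 7 s).cube k z := by
              rw [(gr 7 s).eq_of_mem k _ _ hz]; exact (gr 7 s).mem k y
            exact (gr 7 s).cube_subset a2 a3 this
          · rintro ⟨a1, a2, a3⟩
            exact ⟨(hR.const k y z hz).2 a1, a2, (gr 7 s).cube_subset a2 a3 hz⟩
        · exact ⟨hR.up k (by omega) y hy.1, hk, hy.2.2⟩
      have hW' : Nd s ud' 𝒲' := by
        intro N hN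
        rw [h𝒲', mem_filter] at hN
        obtain ⟨a1, a2, a3⟩ := hW N hN.1
        exact ⟨a1, a2, a3, hN.2.1, hN.2.2⟩
      have hE' : ∀ j, j ≠ m → En (gr 7 s) ud' (h j) CE := fun j hj k y hy => hE j hj k y hy.1
      have e1 : ∑ N ∈ 𝒲, (if N.1 ≤ i ∧ le N ∈ (gr 7 s).cube i p then
          Q i N / cd (gr 7 s) i p else 0) = (∑ N ∈ 𝒲', Q i N) / cd (gr 7 s) i p := by
        rw [← sum_filter, sum_div]
      have hKL := hU.le
      have e2 : ∑ N ∈ 𝒲', Q i N ≤ c * lden (w m) i i (H m i) p * cd (gr 7 s) i p := by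
        have e3 : ∀ N ∈ 𝒲', Q i N = ∑ a ∈ (bm (S m) i (H m i) ((gr 7 s).cube i p)).support,
            |(bm (S m) i (H m i) ((gr 7 s).cube i p)) a| *
              |wN o (Function.update h m ((S m).a i a)) N| := by
          intro N hN
          rw [h𝒲', mem_filter] at hN
          rw [hQ]
          simp only
          rw [(gr 7 s).eq_of_mem i p _ hN.2.2]
        rw [sum_congr rfl e3, sum_comm]
        unfold lden Finsupp.sum
        rw [mul_sum, sum_mul]
        refine sum_le_sum fun a _ => ?_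
        rw [← mul_sum]
        have e4 := mul_le_mul_of_nonneg_left
          (hPay m i p ud' (by omega) hR' h hE' 𝒲' hW' i le_rfl (by omega) a)
          (abs_nonneg ((bm (S m) i (H m i) ((gr 7 s).cube i p)) a))
        refine e4.trans (le_of_eq ?_)
        ring
      rw [e1, div_le_iff₀ hcd]
      refine e2.trans ?_
      refine mul_le_mul_of_nonneg_right ?_ hcd.le
      refine mul_le_mul_of_nonneg_left ?_ hc0
      unfold du
      rw [if_pos hu]
      exact (lden_self_le (w m) i (H m i) p).trans (den_le_dr i (H m i) p)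
    · have e1 : ∑ N ∈ 𝒲, (if N.1 ≤ i ∧ le N ∈ (gr 7 s).cube i p then
          Q i N / cd (gr 7 s) i p else 0) = 0 := by
        refine sum_eq_zero fun N hN => if_neg ?_
        rintro ⟨a1, a2⟩
        have a3 : ud i (le N) := hR.up' a1 hi.le (hW N hN).2.2
        exact hu ((hR.const i p _ a2).1 a3)
      rw [e1]
      unfold du
      rw [if_neg hu, mul_zero]
  calc ∑ i ∈ range K, ∑ p ∈ (gr 7 s).cube K x, ∑ N ∈ 𝒲,
        (if N.1 ≤ i ∧ le N ∈ (gr 7 s).cube i p then Q i N / cd (gr 7 s) i p else 0)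
      ≤ ∑ i ∈ range K, ∑ p ∈ (gr 7 s).cube K x, c * du S H ud m i p :=
        sum_le_sum fun i hi => sum_le_sum fun p hp => h4 i hi p hp
    _ = c * ∑ i ∈ range K, ∑ p ∈ (gr 7 s).cube K x, du S H ud m i p := by
        rw [mul_sum]
        refine sum_congr rfl fun i _ => ?_
        rw [mul_sum]
    _ ≤ _ := mul_le_mul_of_nonneg_left (hU.drop m K le_rfl x hx) hc0

end

end Vale.Agent.P141.H347.Fi
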