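import Vale.Agent.P141.H347.First2
import Vale.Agent.P141.H935.WinSum

/-!
# P141, line W, scale invariant version, first level, part 3: one window

`win_first`: the telescoped node values of the first level on one joint window: nothing moving = the
atoms alive at the top; one moving slot = the births inside; two moving slots = the black box.
-/

namespace Vale.Agent.P141.H347.Fi

open Finset
open Vale.Agent.P141.H315 (Grid dot)
open Vale.Agent.P141.PL.H315 (le)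
open Vale.Agent.P141.PL.H571 (W)
open Vale.Agent.P141.PL.H318 (CSys bm birth den cW)
open Vale.Agent.P141.PL.H95 (gr)
open Vale.Agent.P141.PL.H855 (wN TT wN_congr wN_update_sum wN_update_smul wN_update_neg
  wN_update_zero TT_expand0 TT_congr TT_nonneg CSlot0 cblk0_zero slot_static slot_births udw L2W
  top_L2_le Cdig0 MBB0 mbb_cell0 cd_gr)
open Vale.Agent.P141.H297 (Paths Sub Mix du tp V_top_eq sub_window cd_pos tp_const)
open Vale.Agent.P141.H347 (LW Pth lden cd dr)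
open Vale.Agent.P141.H8 (Rgn En)
open Vale.Agent.P141.H782 (rl le_mem_W)

noncomputable section

open scoped Classical

/-- expansion of four slots `static + moving` -/
theorem expand2 {o : ℤ} {𝒲 : Finset (ℕ × ℤ)} (A : Fin 4 → ℤ → ℝ) (M : Fin 4 → ℕ → ℤ → ℝ)
    {a b c : ℝ} (ha : 0 ≤ a) (hb : 0 ≤ b) (hc : 0 ≤ c)
    (h0 : ∑ N ∈ 𝒲, |wN o A N| ≤ a)
    (h1 : ∀ m, ∑ N ∈ 𝒲, |wN o (Function.update A m (M m N.1)) N| ≤ b)
    (h2 : ∀ p : Fin 4 → ℕ, (∃ m m', m ≠ m' ∧ p m ≠ 0 ∧ p m' ≠ 0) →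
      TT o 𝒲 (fun j N => if p j = 0 then A j else M j N.1) ≤ c) :
    TT o 𝒲 (fun j N y => A j y + M j N.1 y) ≤ 16 * (a + b + c) := by
  have e1 : (fun (j : Fin 4) (N : ℕ × ℤ) (y : ℤ) => A j y + M j N.1 y) =
      fun j N y => ∑ l ∈ range 2, (fun (j : Fin 4) (l : ℕ) (N : ℕ × ℤ) (y : ℤ) =>
        if l = 0 then A j y else M j N.1 y) j l N y := by
    funext j N y
    simp [sum_range_succ]
  rw [e1]
  refine (TT_expand0 o 𝒲 2 _).trans ?_
  have h3 : ∀ p ∈ Fintype.piFinset (fun _ : Fin 4 => range 2),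
      TT o 𝒲 (fun j => (fun (j : Fin 4) (l : ℕ) (N : ℕ × ℤ) (y : ℤ) =>
        if l = 0 then A j y else M j N.1 y) j (p j)) ≤ a + b + c := by
    intro p hp
    have e2 : (fun j : Fin 4 => (fun (j : Fin 4) (l : ℕ) (N : ℕ × ℤ) (y : ℤ) =>
        if l = 0 then A j y else M j N.1 y) j (p j)) =
        fun j N => if p j = 0 then A j else M j N.1 := by
      funext j N y
      by_cases hj : p j = 0
      · simp [hj]
      · simp [hj]
    rw [e2]
    by_cases h4 : ∃ m m', m ≠ m' ∧ p m ≠ 0 ∧ p m' ≠ 0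
    · have := h2 p h4
      linarith
    · push Not at h4
      by_cases h5 : ∃ m, p m ≠ 0
      · obtain ⟨m, hm⟩ := h5
        have h6 : ∀ m', m' ≠ m → p m' = 0 := fun m' hm' => h4 m m' (Ne.symm hm') hm
        have h7 := h1 m
        have e3 : TT o 𝒲 (fun j N => if p j = 0 then A j else M j N.1) =
            ∑ N ∈ 𝒲, |wN o (Function.update A m (M m N.1)) N| := by
          unfold TT
          refine sum_congr rfl fun N _ => ?_
          congr 2
          funext j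
          show (if p j = 0 then A j else M j N.1) = _
          by_cases hj : j = m
          · subst hj
            rw [if_neg hm, Function.update_self]
          · rw [if_pos (h6 j hj), Function.update_of_ne hj]
        rw [e3]
        linarith
      · push Not at h5
        have e3 : TT o 𝒲 (fun j N => if p j = 0 then A j else M j N.1) = ∑ N ∈ 𝒲, |wN o A N| := by
          unfold TT
          refine sum_congr rfl fun N _ => ?_
          congr 2
          funext j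
          show (if p j = 0 then A j else M j N.1) = _
          rw [if_pos (h5 j)]
        rw [e3]
        linarith
  refine (sum_le_sum h3).trans (le_of_eq ?_)
  rw [sum_const, Fintype.card_piFinset]
  simp only [card_range, prod_const, card_univ, Fintype.card_fin, nsmul_eq_mul]
  norm_num

variable {s : ℤ} {ι : Type*} {S : Fin 4 → CSys (gr 7 s) ι}
variable {o : ℤ} {w : ∀ j, LW (S j)} {L : ℕ} {e : ℝ} {F : Fin 4 → ℤ → ℝ} {gd : ℕ → ℤ → Prop}
  {V H : Fin 4 → ℕ → ℤ → ℝ} {rs : Fin 4 → ℕ → ℤ → Prop} {lm : Fin 4 → ℕ → ℤ → ℝ}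

/-- the region of the joint window with the top cell `(Λ, z)` -/
def wr (w : ∀ j, LW (S j)) (L : ℕ) (gd : ℕ → ℤ → Prop) (V H : Fin 4 → ℕ → ℤ → ℝ)
    (rs : Fin 4 → ℕ → ℤ → Prop) (e0 C2 : ℝ) (Λ : ℕ) (z : ℤ) : ℕ → ℤ → Prop :=
  udw w L gd V H rs e0 C2 (fun k y => k ≤ Λ ∧ y ∈ (gr 7 s).cube Λ z) Λ

theorem pd_const (Λ : ℕ) (z : ℤ) : ∀ k x y, y ∈ (gr 7 s).cube k x →
    ((k ≤ Λ ∧ y ∈ (gr 7 s).cube Λ z) ↔ (k ≤ Λ ∧ x ∈ (gr 7 s).cube Λ z)) := by
  intro k x y hy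
  constructor
  · rintro ⟨h1, h2⟩
    refine ⟨h1, ?_⟩
    have h3 : x ∈ (gr 7 s).cube k y := by
      rw [(gr 7 s).eq_of_mem k _ _ hy]; exact (gr 7 s).mem k x
    exact (gr 7 s).cube_subset h1 h2 h3
  · rintro ⟨h1, h2⟩
    exact ⟨h1, (gr 7 s).cube_subset h1 h2 hy⟩

theorem pd_up (Λ : ℕ) (z : ℤ) : ∀ k < Λ, ∀ x, (k ≤ Λ ∧ x ∈ (gr 7 s).cube Λ z) →
    (k + 1 ≤ Λ ∧ x ∈ (gr 7 s).cube Λ z) := fun _ hk _ hx => ⟨hk, hx.2⟩

theorem sub_wr (hP : Paths w L e F gd V H rs lm) {e0 C2 : ℝ} (he0 : 0 ≤ e0) {Λ : ℕ} (hΛ : Λ ≤ L)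
    (z : ℤ) : Sub S L gd H rs Λ (wr w L gd V H rs e0 C2 Λ z) 0 e0 :=
  sub_window hP he0 hΛ (pd_const Λ z) (pd_up Λ z)

theorem rgn_wr (hP : Paths w L e F gd V H rs lm) {e0 C2 : ℝ} (he0 : 0 ≤ e0) {Λ : ℕ} (hΛ : Λ ≤ L)
    (z : ℤ) : Rgn (gr 7 s) gd Λ z (wr w L gd V H rs e0 C2 Λ z) where
  const := (sub_wr hP he0 hΛ z).const
  up := (sub_wr hP he0 hΛ z).up
  bel _ _ h := ⟨h.1, h.2.1.2⟩
  sub _ _ h := h.2.2.1

/-- local energy of the path at the top of the window -/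
theorem en_top (hP : Paths w L e F gd V H rs lm) {e0 C2 Kb : ℝ} (he0 : 0 ≤ e0) (hKb : 0 ≤ Kb)
    (hKe : Kb * e0 ≤ 1) (hS : ∀ j, L2W (w j) Kb) {Λ : ℕ} (hΛ : Λ ≤ L) (z : ℤ) (j : Fin 4) :
    En (gr 7 s) (wr w L gd V H rs e0 C2 Λ z) (V j Λ) (16 * e + 2) := by
  intro k y hy
  obtain ⟨h1, h2, h3, h4⟩ := hy
  have hcd := cd_pos (gr 7 s) k y
  have h5 := top_L2_le (C2 := C2) hP j hKb (hS j) he0 (k := k) (h1.trans hΛ) y
  have h6 := (hP.path j).enV k (h1.trans hΛ) y h3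
  have h7 : ∑ x ∈ (gr 7 s).cube k y, (V j Λ x - V j k x) ^ 2 ≤ 1 * cd (gr 7 s) k y := by
    refine le_trans (le_of_eq (sum_congr rfl fun x hx => ?_)) (h5.trans ?_)
    · rw [tp_const w L gd V H rs e0 C2 (h1.trans hΛ) hx, h4]
    · refine mul_le_mul_of_nonneg_right ?_ hcd.le
      have : 0 ≤ Kb * e0 := mul_nonneg hKb he0
      nlinarith
  have h8 : dot ((gr 7 s).cube k y) (V j Λ) (V j Λ) ≤
      2 * dot ((gr 7 s).cube k y) (V j k) (V j k) +
      2 * ∑ x ∈ (gr 7 s).cube k y, (V j Λ x - V j k x) ^ 2 := by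
    unfold dot
    rw [mul_sum, mul_sum, ← sum_add_distrib]
    refine sum_le_sum fun x _ => ?_
    nlinarith [sq_nonneg (V j Λ x - 2 * V j k x)]
  nlinarith

/-- local energy of the static parts -/
theorem en_rl {ud : ℕ → ℤ → Prop} {T : Fin 4 → ℤ → ℝ} {e : ℝ} (he : 0 ≤ e)
    (hF : ∀ j, En (gr 7 s) ud (F j) e) (hT : ∀ j, En (gr 7 s) ud (T j) (16 * e + 2))
    (i j : Fin 4) : En (gr 7 s) ud (rl F T i j) (34 * e + 4) := by
  intro k y hy
  have hcd := (cd_pos (gr 7 s) k y).le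
  have h1 := hF j k y hy
  have h2 := hT j k y hy
  unfold rl
  split_ifs with h3 h4
  · refine h2.trans (mul_le_mul_of_nonneg_right ?_ hcd)
    linarith
  · have h5 : dot ((gr 7 s).cube k y) (F j - T j) (F j - T j) ≤
        2 * dot ((gr 7 s).cube k y) (F j) (F j) + 2 * dot ((gr 7 s).cube k y) (T j) (T j) := by
      unfold dot
      rw [mul_sum, mul_sum, ← sum_add_distrib]
      refine sum_le_sum fun x _ => ?_
      simp only [Pi.sub_apply]
      nlinarith [sq_nonneg (F j x + T j x)]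
    nlinarith
  · refine h1.trans (mul_le_mul_of_nonneg_right ?_ hcd)
    linarith

/-- the sizes of the slots -/
theorem prod_size {t A : ℝ} (ht0 : 0 ≤ t) (ht1 : t ≤ 1) (hA : 0 ≤ A) {p : Fin 4 → ℕ}
    (hp : ∃ m m', m ≠ m' ∧ p m ≠ 0 ∧ p m' ≠ 0) :
    ∏ j, (A * if p j = 0 then 1 else t) ≤ A ^ 4 * t ^ 2 := by
  rw [prod_mul_distrib, prod_const, card_univ, Fintype.card_fin]
  refine mul_le_mul_of_nonneg_left ?_ (by positivity)
  obtain ⟨m, m', hmm, hm, hm'⟩ := hp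
  rw [← mul_prod_erase univ _ (mem_univ m),
    ← mul_prod_erase (univ.erase m) _ (mem_erase.2 ⟨hmm.symm, mem_univ m'⟩), if_neg hm, if_neg hm',
    ← mul_assoc]
  have h1 : ∏ x ∈ (univ.erase m).erase m', (if p x = 0 then (1 : ℝ) else t) ≤ 1 :=
    prod_le_one (fun x _ => by split_ifs <;> linarith) (fun x _ => by split_ifs <;> linarith)
  nlinarith [mul_nonneg ht0 ht0]

end

end Vale.Agent.P141.H347.Fi
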