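import Vale.Agent.P141.H347.First3

/-!
# P141, line W, scale invariant version, first level, part 4: the estimate on one window
-/

namespace Vale.Agent.P141.H347.Fi

open Finset
open Vale.Agent.P141.H315 (Grid dot)
open Vale.Agent.P141.PL.H315 (le)
open Vale.Agent.P141.PL.H571 (W)
open Vale.Agent.P141.PL.H318 (CSys bm birth den cW)
open Vale.Agent.P141.PL.H95 (gr)
open Vale.Agent.P141.PL.H855 (wN TT wN_congr wN_update_sum wN_update_smul wN_update_neg
  wN_update_zero TT_expand0 TT_congr TT_nonneg CSlot0 cblk0_zero slot_static slot_births udw L2W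
  top_L2_le Cdig0 MBB0 mbb_cell0 cd_gr)
open Vale.Agent.P141.H297 (Paths Sub Mix du tp V_top_eq sub_window cd_pos tp_const)
open Vale.Agent.P141.H347 (LW Pth lden cd dr)
open Vale.Agent.P141.H8 (Rgn En)
open Vale.Agent.P141.H782 (rl le_mem_W)

noncomputable section

open scoped Classical

variable {s : ℤ} {ι : Type*} {S : Fin 4 → CSys (gr 7 s) ι}
variable {o : ℤ} {w : ∀ j, LW (S j)} {L : ℕ} {e : ℝ} {F : Fin 4 → ℤ → ℝ} {gd : ℕ → ℤ → Prop}
  {V H : Fin 4 → ℕ → ℤ → ℝ} {rs : Fin 4 → ℕ → ℤ → Prop} {lm : Fin 4 → ℕ → ℤ → ℝ}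

/-- the moving parts of the telescoped slots -/
def mv (V : Fin 4 → ℕ → ℤ → ℝ) (i : Fin 4) (Λ : ℕ) (m : Fin 4) (k : ℕ) : ℤ → ℝ :=
  if m < i then V m k - V m Λ else if m = i then V m Λ - V m k else 0

theorem rl_eq_add (F : Fin 4 → ℤ → ℝ) (V : Fin 4 → ℕ → ℤ → ℝ) (i : Fin 4) (Λ k : ℕ) (m : Fin 4)
    (y : ℤ) : rl F (fun m => V m k) i m y = rl F (fun m => V m Λ) i m y + mv V i Λ m k y := by
  unfold rl mv
  split_ifs
  · simp only [Pi.sub_apply]; ring
  · simp only [Pi.sub_apply]; ring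
  · simp

/-- the zero slot -/
theorem cslot0_zero (s : ℤ) (Λ : ℕ) {a : ℝ} (ha : 0 < a) : CSlot0 s Λ (fun _ _ => 0) a := by
  refine ((cblk0_zero (s := s) (Λ := Λ) (e := (a / 2) ^ 2) (K := 0) (by positivity)
    le_rfl).toCSlot0 (by positivity) le_rfl).mono (le_of_eq ?_)
  rw [mul_zero, add_zero, mul_one, Real.sqrt_sq (by positivity)]
  ring

/-- the constant of the slots -/
def A0 (C2 e : ℝ) : ℝ := 68 * √(34 * e + 4) + Cdig0 C2 (8 + 8 * Fintype.card (Fin 4)) 1

theorem cdig0_nonneg (C2 κ : ℝ) : 0 ≤ Cdig0 C2 κ 1 := by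
  unfold Cdig0
  refine mul_nonneg (Real.sqrt_nonneg _) (inv_nonneg.2 ?_)
  have : (2 : ℝ) ^ (-(1 / 2 : ℝ)) < 1 :=
    Real.rpow_lt_one_of_one_lt_of_neg (by norm_num) (by norm_num)
  linarith

/-- **The telescoped node values of the first level on one joint window.** -/
theorem win_first {Cm : ℝ} {n : ℕ} {P : ℝ} (hCm : 0 ≤ Cm) (hPP : 0 ≤ P)
    (hbox : ∀ (Λ : ℕ) (x : ℤ), Λ ≤ n →
      ∀ 𝒮 : Finset (ℕ × ℤ), (∀ N ∈ 𝒮, 1 ≤ N.1 ∧ N.1 ≤ Λ ∧
        ∃ y ∈ W N.1 N.2, y ∈ (gr 7 s).cube Λ x) →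
      ∀ (A : Fin 4 → ℕ → ℤ → ℝ) (S : Fin 4 → ℝ), (∀ j, CSlot0 s Λ (A j) (S j)) →
        TT o 𝒮 (fun j N => A j N.1) ≤ Cm * P * (∏ j, S j) * 2 ^ Λ)
    (hLn : L ≤ n) (ho : o = 1 ∨ o = -1) (hP : Paths w L e F gd V H rs lm) (he : 0 < e)
    (hF : ∀ j k y, k ≤ L → gd k y → dot ((gr 7 s).cube k y) (F j) (F j) ≤ e * cd (gr 7 s) k y)
    {Cg C2 : ℝ} (hM : ∀ j, Mix (S j) Cg) (hC : 0 ≤ Cg)
    (hC2 : 4 * Fintype.card (Fin 4) * (1 + 2 * Cg) ≤ C2)
    {Kb e0 : ℝ} (hKb : 0 < Kb) (hS : ∀ j, L2W (w j) Kb) (he0 : 0 < e0) (hKe : Kb * e0 ≤ 1)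
    {c : ℝ} (hc0 : 0 ≤ c) (hPay : Pay o w L gd c (34 * e + 4))
    {Λ : ℕ} (hΛ : Λ ≤ L) {z : ℤ} (hz : gd Λ z) (htz : tp w L gd V H rs e0 C2 Λ z = Λ)
    {𝒲 : Finset (ℕ × ℤ)} (hW : Nd s (wr w L gd V H rs e0 C2 Λ z) 𝒲) (i : Fin 4) :
    ∑ N ∈ 𝒲, |wN o (rl F (fun m => V m N.1) i) N| ≤
      16 * (c * (16 * e) + c * e0 + Cm * P * (A0 C2 e ^ 4 * (Kb * e0) ^ 2)) *
        cd (gr 7 s) Λ z := by
  set ud := wr w L gd V H rs e0 C2 Λ z with hud
  have hU : Sub S L gd H rs Λ ud 0 e0 := sub_wr hP he0.le hΛ z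
  have hR : Rgn (gr 7 s) gd Λ z ud := rgn_wr hP he0.le hΛ z
  have hcd := cd_pos (gr 7 s) Λ z
  have hudz : ud Λ z := ⟨le_rfl, ⟨le_rfl, (gr 7 s).mem Λ z⟩, hz, htz⟩
  have hgc : ∀ k x y, y ∈ (gr 7 s).cube k x → (gd k y ↔ gd k x) := hP.gd_const
  have hKe0 : 0 < Kb * e0 := by positivity
  -- the static parts
  set A : Fin 4 → ℤ → ℝ := rl F (fun m => V m Λ) i with hA
  have hEA : ∀ j, En (gr 7 s) ud (A j) (34 * e + 4) := fun j =>
    en_rl he.le (fun j k y hy => hF j k y (hy.1.trans hΛ) hy.2.2.1)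
      (fun j => en_top hP he0.le hKb.le hKe hS hΛ z j) i j
  have hAi : A i = fun y => F i y - V i Λ y := by
    rw [hA]
    unfold rl
    rw [if_neg (lt_irrefl i), if_pos rfl]
    rfl
  -- from nodes to cells
  have hsubN : ∀ N ∈ 𝒲, ∀ y ∈ W N.1 N.2, y ∈ (gr 7 s).cube N.1 (le N) := fun N hN y hy =>
    (hW N hN).2.1 hy
  have hudN : ∀ N ∈ 𝒲, ∀ y ∈ W N.1 N.2, ud N.1 y := fun N hN y hy =>
    (hR.const N.1 (le N) y (hsubN N hN y hy)).2 (hW N hN).2.2
  have hNL : ∀ N ∈ 𝒲, N.1 ≤ Λ := fun N hN => (hR.bel _ _ (hW N hN).2.2).1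
  -- nothing moving
  have b0 : ∑ N ∈ 𝒲, |wN o A N| ≤ c * (16 * e) * cd (gr 7 s) Λ z := by
    have h1 := pay_alive ho hPay (hP.path i) hP.gd_up hgc hΛ hz hR (h := A)
      (fun j _ => hEA j) hW
    have h2 : (Function.update A i fun y => F i y - V i Λ y) = A := by
      rw [← hAi, Function.update_eq_self]
    rw [h2] at h1
    refine h1.trans (mul_le_mul_of_nonneg_right ?_ hcd.le)
    exact mul_le_mul_of_nonneg_left ((hP.path i).mass Λ hΛ z hz) hc0
  -- one moving slot
  have b1 : ∀ m, ∑ N ∈ 𝒲, |wN o (Function.update A m (mv V i Λ m N.1)) N| ≤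
      c * e0 * cd (gr 7 s) Λ z := by
    intro m
    have h1 := pay_births ho hPay hc0 (m := m) hU hR hudz (h := A) (fun j _ => hEA j) hW
    rw [← mul_assoc] at h1
    refine le_trans (sum_le_sum fun N hN => ?_) h1
    have hV : ∀ y ∈ W N.1 N.2, V m Λ y - V m N.1 y =
        (∑ i ∈ Ico N.1 Λ, birth (S m) i (H m i)) y := by
      intro y hy
      have h2 := V_top_eq (e' := e0) (C2 := C2) hP m (k := N.1) (Λ := Λ) (x := le N) (y := y) hΛ
        (hNL N hN) (hW N hN).2.2.2.2.2 (hsubN N hN y hy)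
      rw [h2, Finset.sum_apply]
      ring
    have h3 : |wN o (Function.update A m (∑ i ∈ Ico N.1 Λ, birth (S m) i (H m i))) N| ≤
        ∑ i ∈ Ico N.1 Λ, |wN o (Function.update A m (birth (S m) i (H m i))) N| := by
      rw [wN_update_sum]
      exact abs_sum_le_sum_abs _ _
    refine le_trans ?_ h3
    by_cases hm1 : m < i
    · have e1 : wN o (Function.update A m (mv V i Λ m N.1)) N =
          wN o (Function.update A m (-(∑ i ∈ Ico N.1 Λ, birth (S m) i (H m i)))) N := by
        refine wN_congr ho fun l y hy => ?_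
        by_cases hl : l = m
        · subst hl
          rw [Function.update_self, Function.update_self, Pi.neg_apply, ← hV y hy]
          unfold mv
          rw [if_pos hm1, Pi.sub_apply]
          ring
        · rw [Function.update_of_ne hl, Function.update_of_ne hl]
      rw [e1, wN_update_neg, abs_neg]
    · by_cases hm2 : m = i
      · have e1 : wN o (Function.update A m (mv V i Λ m N.1)) N =
            wN o (Function.update A m (∑ i ∈ Ico N.1 Λ, birth (S m) i (H m i))) N := by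
          refine wN_congr ho fun l y hy => ?_
          by_cases hl : l = m
          · subst hl
            rw [Function.update_self, Function.update_self, ← hV y hy]
            unfold mv
            rw [if_neg hm1, if_pos hm2, Pi.sub_apply]
          · rw [Function.update_of_ne hl, Function.update_of_ne hl]
        rw [e1]
      · have e1 : mv V i Λ m N.1 = 0 := by
          unfold mv
          rw [if_neg hm1, if_neg hm2]
        rw [e1, wN_update_zero, abs_zero]
        exact abs_nonneg _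
  -- two moving slots
  have hC20 : 0 ≤ C2 := le_trans (by positivity) hC2
  have hCd := cdig0_nonneg C2 (8 + 8 * Fintype.card (Fin 4))
  have hA00 : 0 ≤ A0 C2 e := by unfold A0; positivity
  have b2 : ∀ p : Fin 4 → ℕ, (∃ m m', m ≠ m' ∧ p m ≠ 0 ∧ p m' ≠ 0) →
      TT o 𝒲 (fun j N => if p j = 0 then A j else mv V i Λ j N.1) ≤
        Cm * P * (A0 C2 e ^ 4 * (Kb * e0) ^ 2) * cd (gr 7 s) Λ z := by
    intro p hp
    set A' : Fin 4 → ℕ → ℤ → ℝ := fun j k y =>
      if ud k y then (if p j = 0 then A j y else mv V i Λ j k y) else 0 with hA'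
    have h1 : TT o 𝒲 (fun j N => if p j = 0 then A j else mv V i Λ j N.1) =
        TT o 𝒲 (fun j N => A' j N.1) := by
      refine TT_congr ho fun N hN j y hy => ?_
      rw [hA']
      simp only
      rw [if_pos (hudN N hN y hy)]
      split_ifs <;> rfl
    have h2 : ∀ j, CSlot0 s Λ (A' j) (A0 C2 e * if p j = 0 then 1 else Kb * e0) := by
      intro j
      by_cases hpj : p j = 0
      · rw [if_pos hpj, mul_one]
        have h3 := slot_static (s := s) (Λ := Λ) (ud := ud) (G := A j) (e := 34 * e + 4)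
          hR.const hU.up (by positivity) (fun k _ x hx => by
            refine le_trans (le_of_eq ?_) (hEA j k x hx)
            unfold dot
            exact sum_congr rfl fun y _ => by ring)
        have h4 : 68 * √(34 * e + 4) ≤ A0 C2 e := by unfold A0; linarith
        refine (h3.mono h4).congr fun k _ y => ?_
        rw [hA']
        simp only [if_pos hpj]
      · rw [if_neg hpj]
        have h3 := slot_births (s := s) hP hM hC hC2 j hKb (hS j) he0 hΛ (pd_const Λ z)
          (pd_up Λ z)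
        have h4 : Cdig0 C2 (8 + 8 * Fintype.card (Fin 4)) 1 * Kb * e0 ≤ A0 C2 e * (Kb * e0) := by
          rw [mul_assoc]
          refine mul_le_mul_of_nonneg_right ?_ hKe0.le
          unfold A0
          linarith [Real.sqrt_nonneg (34 * e + 4)]
        by_cases hj1 : j < i
        · refine (h3.mono h4).congr fun k _ y => ?_
          rw [hA']
          simp only [if_neg hpj]
          unfold mv
          rw [if_pos hj1]
          rfl
        · by_cases hj2 : j = i
          · have h5 := h3.smul (c := -1) (by norm_num)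
            rw [abs_neg, abs_one, one_mul] at h5
            refine (h5.mono h4).congr fun k _ y => ?_
            rw [hA']
            simp only [if_neg hpj]
            unfold mv
            rw [if_neg hj1, if_pos hj2, Pi.sub_apply]
            change -1 * (if ud k y then V j k y - V j Λ y else 0) =
              if ud k y then V j Λ y - V j k y else 0
            split_ifs <;> ring
          · have h5 : 0 < A0 C2 e * (Kb * e0) := by
              refine mul_pos ?_ hKe0
              unfold A0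
              have : 0 < √(34 * e + 4) := Real.sqrt_pos.2 (by positivity)
              linarith
            refine (cslot0_zero s Λ h5).congr fun k _ y => ?_
            rw [hA']
            simp only [if_neg hpj]
            unfold mv
            rw [if_neg hj1, if_neg hj2]
            simp
    have h3 := hbox Λ z (hΛ.trans hLn) 𝒲 (fun N hN => ⟨(hW N hN).1, hNL N hN, le N,
      le_mem_W N, (hR.bel _ _ (hW N hN).2.2).2⟩) A' _ h2
    rw [h1]
    refine h3.trans ?_
    have h4 := prod_size hKe0.le hKe hA00 hp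
    have h5 : (2 : ℝ) ^ Λ ≤ cd (gr 7 s) Λ z := by
      rw [cd_gr]
      exact pow_le_pow_right₀ (by norm_num) (by omega)
    calc Cm * P * (∏ j, (A0 C2 e * if p j = 0 then 1 else Kb * e0)) * 2 ^ Λ
        ≤ Cm * P * (A0 C2 e ^ 4 * (Kb * e0) ^ 2) * 2 ^ Λ := by gcongr
      _ ≤ _ := by gcongr
  -- conclusion
  have h1 := expand2 (o := o) (𝒲 := 𝒲) A (mv V i Λ) (a := c * (16 * e) * cd (gr 7 s) Λ z)
    (b := c * e0 * cd (gr 7 s) Λ z)
    (c := Cm * P * (A0 C2 e ^ 4 * (Kb * e0) ^ 2) * cd (gr 7 s) Λ z) (by positivity)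
    (by positivity) (by positivity) b0 b1 b2
  have h2 : ∑ N ∈ 𝒲, |wN o (rl F (fun m => V m N.1) i) N| =
      TT o 𝒲 (fun j N y => A j y + mv V i Λ j N.1 y) := by
    unfold TT
    refine sum_congr rfl fun N _ => ?_
    congr 2
    funext j y
    exact rl_eq_add F V i Λ N.1 j y
  rw [h2]
  refine h1.trans (le_of_eq ?_)
  ring

end

end Vale.Agent.P141.H347.Fi
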