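import Vale.Agent.P141.H347.First4
import Vale.Agent.P141.H393.MbbProp0
import Vale.Agent.P141.H444.TopP

/-!
# P141, line W, scale invariant version, first level, part 5: the theorem

`cell_first`: all the nodes below one cell; `firstB2_of`: the first level `FirstB2` from the static
payments `Pay` of its system.
-/

namespace Vale.Agent.P141.H347.Fi

open Finset
open Vale.Agent.P141.H315 (Grid dot)
open Vale.Agent.P141.PL.H315 (le)
open Vale.Agent.P141.PL.H571 (W)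
open Vale.Agent.P141.PL.H314 (nd)
open Vale.Agent.P141.PL.H318 (CSys bm birth den cW)
open Vale.Agent.P141.PL.H95 (gr mem_gr shf rst rst_of_mem W_sub mem_W)
open Vale.Agent.P141.PL.H855 (wN TT wN_congr CSlot0 L2W Cdig0 MBB0 mbb_cell0 cd_gr cd_gr_succ)
open Vale.Agent.P141.H297 (Paths Sub Mix tp cd_pos tp_const packing ind)
open Vale.Agent.P141.H347 (LW Pth lden cd dr Dat2 Root2 pH pR pM)
open Vale.Agent.P141.H8 (Rgn En Wr Lab lab_tp)
open Vale.Agent.P141.H935 (sum_items)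
open Vale.Agent.P141.H782 (rl le_mem_W gb used used_congr hyp_used LSys LSys.S LSys.w lp pth_lp frN
  mem_frN BadC Typ ty typ_ty)
open Vale.Agent.P141.H444 (FirstB2 used_of_mem2)

noncomputable section

open scoped Classical

variable {s : ℤ} {ι : Type*} {S : Fin 4 → CSys (gr 7 s) ι}
variable {o : ℤ} {w : ∀ j, LW (S j)} {L : ℕ} {e : ℝ} {F : Fin 4 → ℤ → ℝ} {gd : ℕ → ℤ → Prop}
  {V H : Fin 4 → ℕ → ℤ → ℝ} {rs : Fin 4 → ℕ → ℤ → Prop} {lm : Fin 4 → ℕ → ℤ → ℝ}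

/-- **The nodes below one cell.** -/
theorem cell_first {Cm : ℝ} {n : ℕ} {P : ℝ} (hCm : 0 ≤ Cm) (hPP : 0 ≤ P)
    (hbox : ∀ (Λ : ℕ) (x : ℤ), Λ ≤ n →
      ∀ 𝒮 : Finset (ℕ × ℤ), (∀ N ∈ 𝒮, 1 ≤ N.1 ∧ N.1 ≤ Λ ∧
        ∃ y ∈ W N.1 N.2, y ∈ (gr 7 s).cube Λ x) →
      ∀ (A : Fin 4 → ℕ → ℤ → ℝ) (S : Fin 4 → ℝ), (∀ j, CSlot0 s Λ (A j) (S j)) →
        TT o 𝒮 (fun j N => A j N.1) ≤ Cm * P * (∏ j, S j) * 2 ^ Λ)
    (hLn : L ≤ n) (ho : o = 1 ∨ o = -1) (hP : Paths w L e F gd V H rs lm) (he : 0 < e)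
    (hF : ∀ j k y, k ≤ L → gd k y → dot ((gr 7 s).cube k y) (F j) (F j) ≤ e * cd (gr 7 s) k y)
    {Cg C2 : ℝ} (hM : ∀ j, Mix (S j) Cg) (hC : 0 ≤ Cg)
    (hC2 : 4 * Fintype.card (Fin 4) * (1 + 2 * Cg) ≤ C2)
    {Kb e0 : ℝ} (hKb : 0 < Kb) (hS : ∀ j, L2W (w j) Kb) (he0 : 0 < e0) (hKe : Kb * e0 ≤ 1)
    {c : ℝ} (hc0 : 0 ≤ c) (hPay : Pay o w L gd c (34 * e + 4)) (x : ℤ)
    {𝒲 : Finset (ℕ × ℤ)} (hW : ∀ N ∈ 𝒲, 1 ≤ N.1 ∧ N.1 ≤ L ∧
      W N.1 N.2 ⊆ (gr 7 s).cube N.1 (le N) ∧ gd N.1 (le N) ∧ le N ∈ (gr 7 s).cube L x)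
    (i : Fin 4) :
    ∑ N ∈ 𝒲, |wN o (rl F (fun m => V m N.1) i) N| ≤
      16 * (c * (16 * e) + c * e0 + Cm * P * (A0 C2 e ^ 4 * (Kb * e0) ^ 2)) *
        (2 * (2 + 2 + 2 * 2 * Fintype.card (Fin 4) + 64 * 2 * Fintype.card (Fin 4) * (e / e0)) *
          cd (gr 7 s) L x) := by
  set B : ℝ := 16 * (c * (16 * e) + c * e0 + Cm * P * (A0 C2 e ^ 4 * (Kb * e0) ^ 2)) with hB
  have hB0 : 0 ≤ B := by rw [hB]; positivity
  set κ : ℝ := 2 * (2 + 2 + 2 * 2 * Fintype.card (Fin 4) +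
    64 * 2 * Fintype.card (Fin 4) * (e / e0)) with hκ
  have hκ0 : 0 ≤ κ := by rw [hκ]; positivity
  have hcd := cd_pos (gr 7 s) L x
  obtain ⟨ud, hud⟩ : ∃ ud : ℕ → ℤ → Prop, ∀ k y, ud k y ↔
      (gd k y ∧ k ≤ L ∧ y ∈ (gr 7 s).cube L x) := ⟨_, fun _ _ => Iff.rfl⟩
  have hR : Rgn (gr 7 s) gd L x ud := by
    refine ⟨fun k y z hz => ?_, fun k hk y hy => ?_, fun k y hy => ?_, fun k y hy => ?_⟩
    · rw [hud, hud, pd_const (s := s) L x k y z hz, hP.gd_const k y z hz]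
    · rw [hud] at hy ⊢
      exact ⟨hP.gd_up k hk y hy.1, hk, hy.2.2⟩
    · rw [hud] at hy
      exact ⟨hy.2.1, hy.2.2⟩
    · rw [hud] at hy
      exact hy.1
  by_cases hgx : gd L x
  · have hl : Lab (gr 7 s) L (tp w L gd V H rs e0 C2) := lab_tp w L gd V H rs e0 C2
    have h1 := sum_items hR hl 𝒲 (fun N => N.1) (fun N => le N)
      (fun N => |wN o (rl F (fun m => V m N.1) i) N|)
    have h2 : ∑ N ∈ 𝒲, |wN o (rl F (fun m => V m N.1) i) N| =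
        ∑ N ∈ 𝒲, (if ud N.1 (le N) then |wN o (rl F (fun m => V m N.1) i) N| else 0) := by
      refine sum_congr rfl fun N hN => ?_
      obtain ⟨a1, a2, a3, a4, a5⟩ := hW N hN
      rw [if_pos ((hud _ _).2 ⟨a4, a2, a5⟩)]
    refine (le_of_eq (h2.trans h1)).trans ?_
    have h3 : ∀ k ∈ range (L + 1), ∀ z ∈ (gr 7 s).cube L x,
        (if ud k z ∧ tp w L gd V H rs e0 C2 k z = k then (cd (gr 7 s) k z)⁻¹ *
          ∑ N ∈ 𝒲, (if Wr (gr 7 s) ud (tp w L gd V H rs e0 C2) k z N.1 (le N) then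
            |wN o (rl F (fun m => V m N.1) i) N| else 0) else 0) ≤
        B * (if gd k z ∧ tp w L gd V H rs e0 C2 k z = k then (1 : ℝ) else 0) := by
      intro k hk z hz
      have hkL : k ≤ L := by have := mem_range.1 hk; omega
      by_cases h4 : ud k z ∧ tp w L gd V H rs e0 C2 k z = k
      · have hgk : gd k z := ((hud _ _).1 h4.1).1
        rw [if_pos h4, if_pos ⟨hgk, h4.2⟩, mul_one]
        have hc := cd_pos (gr 7 s) k z
        rw [← sum_filter]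
        have h5 := win_first hCm hPP hbox hLn ho hP he hF hM hC hC2 hKb hS he0 hKe hc0 hPay
          hkL hgk h4.2 (𝒲 := 𝒲.filter fun N =>
            Wr (gr 7 s) ud (tp w L gd V H rs e0 C2) k z N.1 (le N)) (by
              intro N hN
              rw [mem_filter] at hN
              obtain ⟨a1, a2, a3, a4, a5⟩ := hW N hN.1
              obtain ⟨b1, b2, b3, b4⟩ := hN.2
              exact ⟨a1, a3, b2, ⟨b2, b3⟩, ((hud _ _).1 b1).1, b4⟩) i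
        have h6 := mul_le_mul_of_nonneg_left h5 (inv_pos.2 hc).le
        refine h6.trans (le_of_eq ?_)
        rw [← hB]
        field_simp
      · rw [if_neg h4]
        split_ifs <;> linarith
    refine (sum_le_sum fun k hk => sum_le_sum fun z hz => h3 k hk z hz).trans ?_
    have h4 : ∑ k ∈ range (L + 1), ∑ z ∈ (gr 7 s).cube L x,
        (if gd k z ∧ tp w L gd V H rs e0 C2 k z = k then (1 : ℝ) else 0) ≤
        κ * cd (gr 7 s) L x := by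
      refine le_trans (le_of_eq ?_) (packing hP hM hC (fun k x => (cd_gr_succ s k x)) he0 hC2
        le_rfl hgx)
      unfold ind
      exact sum_congr rfl fun i _ => sum_congr rfl fun z _ => by congr
    calc ∑ k ∈ range (L + 1), ∑ z ∈ (gr 7 s).cube L x,
          B * (if gd k z ∧ tp w L gd V H rs e0 C2 k z = k then (1 : ℝ) else 0)
        = B * ∑ k ∈ range (L + 1), ∑ z ∈ (gr 7 s).cube L x,
          (if gd k z ∧ tp w L gd V H rs e0 C2 k z = k then (1 : ℝ) else 0) := by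
          rw [mul_sum]
          exact sum_congr rfl fun k _ => by rw [mul_sum]
      _ ≤ _ := mul_le_mul_of_nonneg_left h4 hB0
  · have h1 : 𝒲 = ∅ := by
      refine eq_empty_of_forall_notMem fun N hN => ?_
      obtain ⟨a1, a2, a3, a4, a5⟩ := hW N hN
      have h2 : ud L (le N) := hR.up' a2 le_rfl ((hud _ _).2 ⟨a4, a2, a5⟩)
      exact hgx ((hP.gd_const L x (le N) a5).1 ((hud _ _).1 h2).1)
    rw [h1, sum_empty]
    positivity

/-- a window meets at most two intervals of the grid -/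
theorem two_cells {s : ℤ} {K : ℕ} {V y : ℤ} (hy : y ∈ W K V) :
    y ∈ (gr 7 s).cube K (2 ^ K * (V - 16)) ∨ y ∈ (gr 7 s).cube K (2 ^ K * (V + 16) - 1) := by
  rw [mem_W] at hy
  rw [mem_gr, mem_gr]
  obtain ⟨h1, h2⟩ := hy
  have hk : (0 : ℤ) < 2 ^ K := by positivity
  have e7 : (2 : ℤ) ^ (K + 7) = 128 * 2 ^ K := by rw [pow_add]; ring
  set M : ℤ := 2 ^ (K + 7) with hM
  have hM0 : 0 < M := by rw [hM]; positivity
  set a : ℤ := 2 ^ K * (V - 16) + s with ha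
  set b : ℤ := 2 ^ K * (V + 16) - 1 + s with hb
  have h3 : b < a + M := by rw [ha, hb, e7]; nlinarith
  have h4 : a / M ≤ (y + s) / M := Int.ediv_le_ediv hM0 (by linarith)
  have h5 : (y + s) / M ≤ b / M := Int.ediv_le_ediv hM0 (by linarith)
  have h6 : b / M ≤ a / M + 1 := by
    have h7 : b / M ≤ (a + M) / M := Int.ediv_le_ediv hM0 h3.le
    rwa [Int.add_ediv_of_dvd_right (dvd_refl M), Int.ediv_self hM0.ne'] at h7
  omega

/-- the numbers of the first level -/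
theorem num_first {c Cm X P Kb r C : ℝ} (hc : 0 ≤ c) (hCm : 0 ≤ Cm) (hX : 0 ≤ X) (hP : 0 ≤ P)
    (hKb : 1 ≤ Kb) (hr : 0 < r) (hr1 : r ≤ 1) (hC : 2 ^ 25 * (65 + Cm * X) ≤ C) (K : ℕ) :
    16 * (c * (16 * 4) + c * (r / Kb ^ 2) + Cm * P * (X * (Kb * (r / Kb ^ 2)) ^ 2)) *
        (2 * (2 + 2 + 2 * 2 * 4 + 64 * 2 * 4 * (4 / (r / Kb ^ 2))) * 2 ^ (K + 7)) +
      16 * (c * (16 * 4) + c * (r / Kb ^ 2) + Cm * P * (X * (Kb * (r / Kb ^ 2)) ^ 2)) *
        (2 * (2 + 2 + 2 * 2 * 4 + 64 * 2 * 4 * (4 / (r / Kb ^ 2))) * 2 ^ (K + 7)) ≤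
      (2 ^ 25 * (65 + Cm * X) * c * Kb ^ 2 * r⁻¹ + C * r * (1 + P)) * 2 ^ K := by
  have hKb0 : 0 < Kb := by linarith
  have hC0 : 0 ≤ C := le_trans (by positivity) hC
  have hK2 : 1 ≤ Kb ^ 2 := one_le_pow₀ hKb
  -- the packing
  have hq : 4 / (r / Kb ^ 2) = 4 * (Kb ^ 2 * r⁻¹) := by field_simp
  set q : ℝ := Kb ^ 2 * r⁻¹ with hqd
  have hri : 1 ≤ r⁻¹ := (one_le_inv₀ hr).2 hr1
  have hq1 : 1 ≤ q := by rw [hqd]; nlinarith
  have hκ : 2 * (2 + 2 + 2 * 2 * 4 + 64 * 2 * 4 * (4 * q)) ≤ 4136 * q := by linarith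
  have h1 : c * (r / Kb ^ 2) ≤ c := by
    have : r / Kb ^ 2 ≤ 1 := by rw [div_le_one (by positivity)]; linarith
    nlinarith
  have h2 : (Kb * (r / Kb ^ 2)) ^ 2 * q = r := by
    rw [hqd]; field_simp
  have h3 : 0 ≤ (Kb * (r / Kb ^ 2)) ^ 2 := sq_nonneg _
  set y : ℝ := (Kb * (r / Kb ^ 2)) ^ 2 with hy
  have h7 : (2 : ℝ) ^ (K + 7) = 128 * 2 ^ K := by rw [pow_add]; ring
  set T : ℝ := 2 ^ K with hT
  have hT0 : 0 < T := by rw [hT]; positivity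
  have h4 : c * (16 * 4) + c * (r / Kb ^ 2) + Cm * P * (X * y) ≤ 65 * c + Cm * X * P * y := by
    linarith
  have h5 : 0 ≤ 65 * c + Cm * X * P * y := by positivity
  have hq0 : 0 ≤ q := by linarith
  have h8 : 16 * (c * (16 * 4) + c * (r / Kb ^ 2) + Cm * P * (X * y)) *
      (2 * (2 + 2 + 2 * 2 * 4 + 64 * 2 * 4 * (4 * q)) * (128 * T)) ≤
      16 * (65 * c + Cm * X * P * y) * (4136 * q * (128 * T)) := by
    refine mul_le_mul (by linarith) ?_ (by positivity) (by positivity)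
    exact mul_le_mul_of_nonneg_right hκ (by positivity)
  rw [hq, h7]
  refine (add_le_add h8 h8).trans ?_
  have h11 : 16 * (65 * c + Cm * X * P * y) * (4136 * q * (128 * T)) +
      16 * (65 * c + Cm * X * P * y) * (4136 * q * (128 * T)) =
      (16941056 * 65 * (c * q) + 16941056 * (Cm * X * P * (y * q))) * T := by
    ring
  rw [h11, h2]
  refine mul_le_mul_of_nonneg_right ?_ hT0.le
  have e1 : 2 ^ 25 * (65 + Cm * X) * c * Kb ^ 2 * r⁻¹ = 2 ^ 25 * (65 + Cm * X) * (c * q) := by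
    rw [hqd]; ring
  rw [e1]
  have hcq : 0 ≤ c * q := by positivity
  have h12 : 0 ≤ Cm * X * (c * q) := by positivity
  have h13 : 16941056 * 65 * (c * q) ≤ 2 ^ 25 * (65 + Cm * X) * (c * q) := by linarith
  have h14 : 2 ^ 25 * (65 + Cm * X) * (r * P) ≤ C * (r * P) :=
    mul_le_mul_of_nonneg_right hC (by positivity)
  have h15 : 0 ≤ C * r := by positivity
  have h16 : 0 ≤ Cm * X * (r * P) := by positivity
  have h17 : 0 ≤ r * P := by positivity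
  have h18 : 16941056 * (Cm * X * P * r) ≤ C * r * (1 + P) := by linarith
  linarith

/-- **THE FIRST LEVEL** from the static payments of its system. -/
theorem firstB2_of {Cg : ℝ} (hCg : 0 ≤ Cg) : ∃ C1 : ℝ, 0 ≤ C1 ∧
    ∀ (n : ℕ) (P : ℝ), 0 ≤ P → Root2 n P → ∀ (ι : Type) (𝒮 : LSys n ι) (j0 : ℕ) (ρ : ℝ), 0 < ρ →
      ρ < 1 → (∀ b i, Mix (𝒮.S j0 b i) Cg) → ∀ Kb : ℝ, 1 ≤ Kb →
      (∀ b i, L2W (𝒮.w j0 b i) Kb) → ∀ c : ℝ, 0 ≤ c → ∀ f o K V 𝒩, Dat2 n f o K V 𝒩 →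
      (∀ b, Pay o (fun i => 𝒮.w j0 b i) K (used n K V f b) c (34 * 4 + 4)) →
      ∀ C : ℝ, C1 ≤ C →
        FirstB2 𝒮 ρ C (C1 * c * Kb ^ 2 * (ρ ^ j0)⁻¹) j0 (1 + P) f o K V 𝒩 := by
  obtain ⟨Cm, hCm, hbox⟩ := mbb_cell0 Vale.Agent.P141.H393.mbb0_root2
  set C2 : ℝ := 4 * Fintype.card (Fin 4) * (1 + 2 * Cg) with hC2
  have hC20 : 0 ≤ C2 := by rw [hC2]; positivity
  have hA : 0 ≤ A0 C2 4 := by
    have := cdig0_nonneg C2 (8 + 8 * Fintype.card (Fin 4))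
    unfold A0
    positivity
  set X : ℝ := A0 C2 4 ^ 4 with hX
  have hX0 : 0 ≤ X := by positivity
  refine ⟨2 ^ 25 * (65 + Cm * X), by positivity, ?_⟩
  intro n P hP hroot ι 𝒮 j0 ρ hρ0 hρ1 hM Kb hKb hS c hc f o K V 𝒩 hd hPay C hC
  have hρj : 0 < ρ ^ j0 := by positivity
  have hρj1 : ρ ^ j0 ≤ 1 := pow_le_one₀ hρ0.le hρ1.le
  have hC0 : 0 ≤ C := le_trans (by positivity) hC
  have hKb0 : 0 < Kb := by linarith
  refine ⟨fun _ => ∅, ⟨fun b c hc => absurd hc (notMem_empty _), fun b => ?_⟩, fun b i => ?_⟩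
  · rw [sum_empty]
    positivity
  set e0 : ℝ := ρ ^ j0 / Kb ^ 2 with he0d
  have he0 : 0 < e0 := by rw [he0d]; positivity
  have he01 : e0 ≤ 1 := by
    rw [he0d, div_le_one (by positivity)]
    nlinarith
  have hKe : Kb * e0 ≤ 1 := by
    rw [he0d]
    have : Kb * (ρ ^ j0 / Kb ^ 2) = ρ ^ j0 / Kb := by field_simp
    rw [this, div_le_one hKb0]
    linarith
  set s : ℤ := shf (n + 7) b with hs
  set F' : Fin 4 → ℤ → ℝ := fun i => rst K V (f i) with hF'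
  set R : Fin 4 → ℕ → ℤ → ℝ := fun i => lp 𝒮 K V f j0 b i with hR
  have hPth : Paths (fun i => 𝒮.w j0 b i) K 4 F' (used n K V f b) R
      (fun i => pH (𝒮.w j0 b i) K 4 (rst K V (f i)) (used n K V f b))
      (fun i => pR (𝒮.w j0 b i) K 4 (rst K V (f i)) (used n K V f b))
      (fun i k => pM (𝒮.w j0 b i) K 4 (rst K V (f i)) (used n K V f b) k k) :=
    ⟨fun i => pth_lp 𝒮 K V f j0 b i, (hyp_used n K V f b 0).const, (hyp_used n K V f b 0).up⟩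
  have hcell := fun (x : ℤ) (𝒲 : Finset (ℕ × ℤ)) hW => cell_first (o := o) (n := n) (P := P) hCm hP
    (fun Λ x hΛ => hbox n P hP hroot o hd.ho s Λ x hΛ) hd.hK hd.ho hPth (by norm_num : (0 : ℝ) < 4)
    (fun j k y hk hy => (hyp_used n K V f b j).energy k hk y hy) (fun j => hM b j) hCg
    (C2 := C2) le_rfl hKb0 (fun j => hS b j) he0 hKe hc (hPay b) x (𝒲 := 𝒲) hW i
  -- the nodes
  have hN : ∀ N ∈ frN n b 𝒩 ∅, 1 ≤ N.1 ∧ N.1 ≤ K ∧ W N.1 N.2 ⊆ (gr 7 s).cube N.1 (le N) ∧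
      used n K V f b N.1 (le N) ∧ W N.1 N.2 ⊆ W K V := by
    intro N hN
    obtain ⟨h1, h2, -⟩ := mem_frN.1 hN
    obtain ⟨h3, h4, h5⟩ := hd.root N h1
    refine ⟨h3, h4, ?_, used_of_mem2 hd h1 b (le_mem_W N), ?_⟩
    · have h6 := typ_ty (n := n) (N := N) (h4.trans hd.hK)
      rw [h2] at h6
      exact h6
    · have h6 := W_sub h4 N.2
      rwa [h5] at h6
  have e1 : ∑ N ∈ frN n b 𝒩 ∅, |nd o N.1 N.2 (rl f (fun m => lp 𝒮 K V f j0 b m N.1) i)| =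
      ∑ N ∈ frN n b 𝒩 ∅, |wN o (rl F' (fun m => R m N.1) i) N| := by
    refine sum_congr rfl fun N hN1 => ?_
    show |wN o (rl f (fun m => lp 𝒮 K V f j0 b m N.1) i) N| = _
    rw [wN_congr hd.ho fun j y hy => ?_]
    have h1 : F' j y = f j y := rst_of_mem ((hN N hN1).2.2.2.2 hy)
    unfold rl
    split_ifs
    · rfl
    · rw [Pi.sub_apply, Pi.sub_apply, h1]
    · exact h1.symm
  have e2 : ∑ N ∈ frN n b 𝒩 ∅, |wN o (rl F' (fun m => R m N.1) i) N| ≤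
      ∑ N ∈ (frN n b 𝒩 ∅).filter (fun N => le N ∈ (gr 7 s).cube K (2 ^ K * (V - 16))),
        |wN o (rl F' (fun m => R m N.1) i) N| +
      ∑ N ∈ (frN n b 𝒩 ∅).filter (fun N => le N ∈ (gr 7 s).cube K (2 ^ K * (V + 16) - 1)),
        |wN o (rl F' (fun m => R m N.1) i) N| := by
    rw [sum_filter, sum_filter, ← sum_add_distrib]
    refine sum_le_sum fun N hN1 => ?_
    have h0 := abs_nonneg (wN o (rl F' (fun m => R m N.1) i) N)
    rcases two_cells (s := s) ((hN N hN1).2.2.2.2 (le_mem_W N)) with h | h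
    · rw [if_pos h]
      split_ifs <;> linarith
    · rw [if_pos h]
      split_ifs <;> linarith
  have e3 : ∀ x : ℤ, ∑ N ∈ (frN n b 𝒩 ∅).filter (fun N => le N ∈ (gr 7 s).cube K x),
        |wN o (rl F' (fun m => R m N.1) i) N| ≤
      16 * (c * (16 * 4) + c * e0 + Cm * P * (A0 C2 4 ^ 4 * (Kb * e0) ^ 2)) *
        (2 * (2 + 2 + 2 * 2 * Fintype.card (Fin 4) + 64 * 2 * Fintype.card (Fin 4) * (4 / e0)) *
          cd (gr 7 s) K x) := by
    intro x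
    refine hcell x _ fun N hN1 => ?_
    rw [mem_filter] at hN1
    obtain ⟨h1, h2, h3, h4, -⟩ := hN N hN1.1
    exact ⟨h1, h2, h3, h4, hN1.2⟩
  rw [e1]
  refine (e2.trans (add_le_add (e3 _) (e3 _))).trans ?_
  rw [cd_gr, cd_gr, ← hX]
  have hcard : (Fintype.card (Fin 4) : ℝ) = 4 := by simp
  rw [hcard]
  exact num_first hc hCm hX0 hP hKb hρj hρj1 hC K

end

end Vale.Agent.P141.H347.Fi
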