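import Vale.Agent.P141.H347.First5
import Vale.Agent.P141.H444.PayG

/-!
# P141, line W, scale invariant version: the first level for the systems of the level process
-/

namespace Vale.Agent.P141.H347.Fi

open Finset
open Vale.Agent.P141.H315 (Grid dot)
open Vale.Agent.P141.PL.H855 (L2W)
open Vale.Agent.P141.H297 (Mix)
open Vale.Agent.P141.H347 (LW Dat2 Root2)
open Vale.Agent.P141.H782 (gb LSys LSys.S LSys.w used)
open Vale.Agent.P141.H922 (CgP)
open Vale.Agent.P141.H736 (cost)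
open Vale.Agent.P141.H444 (FirstB2 TSys EnL l2c pay_total)

noncomputable section

open scoped Classical

/-- **THE FIRST LEVEL for the systems of the level process**: from (E) at the level one and the
costs of the generic tests with three locally-`L²` companions. -/
theorem firstB2_sys {C CP : ℝ} (hC : 0 ≤ C) (hE : EnL C) (hCP : 1 ≤ CP) : ∃ C1 : ℝ, 0 ≤ C1 ∧
    ∀ (n : ℕ) (P : ℝ), 0 ≤ P → Root2 n P → ∀ (κ : Type) (t : TSys n κ) (j0 : ℕ) (ρ : ℝ), 0 < ρ →
      ρ < 1 → t.δ j0 ≤ 1 → (∀ b m, (t.P j0 b m).C ≤ CP) → ∀ cg : ℝ, 0 ≤ cg →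
      (∀ o : ℤ, (o = 1 ∨ o = -1) → ∀ b m k x i, (t.P j0 b m).live k i →
        cost (fun _ => l2c (gb n b) 140 (by norm_num)) o m ((t.P j0 b m).ψ i) k
          ((gb n b).cube k x) ≤ cg * (t.P j0 b m).W k ((gb n b).cube k x) i) →
      ∀ f o K V 𝒩, Dat2 n f o K V 𝒩 → ∀ C' : ℝ, C1 ≤ C' →
        FirstB2 t.sys ρ C' (C1 * (16 * (C * (140 * √140)) / t.δ j0 + 2 * CP * cg) *
          (2 * t.K j0) ^ 2 * (ρ ^ j0)⁻¹) j0 (1 + P) f o K V 𝒩 := by
  have hCg : (0 : ℝ) ≤ max CgP CP := le_trans (by linarith) (le_max_right _ _)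
  obtain ⟨C1, hC1, h⟩ := firstB2_of hCg
  refine ⟨C1, hC1, fun n P hP hroot κ t j0 ρ hρ0 hρ1 hδ hPC cg hcg hcost f o K V 𝒩 hd C' hC' => ?_⟩
  have hδ0 := t.pos j0
  have hK : 1 ≤ 2 * t.K j0 := by
    have h1 := t.le j0
    have h2 : (1 : ℝ) ≤ 2 ^ 7 / t.δ j0 := by
      rw [le_div_iff₀ hδ0]
      linarith
    linarith
  refine h n P hP hroot _ t.sys j0 ρ hρ0 hρ1
    (fun b i => t.mix_sys (le_max_left _ _) ((hPC b i).trans (le_max_right _ _))) (2 * t.K j0) hK
    (fun b i => t.l2W_sys j0 b i) _ ?_ f o K V 𝒩 hd (fun b => ?_) C' hC'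
  · have := t.pos j0
    positivity
  · have h1 := pay_total hC hE t j0 b hd.ho (CE := 140) (by norm_num) hcg (hPC b)
      (fun m k x i hl => hcost o hd.ho b m k x i hl) K (used n K V f b)
    rw [show (34 : ℝ) * 4 + 4 = 140 by norm_num]
    exact h1

end

end Vale.Agent.P141.H347.Fi
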