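import Vale.Agent.P141.H444.FirstSys
import Vale.Agent.P141.H736.TfFamF
import Vale.Agent.P141.H736.TfClsP

/-!
# P141, scale invariant version: the total systems from a family of generic tests

* `GFam`: functions `ψ i`, top scales, a floor `D` which packs with the constant `1`;
  `GFam.sys`: the packed system with the weight `θ cst + φ l2 + φ' D`;
* `kap`, `cwG`: the classes of the companions: one companion (any slot) locally in `L²` and the two
  others uniform for the pair system at the level `t`, energies at most `E`; both orientations;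
* `Par`: the parameters of one total system; `Par.gen`; `mkT : (ℕ → Par) → .. → TSys n ι`;
  `mkT_C`, `mkT_K`; `gen_cost_le`;
* `gen_W_le`: comparison of the weights for two sets of parameters; `un_mono`: uniformity for one
  total system from uniformity for another one.
-/

namespace Vale.Agent.P141.H347.Gs

open Finset Function
open Vale.Agent.P141.H315 (Grid dot dot_self_nonneg)
open Vale.Agent.P141.PL (Pt fc)
open Vale.Agent.P141.PL.H315 (le Tri)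
open Vale.Agent.P141.PL.H95 (gr shf)
open Vale.Agent.P141.PL.H318
open Vale.Agent.P141.PL.H855 (wN TT wN_congr update_apply_node)
open Vale.Agent.P141.H347 (Fam LW cd)
open Vale.Agent.P141.H782 (gb LSys LSys.S LSys.w)
open Vale.Agent.P141.H8 (Rgn En Un)
open Vale.Agent.P141.H922 (wP wP_nonneg sysP sysPT CgP)
open Vale.Agent.P141.H736 (Cls CW PSys Blw vals cost cost_nonneg ck stOk Stat stcP stc l2 l2_nonneg
  l2_sq l2_pack card_pos' one_le_CgP)
open Vale.Agent.P141.H444 (l2c csz_fc_7 wN_scale TDat TSys)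

noncomputable section

open scoped Classical

/-! ### Comparison of the costs of two families of classes -/

section cmp

variable {g : Grid ℤ}

/-- the companions multiplied by constants -/
theorem val_scale (o : ℤ) (ho : o = 1 ∨ o = -1) (r : Fin 4) (ψ : ℤ → ℝ) (𝒩 : Finset H736.Nd)
    (A : Fin 4 → H736.Nd → ℤ → ℝ) {s : Fin 4 → ℝ} (hs : ∀ l, 0 ≤ s l) :
    H736.val o r ψ 𝒩 (fun l N y => s l * A l N y) =
      (∏ l ∈ univ.erase r, s l) * H736.val o r ψ 𝒩 A := by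
  set a : Fin 4 → ℝ := fun l => if l = r then 1 else s l with ha
  have hpa : ∏ l, a l = ∏ l ∈ univ.erase r, s l := by
    rw [← mul_prod_erase univ _ (mem_univ r)]
    simp only [ha, if_true, one_mul]
    exact prod_congr rfl fun l hl => if_neg (ne_of_mem_erase hl)
  unfold H736.val TT
  rw [mul_sum]
  refine sum_congr rfl fun N _ => ?_
  rw [update_apply_node, update_apply_node]
  have e2 : wN o (Function.update (fun l y => s l * A l N y) r ψ) N =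
      wN o (fun l y => a l * Function.update (fun l => A l N) r ψ l y) N := by
    refine wN_congr ho fun l y _ => ?_
    by_cases hl : l = r
    · subst hl
      simp only [Function.update_self, ha, if_true, one_mul]
    · rw [Function.update_of_ne hl, Function.update_of_ne hl]
      simp only [ha, if_neg hl]
  rw [e2, wN_scale, hpa, abs_mul, abs_of_nonneg (prod_nonneg fun l _ => hs l)]

/-- **Comparison of costs**: the data of the classes `κ`, divided by `s`, are admissible for the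
classes `κ'`. -/
theorem cost_le_cost (κ κ' : Fin 4 → Cls g) {o : ℤ} (ho : o = 1 ∨ o = -1) (r : Fin 4)
    (ψ : ℤ → ℝ) (k : ℕ) (x : ℤ) {s : Fin 4 → ℝ} (hs : ∀ l, 0 < s l)
    (h : ∀ l, l ≠ r → ∀ 𝒩 A, Blw g k (g.cube k x) 𝒩 → (κ l).ok k (g.cube k x) 𝒩 A →
      (κ' l).ok k (g.cube k x) 𝒩 fun N y => (s l)⁻¹ * A N y) :
    cost κ o r ψ k (g.cube k x) ≤
      (∏ l ∈ univ.erase r, s l) * cost κ' o r ψ k (g.cube k x) := by
  refine csSup_le (H736.vals_nonempty κ o r ψ k x) ?_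
  rintro v ⟨𝒩, A, h1, h2, rfl⟩
  have key := H736.val_le_cost κ' ho r ψ h1 (A := fun l N y => (s l)⁻¹ * A l N y)
    fun l hl => h l hl 𝒩 (A l) h1 (h2 l hl)
  rw [val_scale o ho r ψ 𝒩 A fun l => (inv_pos.2 (hs l)).le] at key
  have h3 : 0 < ∏ l ∈ univ.erase r, s l := prod_pos fun l _ => hs l
  rw [prod_inv_distrib, inv_mul_le_iff₀ h3] at key
  exact key

theorem stOk_scale {ι ι' : Type*} {S : CSys g ι} {S' : CSys g ι'} {E E' s : ℝ} (hs : 0 < s)
    (hS : ∀ k y (F : ℤ → ℝ), (∀ i, |dot (g.cube k y) F (S.a k i)| ≤ S.W k (g.cube k y) i) →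
      ∀ i, |dot (g.cube k y) F (S'.a k i)| ≤ s * S'.W k (g.cube k y) i)
    (hE : E ≤ s ^ 2 * E') {k : ℕ} {𝒩 : Finset H736.Nd} {A : H736.Nd → ℤ → ℝ}
    (h : stOk S E k 𝒩 A) : stOk S' E' k 𝒩 fun N y => s⁻¹ * A N y := by
  obtain ⟨O, h1, h2⟩ := h
  have hd : ∀ (Q : Finset ℤ) (F : ℤ → ℝ), dot Q (fun y => s⁻¹ * O y) F = s⁻¹ * dot Q O F := by
    intro Q F
    unfold dot
    rw [mul_sum]
    exact sum_congr rfl fun y _ => by ring
  refine ⟨fun y => s⁻¹ * O y, fun N hN y hy => by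
    show s⁻¹ * A N y = s⁻¹ * O y
    rw [h1 N hN y hy], fun N hN l hl hlk => ?_⟩
  obtain ⟨h3, h4⟩ := h2 N hN l hl hlk
  refine ⟨fun i => ?_, ?_⟩
  · rw [hd, abs_mul, abs_of_pos (inv_pos.2 hs), inv_mul_le_iff₀ hs]
    exact hS l (le N) O h3 i
  · have e1 : dot (g.cube l (le N)) (fun y => s⁻¹ * O y) (fun y => s⁻¹ * O y) =
        (s ^ 2)⁻¹ * dot (g.cube l (le N)) O O := by
      unfold dot
      rw [mul_sum]
      refine sum_congr rfl fun y _ => ?_
      rw [← inv_pow]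
      ring
    rw [e1, inv_mul_le_iff₀ (by positivity), ← mul_assoc]
    exact h4.trans (mul_le_mul_of_nonneg_right hE (Nat.cast_nonneg _))

end cmp

/-! ### The family of the generic tests -/

/-- **A family of generic tests.** -/
structure GFam (g : Grid ℤ) (ι : Type) where
  ψ : ι → ℤ → ℝ
  top : ι → ℕ
  D : ℕ → Finset ℤ → ι → ℝ
  D_nonneg : ∀ k Q i, 0 ≤ D k Q i
  D_pack : ∀ (j : ℕ) (x : ℤ) (i : ι) (F : ℤ → Prop) (m : ℤ → ℕ), Fam g F m →
    (∀ z ∈ g.cube j x, F z → m z ≤ j) →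
    ∑ z ∈ g.cube j x, (if F z then D (m z) (g.cube (m z) z) i / (g.cube (m z) z).card else 0) ≤
      D j (g.cube j x) i

namespace GFam

variable {g : Grid ℤ} {ι : Type} {J : Type*} [Fintype J] {r : Fin 4}

/-- **The packed system of the generic tests.** -/
def sys (G : GFam g ι) (c : CW g J r) (θ φ φ' : ℝ) (hθ : 0 ≤ θ) (hφ : 0 < φ) (hφ' : 0 ≤ φ') :
    PSys g ι where
  ψ := G.ψ
  live k i := k ≤ G.top i
  live_mono _ _ _ h h' := h.trans h'
  W k Q i := θ * c.cst (G.ψ i) k Q + φ * l2 Q (G.ψ i) + φ' * G.D k Q i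
  W_nonneg k Q i := by
    have := c.cst_nonneg (G.ψ i) k Q
    have := l2_nonneg Q (G.ψ i)
    have := G.D_nonneg k Q i
    positivity
  nondeg k x := by
    refine ⟨φ ^ 2, by positivity, fun i => ?_⟩
    have hc := c.cst_nonneg (G.ψ i) k (g.cube k x)
    have hcd : (1 : ℝ) ≤ (g.cube k x).card := by
      exact_mod_cast Finset.card_pos.mpr ⟨x, g.mem k x⟩
    have h0 := l2_nonneg (g.cube k x) (G.ψ i)
    have h1 : dot (g.cube k x) (G.ψ i) (G.ψ i) ≤ l2 (g.cube k x) (G.ψ i) ^ 2 := by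
      rw [l2_sq]
      exact le_mul_of_one_le_left (dot_self_nonneg _ _) hcd
    have h2 : φ * l2 (g.cube k x) (G.ψ i) ≤ θ * c.cst (G.ψ i) k (g.cube k x) +
        φ * l2 (g.cube k x) (G.ψ i) + φ' * G.D k (g.cube k x) i := by
      have h3 : 0 ≤ θ * c.cst (G.ψ i) k (g.cube k x) := mul_nonneg hθ hc
      have h4 : 0 ≤ φ' * G.D k (g.cube k x) i := mul_nonneg hφ' (G.D_nonneg _ _ _)
      linarith
    calc φ ^ 2 * dot (g.cube k x) (G.ψ i) (G.ψ i) ≤ φ ^ 2 * l2 (g.cube k x) (G.ψ i) ^ 2 :=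
          mul_le_mul_of_nonneg_left h1 (by positivity)
      _ = (φ * l2 (g.cube k x) (G.ψ i)) ^ 2 := by ring
      _ ≤ _ := pow_le_pow_left₀ (by positivity) h2 2
  C := c.C
  one_le := c.one_le
  pack j x i F m hF hm := by
    have e1 : ∀ z ∈ g.cube j x, (if F z then (θ * c.cst (G.ψ i) (m z) (g.cube (m z) z) +
        φ * l2 (g.cube (m z) z) (G.ψ i) + φ' * G.D (m z) (g.cube (m z) z) i) /
          (g.cube (m z) z).card else 0) =
        θ * (if F z then c.cst (G.ψ i) (m z) (g.cube (m z) z) / (g.cube (m z) z).card else 0) +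
        φ * (if F z then l2 (g.cube (m z) z) (G.ψ i) / (g.cube (m z) z).card else 0) +
          φ' * (if F z then G.D (m z) (g.cube (m z) z) i / (g.cube (m z) z).card else 0) := by
      intro z _
      split_ifs
      · ring
      · simp
    rw [sum_congr rfl e1, sum_add_distrib, sum_add_distrib, ← mul_sum, ← mul_sum, ← mul_sum]
    have h1 := mul_le_mul_of_nonneg_left (c.cst_pack (G.ψ i) j x F m hF hm) hθ
    have h2 := mul_le_mul_of_nonneg_left (l2_pack (G.ψ i) j x F m hF hm) hφ.le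
    have h3 := mul_le_mul_of_nonneg_left (G.D_pack j x i F m hF hm) hφ'
    have h4 : 0 ≤ φ * l2 (g.cube j x) (G.ψ i) + φ' * G.D j (g.cube j x) i := by
      have := l2_nonneg (g.cube j x) (G.ψ i)
      have := G.D_nonneg j (g.cube j x) i
      positivity
    have h5 := mul_le_mul_of_nonneg_right c.one_le h4
    nlinarith

variable {G : GFam g ι} {c : CW g J r} {θ φ φ' : ℝ} {hθ : 0 ≤ θ} {hφ : 0 < φ} {hφ' : 0 ≤ φ'}

theorem sys_W (k : ℕ) (Q : Finset ℤ) (i : ι) : (G.sys c θ φ φ' hθ hφ hφ').W k Q i =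
    θ * c.cst (G.ψ i) k Q + φ * l2 Q (G.ψ i) + φ' * G.D k Q i := rfl

theorem parts_le (k : ℕ) (Q : Finset ℤ) (i : ι) :
    θ * c.cst (G.ψ i) k Q ≤ (G.sys c θ φ φ' hθ hφ hφ').W k Q i ∧
    φ * l2 Q (G.ψ i) ≤ (G.sys c θ φ φ' hθ hφ hφ').W k Q i ∧
    φ' * G.D k Q i ≤ (G.sys c θ φ φ' hθ hφ hφ').W k Q i := by
  rw [sys_W]
  have h1 : 0 ≤ θ * c.cst (G.ψ i) k Q := mul_nonneg hθ (c.cst_nonneg _ k Q)
  have h2 : 0 ≤ φ * l2 Q (G.ψ i) := mul_nonneg hφ.le (l2_nonneg _ _)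
  have h3 : 0 ≤ φ' * G.D k Q i := mul_nonneg hφ' (G.D_nonneg _ _ _)
  exact ⟨by linarith, by linarith, by linarith⟩

/-- the weight dominates the costs -/
theorem cost_le (hθ' : 0 < θ) (a : J) (k : ℕ) (Q : Finset ℤ) (i : ι) :
    cost (c.κ a) (c.o a) r (G.ψ i) k Q ≤
      c.nrm a / θ * (G.sys c θ φ φ' hθ hφ hφ').W k Q i := by
  have h1 := c.cost_le a (G.ψ i) k Q
  have h2 := (parts_le (G := G) (c := c) (hθ := hθ) (hφ := hφ) (hφ' := hφ') k Q i).1
  calc cost (c.κ a) (c.o a) r (G.ψ i) k Q ≤ c.nrm a * c.cst (G.ψ i) k Q := h1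
    _ = c.nrm a / θ * (θ * c.cst (G.ψ i) k Q) := by field_simp
    _ ≤ _ := mul_le_mul_of_nonneg_left h2 (div_nonneg (c.nrm_pos a).le hθ)

theorem l2_le (k : ℕ) (Q : Finset ℤ) (i : ι) :
    l2 Q (G.ψ i) ≤ φ⁻¹ * (G.sys c θ φ φ' hθ hφ hφ').W k Q i := by
  have h2 := (parts_le (G := G) (c := c) (hθ := hθ) (hφ := hφ) (hφ' := hφ') k Q i).2.1
  rw [le_inv_mul_iff₀ hφ]
  exact h2

/-- the normalised `L²` bound of a test -/
theorem dot_le (k : ℕ) (Q : Finset ℤ) (i : ι) :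
    dot Q (G.ψ i) (G.ψ i) * Q.card ≤ (φ⁻¹ * (G.sys c θ φ φ' hθ hφ hφ').W k Q i) ^ 2 := by
  have h1 := l2_sq Q (G.ψ i)
  rw [mul_comm, ← h1]
  exact pow_le_pow_left₀ (l2_nonneg _ _) (l2_le k Q i) 2

end GFam

/-! ### The classes -/

section classes

variable (σ : ℤ) (t : ℝ) (ht : 0 < t) (E : ℝ) (hE : 0 ≤ E)

/-- **The classes of the companions**: the companion of the slot `z` locally in `L²`, the others
uniform at the level `t`, all the energies at most `E`. -/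
def kap (z : Fin 4) (l : Fin 4) : Cls (gr 7 σ) :=
  if l = z then l2c (gr 7 σ) E hE else stcP 7 σ (fc l) (csz_fc_7 l) t ht E hE

theorem kap_self (z : Fin 4) : kap σ t ht E hE z z = l2c (gr 7 σ) E hE := if_pos rfl

theorem kap_ne {z l : Fin 4} (h : l ≠ z) :
    kap σ t ht E hE z l = stcP 7 σ (fc l) (csz_fc_7 l) t ht E hE := if_neg h

theorem kap_c_le (a : Fin 4) (l : Fin 4) : (kap σ t ht E hE a l).c ≤ CgP := by
  unfold kap
  split_ifs
  · exact one_le_CgP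
  · exact le_rfl

theorem kap_ck_le (a : Fin 4) (r : Fin 4) : ck (kap σ t ht E hE a) r ≤ CgP ^ 3 := by
  unfold ck
  refine (prod_le_prod (fun l _ => zero_le_one.trans (kap σ t ht E hE a l).one_le)
    fun l _ => kap_c_le σ t ht E hE a l).trans (le_of_eq ?_)
  rw [prod_const, card_erase_of_mem (mem_univ r), card_univ, Fintype.card_fin]

/-- **All the classes**: any slot, both orientations. -/
def cwG (r : Fin 4) : CW (gr 7 σ) (Fin 4 × Bool) r where
  κ a := kap σ t ht E hE a.1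
  o a := if a.2 then 1 else -1
  ho a := by split_ifs <;> simp
  nrm _ := 1
  nrm_pos _ := one_pos
  C := CgP ^ 3
  one_le := one_le_pow₀ one_le_CgP
  ck_le a := kap_ck_le σ t ht E hE a.1 r

end classes

/-- comparison of the classes at the levels `t ≤ s t'` -/
theorem kap_scale {σ : ℤ} {t t' E E' s : ℝ} {ht : 0 < t} {ht' : 0 < t'} {hE : 0 ≤ E}
    {hE' : 0 ≤ E'} (hs : 1 ≤ s) (h1 : t ≤ s * t') (h2 : E ≤ s ^ 2 * E') (a : Fin 4)
    (l : Fin 4) (k : ℕ) (x : ℤ) (𝒩 : Finset H736.Nd) (A : H736.Nd → ℤ → ℝ)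
    (h : (kap σ t ht E hE a l).ok k ((gr 7 σ).cube k x) 𝒩 A) :
    (kap σ t' ht' E' hE' a l).ok k ((gr 7 σ).cube k x) 𝒩 fun N y => s⁻¹ * A N y := by
  have hs0 : 0 < s := zero_lt_one.trans_le hs
  unfold kap at h ⊢
  split_ifs at h ⊢
  · exact stOk_scale hs0 (fun _ _ _ _ i => i.elim) h2 h
  · have h0 : stOk (sysP 7 σ (fc l) (csz_fc_7 l) t ht) E k 𝒩 A := h
    refine stOk_scale hs0 (fun k y F hF i => ?_) h2 h0
    refine (hF i).trans ?_
    show wP t (PL.H315.cube3 k i.1) i.2 ≤ s * wP t' (PL.H315.cube3 k i.1) i.2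
    rw [← H922.wP_mul]
    unfold wP
    have h3 := H922.pw3_nonneg (PL.H315.cube3 k i.1) i.2
    gcongr

/-- **comparison of the costs** -/
theorem kap_cost_le {σ : ℤ} {t t' E E' s : ℝ} {ht : 0 < t} {ht' : 0 < t'} {hE : 0 ≤ E}
    {hE' : 0 ≤ E'} (hs : 1 ≤ s) (h1 : t ≤ s * t') (h2 : E ≤ s ^ 2 * E') (a : Fin 4)
    {o : ℤ} (ho : o = 1 ∨ o = -1) (r : Fin 4) (ψ : ℤ → ℝ) (k : ℕ) (x : ℤ) :
    cost (kap σ t ht E hE a) o r ψ k ((gr 7 σ).cube k x) ≤
      s ^ 3 * cost (kap σ t' ht' E' hE' a) o r ψ k ((gr 7 σ).cube k x) := by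
  have key := cost_le_cost (kap σ t ht E hE a) (kap σ t' ht' E' hE' a) ho r ψ k x
    (s := fun _ => s) (fun _ => zero_lt_one.trans_le hs)
    (fun l _ 𝒩 A _ h => kap_scale hs h1 h2 a l k x 𝒩 A h)
  rwa [prod_const, card_erase_of_mem (mem_univ r), card_univ, Fintype.card_fin] at key

theorem cst_le {σ : ℤ} {t t' E E' s : ℝ} {ht : 0 < t} {ht' : 0 < t'} {hE : 0 ≤ E}
    {hE' : 0 ≤ E'} (hs : 1 ≤ s) (h1 : t ≤ s * t')
    (h2 : E ≤ s ^ 2 * E') (r : Fin 4) (ψ : ℤ → ℝ) (k : ℕ) (x : ℤ) :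
    (cwG σ t ht E hE r).cst ψ k ((gr 7 σ).cube k x) ≤
      s ^ 3 * (cwG σ t' ht' E' hE' r).cst ψ k ((gr 7 σ).cube k x) := by
  unfold CW.cst
  rw [mul_sum]
  refine sum_le_sum fun a _ => ?_
  have h4 := kap_cost_le (σ := σ) (ht := ht) (ht' := ht') (hE := hE) (hE' := hE') hs h1 h2 a.1
    ((cwG σ t ht E hE r).ho a) r ψ k x
  rw [← mul_div_assoc]
  show _ / (1 : ℝ) ≤ _ / (1 : ℝ)
  rw [div_one, div_one]
  exact h4

/-! ### The parameters of one total system -/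

/-- **The parameters of one total system**: level `t` and energy `E` of the classes, scalar level
`δ`, factors `θ`, `φ`, `φ'` of the generic weight. -/
structure Par where
  t : ℝ
  E : ℝ
  δ : ℝ
  θ : ℝ
  φ : ℝ
  φ' : ℝ
  t_pos : 0 < t
  E_pos : 0 < E
  δ_pos : 0 < δ
  θ_pos : 0 < θ
  φ_pos : 0 < φ
  φ'_nn : 0 ≤ φ'

namespace Par

variable (p : Par) {σ : ℤ} {ι : Type}

/-- the classes -/
def cw (σ : ℤ) (r : Fin 4) : CW (gr 7 σ) (Fin 4 × Bool) r :=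
  cwG σ p.t p.t_pos p.E p.E_pos.le r

/-- **the generic part** -/
def gen (G : GFam (gr 7 σ) ι) (r : Fin 4) : PSys (gr 7 σ) ι :=
  G.sys (p.cw σ r) p.θ p.φ p.φ' p.θ_pos.le p.φ_pos p.φ'_nn

@[simp] theorem gen_ψ (G : GFam (gr 7 σ) ι) (r : Fin 4) : (p.gen G r).ψ = G.ψ := rfl

theorem gen_live (G : GFam (gr 7 σ) ι) (r : Fin 4) (k : ℕ) (i : ι) :
    (p.gen G r).live k i ↔ k ≤ G.top i := Iff.rfl

theorem gen_C (G : GFam (gr 7 σ) ι) (r : Fin 4) : (p.gen G r).C = CgP ^ 3 := rfl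

/-- the bound of the `L²` norms of the tests -/
def K : ℝ := 1 + 2 ^ 7 / p.δ + p.φ⁻¹

theorem K_facts : 1 ≤ p.K ∧ 2 ^ 7 / p.δ ≤ p.K ∧ p.φ⁻¹ ≤ p.K := by
  have h1 : 0 < 2 ^ 7 / p.δ := div_pos (by norm_num) p.δ_pos
  have h2 : 0 < p.φ⁻¹ := inv_pos.2 p.φ_pos
  unfold K
  exact ⟨by linarith, by linarith, by linarith⟩

/-- the total system of one set of parameters, one slot -/
def tot (G : GFam (gr 7 σ) ι) (r : Fin 4) : CSys (gr 7 σ) ((Pt × Tri) ⊕ ι) :=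
  sysPT 7 σ (fc r) (csz_fc_7 r) p.δ p.δ_pos (p.gen G r)

end Par

variable {n : ℕ} {ι : Type}

/-- **The total systems of all the levels.** -/
def mkT (p : ℕ → Par) (G : ∀ b, Fin 4 → GFam (gr 7 (shf (n + 7) b)) ι) : TSys n ι where
  δ j := (p j).δ
  pos j := (p j).δ_pos
  P j b i := (p j).gen (G b i) i
  K j := (p j).K
  le j := (p j).K_facts.2.1
  l2 j b i k x m _ := by
    refine (GFam.dot_le (G := G b i) (c := (p j).cw _ i) (hθ := (p j).θ_pos.le)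
      (hφ := (p j).φ_pos) (hφ' := (p j).φ'_nn) k _ m).trans ?_
    have h1 := (p j).K_facts.2.2
    have h2 : 0 ≤ (GFam.sys (G b i) ((p j).cw _ i) (p j).θ (p j).φ (p j).φ' (p j).θ_pos.le
      (p j).φ_pos (p j).φ'_nn).W k ((gb n b).cube k x) m := PSys.W_nonneg _ _ _ _
    have h3 : 0 < (p j).φ⁻¹ := inv_pos.2 (p j).φ_pos
    exact pow_le_pow_left₀ (mul_nonneg h3.le h2) (mul_le_mul_of_nonneg_right h1 h2) 2

variable {p : ℕ → Par} {G : ∀ b, Fin 4 → GFam (gr 7 (shf (n + 7) b)) ι}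

@[simp] theorem mkT_δ (j : ℕ) : (mkT p G).δ j = (p j).δ := rfl

@[simp] theorem mkT_K (j : ℕ) : (mkT p G).K j = (p j).K := rfl

@[simp] theorem mkT_P (j : ℕ) (b : Bool) (i : Fin 4) :
    (mkT p G).P j b i = (p j).gen (G b i) i := rfl

theorem mkT_C (j : ℕ) (b : Bool) (i : Fin 4) : ((mkT p G).P j b i).C = CgP ^ 3 := rfl

theorem mkT_S (j : ℕ) (b : Bool) (i : Fin 4) : (mkT p G).sys.S j b i = (p j).tot (G b i) i := rfl

/-- **the weights dominate the costs**, classes of other parameters `t' ≤ s t`, `E' ≤ s² E` -/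
theorem gen_cost_le {σ : ℤ} (p : Par) (G : GFam (gr 7 σ) ι) {t' E' s : ℝ} {ht' : 0 < t'}
    {hE' : 0 ≤ E'} (hs : 1 ≤ s) (h1 : t' ≤ s * p.t) (h2 : E' ≤ s ^ 2 * p.E) (z : Fin 4) {o : ℤ}
    (ho : o = 1 ∨ o = -1) (r : Fin 4) (k : ℕ) (x : ℤ) (i : ι) :
    cost (kap σ t' ht' E' hE' z) o r (G.ψ i) k ((gr 7 σ).cube k x) ≤
      s ^ 3 / p.θ * (p.gen G r).W k ((gr 7 σ).cube k x) i := by
  obtain ⟨a, ha⟩ : ∃ a : Bool, (if a then (1 : ℤ) else -1) = o := by
    rcases ho with h | h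
    · exact ⟨true, by simp [h]⟩
    · exact ⟨false, by simp [h]⟩
  have h3 := kap_cost_le (σ := σ) (ht := ht') (ht' := p.t_pos) (hE := hE') (hE' := p.E_pos.le) hs
    h1 h2 z ho r (G.ψ i) k x
  have h4 := GFam.cost_le (G := G) (c := p.cw σ r) (hθ := p.θ_pos.le) (hφ := p.φ_pos)
    (hφ' := p.φ'_nn) p.θ_pos (z, a) k ((gr 7 σ).cube k x) i
  have e1 : (p.cw σ r).o (z, a) = o := ha
  rw [e1] at h4
  have hs0 : 0 ≤ s := zero_le_one.trans hs
  refine h3.trans ((mul_le_mul_of_nonneg_left h4 (pow_nonneg hs0 3)).trans (le_of_eq ?_))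
  show s ^ 3 * (1 / p.θ * _) = _
  rw [← mul_assoc, mul_one_div]
  rfl

/-! ### Comparison of the total systems -/

/-- comparison of the generic weights -/
theorem gen_W_le {σ : ℤ} (G : GFam (gr 7 σ) ι) {p p' : Par} {s C : ℝ} (hs : 1 ≤ s)
    (h1 : p.t ≤ s * p'.t) (h2 : p.E ≤ s ^ 2 * p'.E)
    (h4 : p.θ * s ^ 3 ≤ C * p'.θ) (h5 : p.φ ≤ C * p'.φ) (h6 : p.φ' ≤ C * p'.φ') (r : Fin 4)
    (k : ℕ) (x : ℤ) (i : ι) : (p.gen G r).W k ((gr 7 σ).cube k x) i ≤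
      C * (p'.gen G r).W k ((gr 7 σ).cube k x) i := by
  have e1 : (p.gen G r).W k ((gr 7 σ).cube k x) i =
    p.θ * (p.cw σ r).cst (G.ψ i) k ((gr 7 σ).cube k x) + p.φ * l2 ((gr 7 σ).cube k x) (G.ψ i) +
      p.φ' * G.D k ((gr 7 σ).cube k x) i := rfl
  have e2 : (p'.gen G r).W k ((gr 7 σ).cube k x) i =
    p'.θ * (p'.cw σ r).cst (G.ψ i) k ((gr 7 σ).cube k x) + p'.φ * l2 ((gr 7 σ).cube k x) (G.ψ i) +
      p'.φ' * G.D k ((gr 7 σ).cube k x) i := rfl
  rw [e1, e2, mul_add, mul_add]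
  have c1 : (p.cw σ r).cst (G.ψ i) k ((gr 7 σ).cube k x) ≤
      s ^ 3 * (p'.cw σ r).cst (G.ψ i) k ((gr 7 σ).cube k x) :=
    cst_le hs h1 h2 r (G.ψ i) k x
  have c2 := (p'.cw σ r).cst_nonneg (G.ψ i) k ((gr 7 σ).cube k x)
  have c3 := l2_nonneg ((gr 7 σ).cube k x) (G.ψ i)
  have c4 := G.D_nonneg k ((gr 7 σ).cube k x) i
  have g1 : p.θ * (p.cw σ r).cst (G.ψ i) k ((gr 7 σ).cube k x) ≤
      C * (p'.θ * (p'.cw σ r).cst (G.ψ i) k ((gr 7 σ).cube k x)) := by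
    calc p.θ * (p.cw σ r).cst (G.ψ i) k ((gr 7 σ).cube k x)
        ≤ p.θ * (s ^ 3 * (p'.cw σ r).cst (G.ψ i) k ((gr 7 σ).cube k x)) :=
          mul_le_mul_of_nonneg_left c1 p.θ_pos.le
      _ = p.θ * s ^ 3 * (p'.cw σ r).cst (G.ψ i) k ((gr 7 σ).cube k x) := by ring
      _ ≤ C * p'.θ * (p'.cw σ r).cst (G.ψ i) k ((gr 7 σ).cube k x) :=
          mul_le_mul_of_nonneg_right h4 c2
      _ = _ := by ring
  have g2 : p.φ * l2 ((gr 7 σ).cube k x) (G.ψ i) ≤ C * (p'.φ * l2 ((gr 7 σ).cube k x) (G.ψ i)) := by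
    rw [← mul_assoc]
    exact mul_le_mul_of_nonneg_right h5 c3
  have g3 : p.φ' * G.D k ((gr 7 σ).cube k x) i ≤
      C * (p'.φ' * G.D k ((gr 7 σ).cube k x) i) := by
    rw [← mul_assoc]
    exact mul_le_mul_of_nonneg_right h6 c4
  linarith

/-- **Comparison of the total systems** (H5): `A`-uniform for `p` is `A C`-uniform for `p'`. -/
theorem un_mono {σ : ℤ} (G : GFam (gr 7 σ) ι) {p p' : Par} {s C A : ℝ} (hs : 1 ≤ s)
    (h1 : p.t ≤ s * p'.t) (h2 : p.E ≤ s ^ 2 * p'.E)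
    (h4 : p.θ * s ^ 3 ≤ C * p'.θ) (h5 : p.φ ≤ C * p'.φ) (h6 : p.φ' ≤ C * p'.φ')
    (h7 : p.δ ≤ C * p'.δ) (hA : 0 ≤ A) (r : Fin 4) {ud : ℕ → ℤ → Prop} {F : ℤ → ℝ}
    (hF : Un (p.tot G r) A ud F) : Un (p'.tot G r) (A * C) ud F := by
  intro k y hk i
  have h8 := hF k y hk i
  rcases i with i | i
  · refine h8.trans ?_
    rw [mul_assoc]
    refine mul_le_mul_of_nonneg_left ?_ hA
    show wP p.δ _ _ ≤ C * wP p'.δ _ _
    rw [← H922.wP_mul]
    unfold wP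
    have h9 := H922.pw3_nonneg (PL.H315.cube3 k i.1) i.2
    gcongr
  · refine (le_of_eq_of_le ?_ h8).trans ?_
    · rfl
    · rw [mul_assoc]
      exact mul_le_mul_of_nonneg_left (gen_W_le G hs h1 h2 h4 h5 h6 r k y i) hA

end

end Vale.Agent.P141.H347.Gs
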