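import Vale.Agent.P141.PL.H317.CostDefs

/-!
# P141, line W: gluing of normalised operator norms over squares of mixed scales

`cap_glue`: a matrix which vanishes off a disjoint family of squares `E` inside `Q` and which has
the cap `c E` on every `E` has the cap `C` on `Q` as soon as `∑ |E| (c E)² ≤ |Q| C²`.
`dist_glue`: the same for the squared Hilbert–Schmidt distance to the set of matrices with a cap.
-/

namespace Vale.Agent.P141.H347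

open Finset Vale.Agent.P141.PL Vale.Agent.P141.PL.H317

/-- The square of scale `E.1` with indices `E.2`. -/
noncomputable def sqr (E : ℕ × ℤ × ℤ) : Finset (ℤ × ℤ) := iv E.1 E.2.1 ×ˢ iv E.1 E.2.2

/-- The Hilbert–Schmidt square on a square. -/
noncomputable def hsq (E : ℕ × ℤ × ℤ) (A : ℤ → ℤ → ℝ) : ℝ := ∑ p ∈ sqr E, A p.1 p.2 ^ 2

theorem sum_sqr (E : ℕ × ℤ × ℤ) (f : ℤ → ℤ → ℝ) :
    ∑ p ∈ sqr E, f p.1 p.2 = ∑ x ∈ iv E.1 E.2.1, ∑ y ∈ iv E.1 E.2.2, f x y := by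
  unfold sqr
  rw [sum_product]

theorem cap_abs {k : ℕ} {m1 m2 : ℤ} {c : ℝ} (hc : 0 ≤ c) {A : ℤ → ℤ → ℝ}
    (h : Cap k m1 m2 c A) (u v : ℤ → ℝ) :
    |∑ x ∈ iv k m1, ∑ y ∈ iv k m2, u x * v y * A x y| ≤
      c * 2 ^ k * √((∑ x ∈ iv k m1, u x ^ 2) * ∑ y ∈ iv k m2, v y ^ 2) := by
  refine abs_le_of_sq_le_sq ?_ (by positivity)
  rw [mul_pow, Real.sq_sqrt (mul_nonneg (sum_nonneg fun _ _ => sq_nonneg _)
    (sum_nonneg fun _ _ => sq_nonneg _))]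
  exact (h u v).trans (le_of_eq (by ring))

/-- **Gluing of caps.** -/
theorem cap_glue {𝓔 : Finset (ℕ × ℤ × ℤ)} {Q : ℕ × ℤ × ℤ} {c : ℕ × ℤ × ℤ → ℝ} {C : ℝ}
    {A : ℤ → ℤ → ℝ}
    (hd : (𝓔 : Set (ℕ × ℤ × ℤ)).PairwiseDisjoint sqr) (hs : ∀ E ∈ 𝓔, sqr E ⊆ sqr Q)
    (hc : ∀ E ∈ 𝓔, 0 ≤ c E) (hC : 0 ≤ C)
    (hA : ∀ E ∈ 𝓔, Cap E.1 E.2.1 E.2.2 (c E) A)
    (h0 : ∀ p ∈ sqr Q, (∀ E ∈ 𝓔, p ∉ sqr E) → A p.1 p.2 = 0)
    (hsum : ∑ E ∈ 𝓔, 4 ^ E.1 * c E ^ 2 ≤ 4 ^ Q.1 * C ^ 2) :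
    Cap Q.1 Q.2.1 Q.2.2 C A := by
  classical
  intro u v
  set U : ℝ := ∑ x ∈ iv Q.1 Q.2.1, u x ^ 2 with hU
  set V : ℝ := ∑ y ∈ iv Q.1 Q.2.2, v y ^ 2 with hV
  have hU0 : 0 ≤ U := sum_nonneg fun _ _ => sq_nonneg _
  have hV0 : 0 ≤ V := sum_nonneg fun _ _ => sq_nonneg _
  -- the sum over the square is the sum over the family
  have e1 : ∑ x ∈ iv Q.1 Q.2.1, ∑ y ∈ iv Q.1 Q.2.2, u x * v y * A x y =
      ∑ E ∈ 𝓔, ∑ x ∈ iv E.1 E.2.1, ∑ y ∈ iv E.1 E.2.2, u x * v y * A x y := by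
    rw [← sum_sqr Q fun x y => u x * v y * A x y]
    have h1 : ∑ p ∈ 𝓔.biUnion sqr, u p.1 * v p.2 * A p.1 p.2 =
        ∑ p ∈ sqr Q, u p.1 * v p.2 * A p.1 p.2 := by
      refine sum_subset (biUnion_subset.2 hs) fun p hp hn => ?_
      rw [h0 p hp fun E hE hpE => hn (mem_biUnion.2 ⟨E, hE, hpE⟩), mul_zero]
    rw [← h1, sum_biUnion hd]
    exact sum_congr rfl fun E _ => sum_sqr E fun x y => u x * v y * A x y
  -- products of the squares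
  have e2 : ∑ E ∈ 𝓔, (∑ x ∈ iv E.1 E.2.1, u x ^ 2) * ∑ y ∈ iv E.1 E.2.2, v y ^ 2 ≤ U * V := by
    have h1 : ∀ E : ℕ × ℤ × ℤ, (∑ x ∈ iv E.1 E.2.1, u x ^ 2) * ∑ y ∈ iv E.1 E.2.2, v y ^ 2 =
        ∑ p ∈ sqr E, u p.1 ^ 2 * v p.2 ^ 2 := by
      intro E
      rw [sum_sqr E fun x y => u x ^ 2 * v y ^ 2, sum_mul_sum]
    rw [hU, hV, h1 Q, sum_congr rfl fun E _ => h1 E, ← sum_biUnion hd]
    exact sum_le_sum_of_subset_of_nonneg (biUnion_subset.2 hs) fun p _ _ => by positivity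
  have h2 : |∑ x ∈ iv Q.1 Q.2.1, ∑ y ∈ iv Q.1 Q.2.2, u x * v y * A x y| ≤
      C * 2 ^ Q.1 * √(U * V) := by
    rw [e1]
    refine (abs_sum_le_sum_abs _ _).trans ?_
    have h3 : ∀ E ∈ 𝓔, |∑ x ∈ iv E.1 E.2.1, ∑ y ∈ iv E.1 E.2.2, u x * v y * A x y| ≤
        (c E * 2 ^ E.1) * √((∑ x ∈ iv E.1 E.2.1, u x ^ 2) * ∑ y ∈ iv E.1 E.2.2, v y ^ 2) :=
      fun E hE => cap_abs (hc E hE) (hA E hE) u v
    refine (sum_le_sum h3).trans ?_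
    refine (Real.sum_mul_le_sqrt_mul_sqrt 𝓔 _ _).trans ?_
    have h4 : ∑ E ∈ 𝓔, (c E * 2 ^ E.1) ^ 2 ≤ (C * 2 ^ Q.1) ^ 2 := by
      have e3 : ∀ (x : ℝ) (k : ℕ), (x * 2 ^ k) ^ 2 = 4 ^ k * x ^ 2 := by
        intro x k
        rw [mul_pow, ← pow_mul, mul_comm k 2, pow_mul]
        norm_num
        ring
      rw [e3 C Q.1, sum_congr rfl fun E _ => e3 (c E) E.1]
      exact hsum
    have h5 : ∑ E ∈ 𝓔, √((∑ x ∈ iv E.1 E.2.1, u x ^ 2) * ∑ y ∈ iv E.1 E.2.2, v y ^ 2) ^ 2 ≤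
        U * V := by
      refine le_trans (le_of_eq (sum_congr rfl fun E _ => ?_)) e2
      exact Real.sq_sqrt (mul_nonneg (sum_nonneg fun _ _ => sq_nonneg _)
        (sum_nonneg fun _ _ => sq_nonneg _))
    refine mul_le_mul ((Real.sqrt_le_sqrt h4).trans ?_) (Real.sqrt_le_sqrt h5)
      (Real.sqrt_nonneg _) (by positivity)
    rw [Real.sqrt_sq (by positivity)]
  have h6 := mul_self_le_mul_self (abs_nonneg _) h2
  rw [abs_mul_abs_self] at h6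
  have h7 := Real.mul_self_sqrt (mul_nonneg hU0 hV0)
  calc (∑ x ∈ iv Q.1 Q.2.1, ∑ y ∈ iv Q.1 Q.2.2, u x * v y * A x y) ^ 2
      ≤ (C * 2 ^ Q.1 * √(U * V)) * (C * 2 ^ Q.1 * √(U * V)) := by
        rw [sq]; exact h6
    _ = (C * 2 ^ Q.1) ^ 2 * (√(U * V) * √(U * V)) := by ring
    _ = (C * 2 ^ Q.1) ^ 2 * U * V := by rw [h7]; ring

/-- `A` is on the square `Q` at squared Hilbert–Schmidt distance (sum) at most `d` from the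
matrices with cap `c`. -/
def Near (Q : ℕ × ℤ × ℤ) (c d : ℝ) (A : ℤ → ℤ → ℝ) : Prop :=
  ∃ B : ℤ → ℤ → ℝ, Cap Q.1 Q.2.1 Q.2.2 c B ∧ ∑ p ∈ sqr Q, (A p.1 p.2 - B p.1 p.2) ^ 2 ≤ d

theorem cap_congr {k : ℕ} {m1 m2 : ℤ} {c : ℝ} {A B : ℤ → ℤ → ℝ}
    (h : ∀ x ∈ iv k m1, ∀ y ∈ iv k m2, A x y = B x y) (hA : Cap k m1 m2 c A) :
    Cap k m1 m2 c B := by
  intro u v
  have e : ∑ x ∈ iv k m1, ∑ y ∈ iv k m2, u x * v y * B x y =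
      ∑ x ∈ iv k m1, ∑ y ∈ iv k m2, u x * v y * A x y :=
    sum_congr rfl fun x hx => sum_congr rfl fun y hy => by rw [h x hx y hy]
  rw [e]
  exact hA u v

/-- **Gluing of the distances**: the family `𝓔` tiles the square `Q`. -/
theorem dist_glue {𝓔 : Finset (ℕ × ℤ × ℤ)} {Q : ℕ × ℤ × ℤ} {c d : ℕ × ℤ × ℤ → ℝ} {C : ℝ}
    {A : ℤ → ℤ → ℝ}
    (hd : (𝓔 : Set (ℕ × ℤ × ℤ)).PairwiseDisjoint sqr) (hs : 𝓔.biUnion sqr = sqr Q)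
    (hc : ∀ E ∈ 𝓔, 0 ≤ c E) (hC : 0 ≤ C) (hA : ∀ E ∈ 𝓔, Near E (c E) (d E) A)
    (hsum : ∑ E ∈ 𝓔, 4 ^ E.1 * c E ^ 2 ≤ 4 ^ Q.1 * C ^ 2) :
    Near Q C (∑ E ∈ 𝓔, d E) A := by
  classical
  choose! B hB hBd using hA
  have hex : ∀ p : ℤ × ℤ, ∃ E, p ∈ sqr Q → E ∈ 𝓔 ∧ p ∈ sqr E := by
    intro p
    by_cases hp : p ∈ sqr Q
    · rw [← hs, mem_biUnion] at hp
      obtain ⟨E, hE, hpE⟩ := hp
      exact ⟨E, fun _ => ⟨hE, hpE⟩⟩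
    · exact ⟨(0, 0, 0), fun h => absurd h hp⟩
  choose e he using hex
  have hu : ∀ E ∈ 𝓔, ∀ p ∈ sqr E, e p = E := by
    intro E hE p hp
    have hpQ : p ∈ sqr Q := by rw [← hs]; exact mem_biUnion.2 ⟨E, hE, hp⟩
    by_contra hne
    have h1 := hd (he p hpQ).1 hE hne
    exact (Finset.disjoint_left.1 h1) (he p hpQ).2 hp
  refine ⟨fun x y => B (e (x, y)) x y, ?_, ?_⟩
  · refine cap_glue hd (fun E hE => ?_) hc hC (fun E hE => ?_) (fun p hp hn => ?_) hsum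
    · rw [← hs]
      exact subset_biUnion_of_mem sqr hE
    · refine cap_congr (fun x hx y hy => ?_) (hB E hE)
      rw [hu E hE (x, y) (mem_product.2 ⟨hx, hy⟩)]
    · rw [← hs, mem_biUnion] at hp
      obtain ⟨E, hE, hpE⟩ := hp
      exact absurd hpE (hn E hE)
  · rw [← hs, sum_biUnion hd]
    refine sum_le_sum fun E hE => ?_
    refine le_trans (le_of_eq (sum_congr rfl fun p hp => ?_)) (hBd E hE)
    have h1 : e (p.1, p.2) = E := hu E hE p hp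
    simp only [h1]

end Vale.Agent.P141.H347
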