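import Vale.Agent.P141.H347.Cell1
import Vale.Agent.P141.PL.H318.Sys1

/-!
# P141, line W: local weights of the scalar atoms on cells (Whitney cubes)
-/

namespace Vale.Agent.P141.H347

open Finset Vale.Agent.P141.H315 Vale.Agent.P141.PL.H318
open Vale.Agent.P141.PL.H315 (cube3 mem_cube3 gz card_cube3 atm e12 e13 e23 wt wt_nonneg Nm
  Nm_nonneg Tri avg mx mx_nonneg avg_prod_Nm_le)
open Vale.Agent.P141.PL.H95 (gr mem_gr card_gr)
open Vale.Agent.P141.PL (Pt el)

noncomputable section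

open scoped Classical

/-! ### densities which are superadditive under dyadic subdivision -/

/-- A superadditive weight density on the dyadic cubes of a face. -/
structure Dens where
  /-- the density on the cube of scale `k` containing `y` -/
  D : ℕ → Pt → Tri → ℝ
  nonneg : ∀ k y u, 0 ≤ D k y u
  const : ∀ k y y' u, y' ∈ cube3 k y → D k y' u = D k y u
  step : ∀ k p u, ∑ y ∈ cube3 (k + 1) p, D k y u ≤ ∑ y ∈ cube3 (k + 1) p, D (k + 1) y u

/-- Superadditivity over a family of cubes of mixed scales. -/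
theorem Dens.fam (d : Dens) (u : Tri) {B : Pt → Prop} [DecidablePred B] {M : Pt → ℕ}
    (hF : Fam gz B M) : ∀ l p, (∀ y ∈ cube3 l p, B y → M y ≤ l) →
      ∑ y ∈ cube3 l p, (if B y then d.D (M y) y u else 0) ≤ ∑ y ∈ cube3 l p, d.D l y u := by
  have top : ∀ l p, (∃ z ∈ cube3 l p, B z ∧ M z = l) →
      ∑ y ∈ cube3 l p, (if B y then d.D (M y) y u else 0) ≤ ∑ y ∈ cube3 l p, d.D l y u := by
    rintro l p ⟨z, hz, hB, hM⟩
    refine sum_le_sum fun y hy => ?_
    have hy' : y ∈ gz.cube (M z) z := by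
      rw [hM, gz.eq_of_mem l p z hz]; exact hy
    obtain ⟨h1, h2⟩ := hF z hB y hy'
    rw [if_pos h1, h2, hM]
  intro l
  induction l with
  | zero =>
    intro p hm
    by_cases hex : ∃ z ∈ cube3 0 p, B z
    · obtain ⟨z, hz, hB⟩ := hex
      exact top 0 p ⟨z, hz, hB, Nat.le_zero.mp (hm z hz hB)⟩
    · push Not at hex
      rw [sum_eq_zero fun z hz => if_neg (hex z hz)]
      exact sum_nonneg fun y _ => d.nonneg _ _ _
  | succ l ih =>
    intro p hm
    by_cases hex : ∃ z ∈ cube3 (l + 1) p, B z ∧ M z = l + 1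
    · exact top _ p hex
    · push Not at hex
      refine le_trans ?_ (d.step l p u)
      refine gz.sum_le_sum_of_cubes (Nat.le_succ l) p _ _ fun y hy => ?_
      have hs : gz.cube l y ⊆ gz.cube (l + 1) p := gz.cube_subset (Nat.le_succ l) hy
      refine ih y fun z hz hB => ?_
      have h1 := hm z (hs hz) hB
      have h2 := hex z (hs hz) hB
      omega

theorem Dens.sum_mono (d : Dens) (u : Tri) {k l : ℕ} (h : k ≤ l) (p : Pt) :
    ∑ y ∈ cube3 l p, d.D k y u ≤ ∑ y ∈ cube3 l p, d.D l y u := by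
  have := d.fam u (B := fun _ => True) (M := fun _ => k) (fun z _ y _ => ⟨trivial, rfl⟩) l p
    (fun _ _ _ => h)
  simpa using this

/-- The density of the weights `wt`. -/
def wtD (δ e : ℝ) (hδ : 0 ≤ δ) (h0 : 0 ≤ e) (h1 : e ≤ 1) : Dens where
  D k y u := δ * (Nm e (cube3 k y) (e12 u.1) * Nm e (cube3 k y) (e13 u.2.1) *
    Nm e (cube3 k y) (e23 u.2.2))
  nonneg k y u := by
    have := Nm_nonneg e (cube3 k y) (e12 u.1)
    have := Nm_nonneg e (cube3 k y) (e13 u.2.1)
    have := Nm_nonneg e (cube3 k y) (e23 u.2.2)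
    positivity
  const k y y' u h := by rw [show cube3 k y' = cube3 k y from gz.eq_of_mem k y y' h]
  step k p u := by
    have h5 := avg_prod_Nm_le (Nat.le_succ k) h0 h1 u p
    have hc : (0 : ℝ) < (cube3 (k + 1) p).card := by
      exact_mod_cast card_pos.mpr ⟨p, gz.mem (k + 1) p⟩
    unfold avg at h5
    rw [inv_mul_le_iff₀ hc] at h5
    have h6 : ∀ y ∈ cube3 (k + 1) p, δ * (Nm e (cube3 (k + 1) y) (e12 u.1) *
        Nm e (cube3 (k + 1) y) (e13 u.2.1) * Nm e (cube3 (k + 1) y) (e23 u.2.2)) =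
        δ * (Nm e (cube3 (k + 1) p) (e12 u.1) *
        Nm e (cube3 (k + 1) p) (e13 u.2.1) * Nm e (cube3 (k + 1) p) (e23 u.2.2)) := by
      intro y hy
      rw [show cube3 (k + 1) y = cube3 (k + 1) p from gz.eq_of_mem (k + 1) p y hy]
    rw [sum_congr rfl h6, sum_const, nsmul_eq_mul, ← mul_sum]
    have := mul_le_mul_of_nonneg_left h5 hδ
    refine this.trans (le_of_eq ?_)
    ring

theorem wtD_sum (δ e : ℝ) (hδ : 0 ≤ δ) (h0 : 0 ≤ e) (h1 : e ≤ 1) (k : ℕ) (p : Pt) (u : Tri) :
    ∑ y ∈ cube3 k p, (wtD δ e hδ h0 h1).D k y u = wt δ e (cube3 k p) u := by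
  rw [sum_congr rfl fun y hy => (wtD δ e hδ h0 h1).const k p y u hy, sum_const, nsmul_eq_mul]
  unfold wt wtD
  ring

/-! ### Whitney scales -/

/-- The cube of scale `i` containing `y` lies over the cell of scale `k` of `el c y`. -/
def Ov (c0 : ℕ) (σ : ℤ) (c : Pt) (k i : ℕ) (y : Pt) : Prop :=
  ∀ y' ∈ cube3 i y, ixs c0 σ k (el c y') = ixs c0 σ k (el c y)

/-- The Whitney scale of `y` relative to its cell of scale `k`. -/
def whs (c0 : ℕ) (σ : ℤ) (c : Pt) (k : ℕ) (y : Pt) : ℕ :=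
  Nat.findGreatest (fun i => Ov c0 σ c k i y) k

variable {c0 : ℕ} {σ : ℤ} {c : Pt} {k : ℕ}

theorem Ov_zero (y : Pt) : Ov c0 σ c k 0 y := by
  intro y' hy'
  have h1 : y' = y := by
    rw [mem_cube3] at hy'
    have h : ∀ a b : ℤ, a ∈ Vale.Agent.P141.PL.H315.iv 0 b → a = b := by
      intro a b hab
      rw [Vale.Agent.P141.PL.H315.mem_iv] at hab
      simpa using hab
    exact Prod.ext (h _ _ hy'.1) (Prod.ext (h _ _ hy'.2.1) (h _ _ hy'.2.2))
  rw [h1]

theorem Ov.mono {i j : ℕ} (hij : i ≤ j) {y : Pt} (h : Ov c0 σ c k j y) : Ov c0 σ c k i y :=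
  fun y' hy' => h y' (gz.sub_le hij y hy')

theorem Ov_congr {i : ℕ} {y y' : Pt} (hy' : y' ∈ cube3 i y)
    (hE : ixs c0 σ k (el c y') = ixs c0 σ k (el c y)) :
    Ov c0 σ c k i y' ↔ Ov c0 σ c k i y := by
  unfold Ov
  rw [show cube3 i y' = cube3 i y from gz.eq_of_mem i y y' hy', hE]

theorem whs_le (y : Pt) : whs c0 σ c k y ≤ k := Nat.findGreatest_le _

theorem whs_ov (y : Pt) : Ov c0 σ c k (whs c0 σ c k y) y :=
  Nat.findGreatest_spec (P := fun i => Ov c0 σ c k i y) (Nat.zero_le k) (Ov_zero y)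

theorem le_whs {i : ℕ} (hi : i ≤ k) {y : Pt} (h : Ov c0 σ c k i y) : i ≤ whs c0 σ c k y :=
  Nat.le_findGreatest (P := fun i => Ov c0 σ c k i y) hi h

theorem whs_const {y y' : Pt} (h : y' ∈ cube3 (whs c0 σ c k y) y) :
    whs c0 σ c k y' = whs c0 σ c k y := by
  have hE : ixs c0 σ k (el c y') = ixs c0 σ k (el c y) := whs_ov y y' h
  refine le_antisymm ?_ ?_
  · by_contra hcon
    push Not at hcon
    have h1 : y' ∈ cube3 (whs c0 σ c k y') y := gz.sub_le hcon.le y h
    have h2 := (Ov_congr h1 hE).1 (whs_ov y')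
    exact absurd (le_whs (whs_le y') h2) (not_le.2 hcon)
  · exact le_whs (whs_le y) ((Ov_congr h hE).2 (whs_ov y))

/-! ### the local weights -/

/-- The local weight, on the cell of scale `k` of `s`, of the atom `(q, u)` born at scale `j`. -/
def lwt (d : Dens) (c0 : ℕ) (σ : ℤ) (c : Pt) (j k : ℕ) (s : ℤ) (i : Pt × Tri) : ℝ :=
  ∑ y ∈ cube3 j i.1, if ixs c0 σ k (el c y) = ixs c0 σ k s then
    d.D (whs c0 σ c k y) y i.2 else 0

theorem lwt_nonneg (d : Dens) (j k : ℕ) (s : ℤ) (i : Pt × Tri) : 0 ≤ lwt d c0 σ c j k s i :=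
  sum_nonneg fun y _ => by
    split_ifs
    · exact d.nonneg _ _ _
    · exact le_rfl

/-- **The local weights of a system of push-forwards.** -/
def lwD (d : Dens) (c0 : ℕ) (σ : ℤ) (c : Pt) (S : CSys (gr c0 σ) (Pt × Tri))
    (hS : ∀ j s i, ∑ y ∈ cube3 j i.1, d.D j y i.2 ≤ S.W j ((gr c0 σ).cube j s) i) : LW S where
  ω j k s i := lwt d c0 σ c j k s i / cd (gr c0 σ) k s
  nonneg j k s i := div_nonneg (lwt_nonneg d j k s i) (Nat.cast_nonneg _)
  const j k x y i h := by
    have h1 : cd (gr c0 σ) k y = cd (gr c0 σ) k x := by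
      unfold cd; rw [(gr c0 σ).eq_of_mem k x y h]
    rw [h1]
    unfold lwt
    rw [mem_gs.mp h]
  pack j x i A m hF hm := by
    refine le_trans ?_ (hS j x i)
    -- the family of the Whitney cubes
    set M : Pt → ℕ := fun y => whs c0 σ c (m (el c y)) y with hM
    set B : Pt → Prop := fun y => A (el c y) ∧ el c y ∈ (gr c0 σ).cube j x with hB
    have hBm : ∀ y, B y → m (el c y) ≤ j := fun y hy => hm _ hy.2 hy.1
    have hfam : Fam gz B M := by
      intro y hy y' hy'
      have h1 : ixs c0 σ (m (el c y)) (el c y') = ixs c0 σ (m (el c y)) (el c y) :=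
        whs_ov y y' hy'
      have h2 : el c y' ∈ (gr c0 σ).cube (m (el c y)) (el c y) := mem_gs.mpr h1
      obtain ⟨h3, h4⟩ := hF _ hy.1 _ h2
      refine ⟨⟨h3, ?_⟩, ?_⟩
      · exact (gr c0 σ).cube_subset (hBm y hy) hy.2 h2
      · have h5 : M y' = whs c0 σ c (m (el c y)) y' := by rw [hM]; simp only [h4]
        rw [h5]
        exact whs_const hy'
    have h1 := d.fam i.2 hfam j i.1 fun y _ hy => (whs_le y).trans (hBm y hy)
    refine le_trans ?_ h1
    -- exchange of the sums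
    have h2 : ∀ z ∈ (gr c0 σ).cube j x, (if A z then lwt d c0 σ c j (m z) z i /
        cd (gr c0 σ) (m z) z else 0) = ∑ y ∈ cube3 j i.1,
        (if A z ∧ ixs c0 σ (m z) (el c y) = ixs c0 σ (m z) z then
          d.D (whs c0 σ c (m z) y) y i.2 / cd (gr c0 σ) (m z) z else 0) := by
      intro z _
      by_cases hA : A z
      · rw [if_pos hA]
        unfold lwt
        rw [sum_div]
        refine sum_congr rfl fun y _ => ?_
        by_cases h3 : ixs c0 σ (m z) (el c y) = ixs c0 σ (m z) z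
        · rw [if_pos h3, if_pos ⟨hA, h3⟩]
        · rw [if_neg h3, if_neg fun h => h3 h.2, zero_div]
      · rw [if_neg hA]
        exact (sum_eq_zero fun y _ => if_neg fun h => hA h.1).symm
    rw [sum_congr rfl h2, sum_comm]
    refine sum_le_sum fun y _ => ?_
    by_cases hy : B y
    · rw [if_pos hy]
      have h3 : ∀ z ∈ (gr c0 σ).cube j x,
          (if A z ∧ ixs c0 σ (m z) (el c y) = ixs c0 σ (m z) z then
            d.D (whs c0 σ c (m z) y) y i.2 / cd (gr c0 σ) (m z) z else 0) =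
          (if z ∈ (gr c0 σ).cube (m (el c y)) (el c y) then
            d.D (M y) y i.2 / cd (gr c0 σ) (m (el c y)) (el c y) else 0) := by
        intro z _
        by_cases h4 : z ∈ (gr c0 σ).cube (m (el c y)) (el c y)
        · obtain ⟨h5, h6⟩ := hF _ hy.1 _ h4
          have h7 := mem_gs.mp h4
          rw [if_pos h4, if_pos]
          · rw [h6]
            congr 1
            unfold cd
            rw [(gr c0 σ).eq_of_mem _ _ _ h4]
          · exact ⟨h5, by rw [h6]; exact h7.symm⟩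
        · rw [if_neg h4, if_neg]
          rintro ⟨h5, h6⟩
          have h7 : el c y ∈ (gr c0 σ).cube (m z) z := mem_gs.mpr h6
          obtain ⟨_, h8⟩ := hF _ h5 _ h7
          exact h4 (mem_gs.mpr (by rw [h8]; exact h6.symm))
      rw [sum_congr rfl h3, ← sum_filter, sum_const, nsmul_eq_mul]
      have h9 : ((gr c0 σ).cube j x).filter
          (fun z => z ∈ (gr c0 σ).cube (m (el c y)) (el c y)) =
          (gr c0 σ).cube (m (el c y)) (el c y) := by
        ext z
        rw [mem_filter]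
        exact ⟨fun h => h.2, fun h => ⟨(gr c0 σ).cube_subset (hBm y hy) hy.2 h, h⟩⟩
      rw [h9]
      have h10 : (0 : ℝ) < (((gr c0 σ).cube (m (el c y)) (el c y)).card : ℝ) := by
        exact_mod_cast card_pos.mpr ⟨_, (gr c0 σ).mem _ _⟩
      unfold cd
      rw [mul_div_cancel₀ _ h10.ne']
    · rw [if_neg hy]
      refine le_of_eq (sum_eq_zero fun z hz => if_neg ?_)
      rintro ⟨h5, h6⟩
      have h7 : el c y ∈ (gr c0 σ).cube (m z) z := mem_gs.mpr h6
      obtain ⟨h8, _⟩ := hF _ h5 _ h7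
      exact hy ⟨h8, (gr c0 σ).cube_subset (hm z hz h5) hz h7⟩

end

end Vale.Agent.P141.H347
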