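import Vale.Agent.P141.H347.Lw1
import Vale.Agent.P141.PL.H315.NodeRole
import Vale.Agent.P141.PL.H560.Transfer3

/-!
# P141, line W: the cost of an atom at the nodes inside one cell is paid by its local weight
-/

namespace Vale.Agent.P141.H347

open Finset Vale.Agent.P141.H315 Vale.Agent.P141.PL.H318
open Vale.Agent.P141.PL.H315 (cube3 mem_cube3 gz card_cube3 atm e12 e13 e23 wt wt_nonneg Nm
  Nm_nonneg Tri avg mx mx_nonneg avg_prod_Nm_le put put_self put_ne prod_put ndL ndL_apply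
  sum_avg_cubes)
open Vale.Agent.P141.PL.H95 (gr mem_gr card_gr)
open Vale.Agent.P141.PL.H314 (nd Win nd_congr)
open Vale.Agent.P141.PL.H620
open Vale.Agent.P141.PL.H560 (pf)
open Vale.Agent.P141.PL (Pt el fc)

noncomputable section

open scoped Classical

/-! ### what a node reads -/

/-- The values read by a node. -/
theorem ell_core {o : ℤ} (ho : o = 1 ∨ o = -1) {k : ℕ} {v : ℤ} {x : Fin 4 → ℕ}
    (hx : x ∈ pts k) (j : Fin 4) :
    2 ^ k * (v - 3) ≤ ell j (pt k (nn o v 0 0) x) ∧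
      ell j (pt k (nn o v 0 0) x) ≤ 2 ^ k * (v + 9) := by
  rw [ell_nn]
  unfold pts at hx
  rw [Fintype.mem_piFinset] at hx
  have h2 : (1 : ℤ) ≤ 2 ^ k := by exact_mod_cast Nat.one_le_two_pow
  have hx' : ∀ i, (0 : ℤ) ≤ x i ∧ (x i : ℤ) ≤ 2 ^ k - 1 := by
    intro i
    have := hx i
    rw [mem_range] at this
    have h3 : ((x i : ℕ) : ℤ) < ((2 ^ k : ℕ) : ℤ) := by exact_mod_cast this
    push_cast at h3
    exact ⟨by positivity, by linarith⟩
  have h0 := hx' 0
  have h1 := hx' 1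
  have h3 := hx' 2
  have h4 := hx' 3
  simp only [mo, uu, Fin.sum_univ_four]
  generalize hA : (2 : ℤ) ^ k = A at *
  generalize (x 0 : ℤ) = x0 at *
  generalize (x 1 : ℤ) = x1 at *
  generalize (x 2 : ℤ) = x2 at *
  generalize (x 3 : ℤ) = x3 at *
  have e0 : ((0 : Fin 4) : ℕ) = 0 := rfl
  have e1 : ((1 : Fin 4) : ℕ) = 1 := rfl
  have e2 : ((2 : Fin 4) : ℕ) = 2 := rfl
  have e3 : ((3 : Fin 4) : ℕ) = 3 := rfl
  rw [e0, e1, e2, e3]
  fin_cases j <;> rcases ho with rfl | rfl <;> simp <;> constructor <;> nlinarith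

/-- The core of the window of a node. -/
def Cor (k : ℕ) (v s : ℤ) : Prop := 2 ^ k * (v - 3) ≤ s ∧ s ≤ 2 ^ k * (v + 9)

theorem nd_congr_core {o : ℤ} (ho : o = 1 ∨ o = -1) {k : ℕ} {v : ℤ} {f g : Fin 4 → ℤ → ℝ}
    (h : ∀ j, ∀ y, Cor k v y → f j y = g j y) : nd o k v f = nd o k v g := by
  unfold nd loc1
  congr 2
  refine sum_congr rfl fun x hx => ?_
  congr 1
  exact prod_congr rfl fun j _ => h j _ (ell_core ho hx j)

theorem ndL_congr_core {o : ℤ} (ho : o = 1 ∨ o = -1) {k : ℕ} {v : ℤ} (r : Fin 4)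
    (h : Fin 4 → ℤ → ℝ) {φ ψ : ℤ → ℝ} (hh : ∀ y, Cor k v y → φ y = ψ y) :
    ndL o k v r h φ = ndL o k v r h ψ := by
  rw [ndL_apply, ndL_apply]
  refine nd_congr_core ho fun j y hy => ?_
  by_cases hj : j = r
  · subst hj; rw [put_self, put_self]; exact hh y hy
  · rw [put_ne hj, put_ne hj]

/-- All the face cubes of the scale of the node which it reads lie over its window. -/
theorem el_mem_Win {c : Pt} (hc : csz c ≤ 6) {k : ℕ} {v : ℤ} {y y' : Pt}
    (hy : Cor k v (el c y)) (h : y' ∈ cube3 k y) : el c y' ∈ Win k v := by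
  have h1 := el_diff (c := c) h (gz.mem k y)
  have h2 : (1 : ℤ) ≤ 2 ^ k := by exact_mod_cast Nat.one_le_two_pow
  have h3 : csz c * (2 ^ k - 1) ≤ 6 * (2 ^ k - 1) :=
    mul_le_mul_of_nonneg_right hc (by linarith)
  have h4 := abs_le.mp (h1.trans h3)
  obtain ⟨h5, h6⟩ := hy
  unfold Win
  rw [mem_Ico]
  constructor <;> nlinarith

/-! ### Whitney decomposition of an atom -/

variable {c0 : ℕ} {σ : ℤ} {c : Pt}

/-- The points over the cell `(l, s)` of Whitney scale `i`. -/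
def WP (c0 : ℕ) (σ : ℤ) (c : Pt) (l : ℕ) (s : ℤ) (i : ℕ) (y : Pt) : Prop :=
  ixs c0 σ l (el c y) = ixs c0 σ l s ∧ whs c0 σ c l y = i

theorem WP_congr {l : ℕ} {s : ℤ} {i : ℕ} {y y' : Pt} (h : y' ∈ cube3 i y) :
    WP c0 σ c l s i y' ↔ WP c0 σ c l s i y := by
  have key : ∀ y y' : Pt, y' ∈ cube3 i y → WP c0 σ c l s i y → WP c0 σ c l s i y' := by
    rintro y y' h ⟨h1, h2⟩
    have h3 : y' ∈ cube3 (whs c0 σ c l y) y := by rw [h2]; exact h
    exact ⟨(whs_ov y y' h3).trans h1, (whs_const h3).trans h2⟩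
  refine ⟨fun h' => key y' y ?_ h', key y y' h⟩
  have h4 : cube3 i y' = cube3 i y := gz.eq_of_mem i y y' h
  rw [h4]
  exact gz.mem i y

theorem sum_WP {l : ℕ} {s : ℤ} {i K : ℕ} (hi : i ≤ K) (p : Pt) (f : Pt → ℝ) :
    ∑ y ∈ cube3 K p, (if WP c0 σ c l s i y then f y else 0) =
      ∑ y ∈ cube3 K p, (if WP c0 σ c l s i y then
        ((8 : ℝ) ^ i)⁻¹ * ∑ y' ∈ cube3 i y, f y' else 0) := by
  have h1 := sum_avg_cubes gz hi p (fun y => if WP c0 σ c l s i y then f y else 0)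
  change ∑ y ∈ cube3 K p, avg (cube3 i y) (fun y => if WP c0 σ c l s i y then f y else 0) =
    ∑ y ∈ cube3 K p, (if WP c0 σ c l s i y then f y else 0) at h1
  rw [← h1]
  refine sum_congr rfl fun y _ => ?_
  unfold avg
  have h2 : ((cube3 i y).card : ℝ) = 8 ^ i := by rw [card_cube3]; push_cast; ring
  rw [h2]
  by_cases hy : WP c0 σ c l s i y
  · rw [if_pos hy]
    congr 1
    exact sum_congr rfl fun y' hy' => if_pos ((WP_congr hy').2 hy)
  · rw [if_neg hy, sum_eq_zero fun y' hy' => if_neg fun h' => hy ((WP_congr hy').1 h'), mul_zero]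

/-- The part of Whitney scale `i` of the push-forward. -/
theorem part_eq {l : ℕ} {s : ℤ} {i K : ℕ} (hi : i ≤ K) (p : Pt) (u : Tri) (s' : ℤ) :
    ∑ y ∈ cube3 K p, (if WP c0 σ c l s i y then (if el c y = s' then atm u y else 0) else 0) =
      ∑ y ∈ cube3 K p, (if WP c0 σ c l s i y then ((8 : ℝ) ^ i)⁻¹ * pf c i y u s' else 0) :=
  sum_WP hi p _

/-- **Whitney decomposition at the nodes.** -/
theorem pf_core {l K : ℕ} {s : ℤ} (hlK : l ≤ K) (hc : csz c ≤ 6) (p : Pt) (u : Tri) {k : ℕ}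
    {v : ℤ} (hkl : k ≤ l) (hW : ∀ y ∈ Win k v, ixs c0 σ l y = ixs c0 σ l s) {s' : ℤ}
    (hs' : Cor k v s') :
    pf c K p u s' = ∑ i ∈ Icc k l, ∑ y ∈ cube3 K p,
      (if WP c0 σ c l s i y then ((8 : ℝ) ^ i)⁻¹ * pf c i y u s' else 0) := by
  have h1 : ∀ i ∈ Icc k l, ∑ y ∈ cube3 K p,
      (if WP c0 σ c l s i y then ((8 : ℝ) ^ i)⁻¹ * pf c i y u s' else 0) =
      ∑ y ∈ cube3 K p, (if WP c0 σ c l s i y then (if el c y = s' then atm u y else 0)
        else 0) := by
    intro i hi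
    rw [mem_Icc] at hi
    exact (part_eq (hi.2.trans hlK) p u s').symm
  rw [sum_congr rfl h1, sum_comm]
  unfold pf
  refine sum_congr rfl fun y _ => ?_
  by_cases hy : el c y = s'
  · have hcor : Cor k v (el c y) := by rw [hy]; exact hs'
    have hov : Ov c0 σ c l k y := fun y' hy' => by
      rw [hW _ (el_mem_Win hc hcor hy'), hW _ (el_mem_Win hc hcor (gz.mem k y))]
    have h2 : k ≤ whs c0 σ c l y := le_whs hkl hov
    rw [if_pos hy, sum_eq_single (whs c0 σ c l y)]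
    · rw [if_pos]
      exact ⟨hW _ (el_mem_Win hc hcor (gz.mem k y)), rfl⟩
    · intro i _ hi
      exact if_neg fun h' => hi h'.2.symm
    · intro h'
      exact absurd (mem_Icc.2 ⟨h2, whs_le y⟩) h'
  · rw [if_neg hy]
    exact (sum_eq_zero fun i _ => by split_ifs <;> rfl).symm

/-- **The cost inside one cell.**  The nodes of `𝒩` have windows inside the cell `(l, s)`; the
companions `h N` may depend on the node.  If on every face cube over the cell the cost is paid by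
the weight, then the cost of an atom of a larger scale is paid by its local weight. -/
theorem local_cost (d : Dens) {o : ℤ} (ho : o = 1 ∨ o = -1) (r : Fin 4) (hc : csz c ≤ 6)
    {l K : ℕ} (hlK : l ≤ K) (s : ℤ) (𝒩 : Finset (ℕ × ℤ)) (h𝒩 : ∀ N ∈ 𝒩, N.1 ≤ l)
    (hW : ∀ N ∈ 𝒩, ∀ y ∈ Win N.1 N.2, ixs c0 σ l y = ixs c0 σ l s)
    (h : ℕ × ℤ → Fin 4 → ℤ → ℝ) (u : Tri) {P : ℝ}
    (hcost : ∀ i ≤ l, ∀ z : Pt, (∀ y ∈ cube3 i z, ixs c0 σ l (el c y) = ixs c0 σ l s) →
      ∑ N ∈ 𝒩.filter (fun N => N.1 ≤ i), |nd o N.1 N.2 (put r (h N) (pf c i z u))| ≤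
        P * ∑ y ∈ cube3 i z, d.D i y u) (p : Pt) :
    ∑ N ∈ 𝒩, |nd o N.1 N.2 (put r (h N) (pf c K p u))| ≤
      P * lwt d c0 σ c K l s (p, u) := by
  -- one node
  have h1 : ∀ N ∈ 𝒩, |nd o N.1 N.2 (put r (h N) (pf c K p u))| ≤
      ∑ i ∈ range (l + 1), ∑ y ∈ cube3 K p, (if WP c0 σ c l s i y then ((8 : ℝ) ^ i)⁻¹ *
        (if N.1 ≤ i then |nd o N.1 N.2 (put r (h N) (pf c i y u))| else 0) else 0) := by
    intro N hN
    have e1 : nd o N.1 N.2 (put r (h N) (pf c K p u)) =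
        ndL o N.1 N.2 r (h N) (∑ i ∈ Icc N.1 l, ∑ y ∈ cube3 K p,
          (if WP c0 σ c l s i y then ((8 : ℝ) ^ i)⁻¹ else 0) • pf c i y u) := by
      rw [← ndL_apply]
      refine ndL_congr_core ho r (h N) fun s' hs' => ?_
      rw [pf_core hlK hc p u (h𝒩 N hN) (hW N hN) hs', Finset.sum_apply]
      refine sum_congr rfl fun i _ => ?_
      rw [Finset.sum_apply]
      refine sum_congr rfl fun y _ => ?_
      rw [Pi.smul_apply, smul_eq_mul]
      split_ifs <;> ring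
    rw [e1, map_sum]
    refine (abs_sum_le_sum_abs _ _).trans ?_
    have e2 : ∀ i ∈ Icc N.1 l, |ndL o N.1 N.2 r (h N) (∑ y ∈ cube3 K p,
        (if WP c0 σ c l s i y then ((8 : ℝ) ^ i)⁻¹ else 0) • pf c i y u)| ≤
        ∑ y ∈ cube3 K p, (if WP c0 σ c l s i y then ((8 : ℝ) ^ i)⁻¹ *
        (if N.1 ≤ i then |nd o N.1 N.2 (put r (h N) (pf c i y u))| else 0) else 0) := by
      intro i hi
      rw [mem_Icc] at hi
      rw [map_sum]
      refine (abs_sum_le_sum_abs _ _).trans (sum_le_sum fun y _ => ?_)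
      rw [map_smul, ndL_apply, smul_eq_mul, abs_mul]
      by_cases hy : WP c0 σ c l s i y
      · rw [if_pos hy, if_pos hy, if_pos hi.1, abs_of_nonneg (by positivity)]
      · rw [if_neg hy, if_neg hy, abs_zero, zero_mul]
    refine (sum_le_sum e2).trans (sum_le_sum_of_subset_of_nonneg ?_ fun i _ _ => ?_)
    · intro i hi
      rw [mem_Icc] at hi
      rw [mem_range]
      omega
    · refine sum_nonneg fun y _ => ?_
      split_ifs
      · positivity
      · positivity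
      · exact le_rfl
  refine (sum_le_sum h1).trans ?_
  rw [sum_comm]
  have h2 : ∀ i ∈ range (l + 1), ∑ N ∈ 𝒩, ∑ y ∈ cube3 K p, (if WP c0 σ c l s i y then
      ((8 : ℝ) ^ i)⁻¹ * (if N.1 ≤ i then |nd o N.1 N.2 (put r (h N) (pf c i y u))| else 0)
        else 0) ≤ ∑ y ∈ cube3 K p, (if WP c0 σ c l s i y then P * d.D i y u else 0) := by
    intro i hi
    rw [mem_range] at hi
    rw [sum_comm]
    refine sum_le_sum fun y _ => ?_
    by_cases hy : WP c0 σ c l s i y
    · simp only [if_pos hy]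
      rw [← mul_sum, ← sum_filter]
      have h3 : ∀ y' ∈ cube3 i y, ixs c0 σ l (el c y') = ixs c0 σ l s := fun y' hy' =>
        ((WP_congr hy').2 hy).1
      have h4 := hcost i (by omega) y h3
      have h5 : ∑ y' ∈ cube3 i y, d.D i y' u = 8 ^ i * d.D i y u := by
        rw [sum_congr rfl fun y' hy' => d.const i y y' u hy', sum_const, nsmul_eq_mul,
          card_cube3]
        push_cast
        ring
      rw [h5] at h4
      have h6 : (0 : ℝ) < 8 ^ i := by positivity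
      rw [inv_mul_le_iff₀ h6]
      refine h4.trans (le_of_eq ?_)
      ring
    · simp only [if_neg hy, sum_const_zero]
      exact le_rfl
  refine (sum_le_sum h2).trans ?_
  rw [sum_comm]
  unfold lwt
  rw [mul_sum]
  refine le_of_eq (sum_congr rfl fun y _ => ?_)
  by_cases hy : ixs c0 σ l (el c y) = ixs c0 σ l s
  · rw [if_pos hy, sum_eq_single (whs c0 σ c l y)]
    · rw [if_pos]
      exact ⟨hy, rfl⟩
    · intro i _ hi
      exact if_neg fun h' => hi h'.2.symm
    · intro h'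
      exact absurd (mem_range.2 (Nat.lt_succ_of_le (whs_le y))) h'
  · rw [if_neg hy, mul_zero]
    exact sum_eq_zero fun i _ => if_neg fun h' => hy h'.1

theorem csz_fc_le (r : Fin 4) : csz (fc r) ≤ 6 := by
  fin_cases r <;> simp [csz, fc]

end

end Vale.Agent.P141.H347
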