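import Vale.Agent.P141.H347.FirstS

/-!
# P141, line W, scale invariant version: the top hypothesis from the steps

`StepHyp`: the steps for one family of total systems (constants independent of the number of
scales); `topHyp2_of_step`, `boundedAt_444_of_step`.
-/

namespace Vale.Agent.P141.H347

open Finset
open Vale.Agent.P141.H782 (gb)
open Vale.Agent.P141.H736 (cost)
open Vale.Agent.P141.H444 (FirstB2 StepB2 TSys EnL EnOut enL_of_en l2c TopHyp2
  boundedAt_444_of_topHyp2)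

noncomputable section

open scoped Classical

/-- the costs of the generic tests of the level `j` with three companions which are only locally
in `L²` -/
def CostL {n : ℕ} {κ : Type} (t : TSys n κ) (j : ℕ) (cg : ℝ) : Prop :=
  ∀ o : ℤ, (o = 1 ∨ o = -1) → ∀ b m k x i, (t.P j b m).live k i →
    cost (fun _ => l2c (gb n b) 140 (by norm_num)) o m ((t.P j b m).ψ i) k
      ((gb n b).cube k x) ≤ cg * (t.P j b m).W k ((gb n b).cube k x) i

/-- **THE STEPS** for one family of total systems: levels `δ j → 0`, constants `K j` of the `L²`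
norms, constants `cg j` of the costs; `ρ, C, CP` are absolute. -/
def StepHyp : Prop := ∃ (ρ C CP : ℝ) (δ K cg : ℕ → ℝ), 0 < ρ ∧ ρ < 1 ∧ 0 ≤ C ∧ 1 ≤ CP ∧
  (∀ j, δ j ≤ 1) ∧ (∀ ε : ℝ, 0 < ε → ∃ J, ∀ j, J ≤ j → δ j ≤ ε) ∧ (∀ j, 0 ≤ cg j) ∧
  ∀ (n : ℕ) (P : ℝ), 0 ≤ P → Root2 n P → ∃ (κ : Type) (t : TSys n κ), t.δ = δ ∧ t.K = K ∧
    (∀ j b m, (t.P j b m).C ≤ CP) ∧ (∀ j, CostL t j (cg j)) ∧
    ∀ f o V' V 𝒩, Dat2 n f o V' V 𝒩 → ∀ j, 1 ≤ j → StepB2 t.sys ρ C j (1 + P) f o V' V 𝒩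

/-- **The top hypothesis from the steps.** -/
theorem topHyp2_of_step {CE : ℝ} (hCE : 0 ≤ CE) (hE : EnL CE) (h : StepHyp) : TopHyp2 := by
  obtain ⟨ρ, C, CP, δ, K, cg, hρ0, hρ1, hC, hCP, hδ1, hδ, hcg, h⟩ := h
  obtain ⟨C1, hC1, hF⟩ := Fi.firstB2_sys hCE hE hCP
  refine ⟨ρ, max C C1, fun j0 => C1 * (16 * (CE * (140 * √140)) / δ j0 + 2 * CP * cg j0) *
    (2 * K j0) ^ 2 * (ρ ^ j0)⁻¹, hρ0.le, hρ1, hC.trans (le_max_left _ _), ?_⟩
  intro j0 hj0 n P hP hroot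
  obtain ⟨κ, t, hδt, hKt, hPC, hcost, hS⟩ := h n P hP hroot
  refine ⟨δ, _, t.sys, fun j => ?_, hδ, ?_, fun f o L V 𝒩 hd => ⟨?_, fun j hj => ?_⟩⟩
  · rw [← hδt]; exact (t.pos j).le
  · rw [← hδt]; exact t.scal2_sys
  · have h1 := hF n P hP hroot κ t j0 ρ hρ0 hρ1 (by rw [hδt]; exact hδ1 j0) (hPC j0) (cg j0)
      (hcg j0) (hcost j0) f o L V 𝒩 hd (max C C1) (le_max_right _ _)
    rw [hδt, hKt] at h1
    exact h1
  · obtain ⟨𝒞, h1, h2⟩ := hS f o L V 𝒩 hd j (hj0.trans hj)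
    have hρj : 0 ≤ ρ ^ j := by positivity
    refine ⟨𝒞, ⟨h1.cell, fun b => (h1.bad b).trans ?_⟩, fun b i => (h2 b i).trans ?_⟩
    · refine mul_le_mul_of_nonneg_right (mul_le_mul_of_nonneg_right (le_max_left _ _) hρj)
        (by positivity)
    · refine mul_le_mul_of_nonneg_right ?_ (by positivity)
      refine mul_le_mul_of_nonneg_right ?_ (by positivity)
      exact mul_le_mul_of_nonneg_right (le_max_left _ _) hρj

/-- **The boundedness at `(4, 4, 4)` from (E) at the level one and the steps.** -/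
theorem boundedAt_444_of_step {CE : ℝ} (hCE : 0 ≤ CE) (hE : EnL CE) (h : StepHyp) :
    Vale.Agent.P141.BoundedAt 4 4 4 (4 / 3) :=
  boundedAt_444_of_topHyp2 (topHyp2_of_step hCE hE h)

/-- the same from (E) -/
theorem boundedAt_444_of_en_step {C ε : ℝ} (hC : 0 ≤ C) (hE : EnOut C ε) (h : StepHyp) :
    Vale.Agent.P141.BoundedAt 4 4 4 (4 / 3) :=
  boundedAt_444_of_step (by positivity) (enL_of_en hE) h

end

end Vale.Agent.P141.H347
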