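import Vale.Agent.P141.PL.H560.NodeCost
import Vale.Agent.P141.H922.Floor

/-!
# P141: transfer of the cost to the nodes, companions depending on the NODE

The companions `F1 F2 F3 : ℕ → ℤ → Pt → ℝ` depend on the scale and on the node `nu c m` of the box
`bx0 o m`; the weight functional is abstract (`Wf`).
-/

namespace Vale.Agent.P141.H347.Tr

open Finset Vale.Agent.P141.PL Vale.Agent.P141.PL.H560
open Vale.Agent.P141.PL.H321 (t12 t23 u12 u23)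
open Vale.Agent.P141.PL.H314 (nd)
open Vale.Agent.P141.PL.H315 (put)

noncomputable section

variable (c : LF)

/-- the node of the box `bx0 o m` -/
def nu (m : Pt) : ℤ := m.1 - h1 c m.2.1 m.2.2

theorem nu_mk (w a b : ℤ) : nu c (w + h1 c a b, a, b) = w := by unfold nu; ring

/-- The sum over the nodes and the translated boxes is a sum over the boxes over two cubes. -/
theorem sum_nodes_le {K : ℕ} (B : Pt) (φ : Pt → ℝ) (o : ℤ) (F1 F2 F3 : ℕ → ℤ → Pt → ℝ)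
    (S : Finset (ℕ × ℤ)) (hS : ∀ s ∈ S, 1 ≤ s.1 ∧ s.1 ≤ K) (q : ℤ × ℤ) :
    ∑ s ∈ S, (2 ^ s.1 : ℝ)⁻¹ * ∑ ab ∈ iv (K - s.1) B.2.1 ×ˢ iv (K - s.1) B.2.2,
        |loc s.1 (bxm c o s.2 ab.1 ab.2) (fun p => cut K B φ (sh c q.1 q.2 p))
          (F1 s.1 s.2) (F2 s.1 s.2) (F3 s.1 s.2)| ≤
      ∑ t ∈ {ix K (2 ^ K * B.1 - h1 c q.1 q.2), ix K (2 ^ K * B.1 - h1 c q.1 q.2) + 1},
        ∑ k ∈ Icc 1 K, (2 ^ k : ℝ)⁻¹ * ∑ m ∈ cbs K (t, B.2.1, B.2.2) k,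
          |loc k (bx0 o m) (fun p => cut K B φ (sh c q.1 q.2 p)) (F1 k (nu c m)) (F2 k (nu c m))
            (F3 k (nu c m))| := by
  classical
  set t0 : ℤ := ix K (2 ^ K * B.1 - h1 c q.1 q.2) with ht0
  set g : ℕ → Pt → ℝ := fun k m =>
    |loc k (bx0 o m) (fun p => cut K B φ (sh c q.1 q.2 p)) (F1 k (nu c m)) (F2 k (nu c m))
      (F3 k (nu c m))| with hg
  have hg0 : ∀ k m, 0 ≤ g k m := fun k m => abs_nonneg _
  have hmap : ∀ s ∈ S, s.1 ∈ Icc 1 K := fun s hs => mem_Icc.mpr (hS s hs)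
  rw [← sum_fiberwise_of_maps_to hmap, sum_comm (s := ({t0, t0 + 1} : Finset ℤ))]
  refine sum_le_sum fun k hk => ?_
  rw [mem_Icc] at hk
  set I2 := iv (K - k) B.2.1 ×ˢ iv (K - k) B.2.2 with hI2
  have e1 : ∑ s ∈ S with s.1 = k, (2 ^ s.1 : ℝ)⁻¹ *
        ∑ ab ∈ iv (K - s.1) B.2.1 ×ˢ iv (K - s.1) B.2.2,
          |loc s.1 (bxm c o s.2 ab.1 ab.2) (fun p => cut K B φ (sh c q.1 q.2 p))
            (F1 s.1 s.2) (F2 s.1 s.2) (F3 s.1 s.2)| =
      (2 ^ k : ℝ)⁻¹ * ∑ x ∈ (S.filter (fun s => s.1 = k)) ×ˢ I2,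
        g k (x.1.2 + h1 c x.2.1 x.2.2, x.2.1, x.2.2) := by
    rw [sum_product, mul_sum]
    refine sum_congr rfl fun s hs => ?_
    rw [mem_filter] at hs
    rw [hs.2]
    congr 1
    refine sum_congr rfl fun ab _ => ?_
    simp only [hg]
    rw [bxm_eq, nu_mk]
  have e2 : ∑ t ∈ ({t0, t0 + 1} : Finset ℤ), (2 ^ k : ℝ)⁻¹ *
        ∑ m ∈ cbs K (t, B.2.1, B.2.2) k, g k m =
      (2 ^ k : ℝ)⁻¹ * ∑ t ∈ ({t0, t0 + 1} : Finset ℤ), ∑ m ∈ cbs K (t, B.2.1, B.2.2) k, g k m := by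
    rw [mul_sum]
  rw [e1]
  refine le_trans ?_ (le_of_eq e2.symm)
  refine mul_le_mul_of_nonneg_left ?_ (by positivity)
  set ψ : (ℕ × ℤ) × (ℤ × ℤ) → Pt := fun x => (x.1.2 + h1 c x.2.1 x.2.2, x.2.1, x.2.2) with hψ
  have hinj : Set.InjOn ψ ((S.filter (fun s => s.1 = k)) ×ˢ I2 : Finset _) := by
    intro x hx y hy hxy
    rw [mem_coe, mem_product, mem_filter] at hx hy
    simp only [hψ, Prod.mk.injEq] at hxy
    obtain ⟨a1, a2, a3⟩ := hxy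
    have e : x.2 = y.2 := Prod.ext a2 a3
    rw [a2, a3] at a1
    have a4 : x.1.2 = y.1.2 := by linarith
    exact Prod.ext (Prod.ext (hx.1.2.trans hy.1.2.symm) a4) e
  have e3 : ∑ x ∈ (S.filter (fun s => s.1 = k)) ×ˢ I2,
        g k (x.1.2 + h1 c x.2.1 x.2.2, x.2.1, x.2.2) =
      ∑ m ∈ ((S.filter (fun s => s.1 = k)) ×ˢ I2).image ψ, g k m :=
    (sum_image hinj).symm
  rw [e3]
  set U : Finset Pt := cbs K (t0, B.2.1, B.2.2) k ∪ cbs K (t0 + 1, B.2.1, B.2.2) k with hU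
  have e4 : ∑ m ∈ ((S.filter (fun s => s.1 = k)) ×ˢ I2).image ψ, g k m ≤ ∑ m ∈ U, g k m := by
    rw [← sum_filter_ne_zero]
    refine sum_le_sum_of_subset_of_nonneg ?_ fun m _ _ => hg0 k m
    intro m hm
    rw [mem_filter, mem_image] at hm
    obtain ⟨⟨x, hx, rfl⟩, hne⟩ := hm
    rw [mem_product, mem_filter, hI2, mem_product] at hx
    have hex : ∃ p ∈ cb k (rf0 (bx0 o (ψ x))), cut K B φ (sh c q.1 q.2 p) ≠ 0 := by
      by_contra hcon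
      push Not at hcon
      apply hne
      simp only [hg]
      rw [loc_eq_zero0 hcon, abs_zero]
    obtain ⟨p, hp, hp0⟩ := hex
    have hmem : sh c q.1 q.2 p ∈ cb K B := by
      by_contra hh
      exact hp0 (cut_of_not_mem hh)
    unfold cb at hmem hp
    rw [mem_product, mem_product] at hmem hp
    have b1 := mem_iv_bounds hmem.1
    simp only [sh] at b1
    have p1 : p.1 ∈ iv k (ψ x).1 := hp.1
    have hmid : (ψ x).1 ∈ iv (K - k) (ix K p.1) := by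
      rw [mem_iv] at p1 ⊢
      rw [← p1, ix_ix]
      congr 1; omega
    have hix : ix K p.1 = t0 ∨ ix K p.1 = t0 + 1 := by
      have h2 : (0 : ℤ) < 2 ^ K := by positivity
      have ha := mem_iv_bounds (self_mem_iv K p.1)
      have hb := mem_iv_bounds (self_mem_iv K (2 ^ K * B.1 - h1 c q.1 q.2))
      rw [← ht0] at hb
      have c1 : 2 ^ K * t0 < 2 ^ K * ix K p.1 + 2 ^ K := by linarith
      have c2 : 2 ^ K * ix K p.1 < 2 ^ K * t0 + 2 ^ K + 2 ^ K := by linarith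
      have c1' : t0 < ix K p.1 + 1 := by
        have : 2 ^ K * t0 < 2 ^ K * (ix K p.1 + 1) := by linarith
        exact lt_of_mul_lt_mul_left this h2.le
      have c2' : ix K p.1 < t0 + 2 := by
        have : 2 ^ K * ix K p.1 < 2 ^ K * (t0 + 2) := by linarith
        exact lt_of_mul_lt_mul_left this h2.le
      omega
    rw [hU, mem_union]
    unfold cbs
    simp only [mem_product]
    rcases hix with h | h
    · left; rw [h] at hmid; exact ⟨hmid, hx.2.1, hx.2.2⟩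
    · right; rw [h] at hmid; exact ⟨hmid, hx.2.1, hx.2.2⟩
  refine e4.trans ?_
  have hne : t0 ≠ t0 + 1 := by omega
  rw [sum_pair hne]
  have h5 := sum_union_inter (s₁ := cbs K (t0, B.2.1, B.2.2) k)
    (s₂ := cbs K (t0 + 1, B.2.1, B.2.2) k) (f := g k)
  have h6 : 0 ≤ ∑ m ∈ cbs K (t0, B.2.1, B.2.2) k ∩ cbs K (t0 + 1, B.2.1, B.2.2) k, g k m :=
    sum_nonneg fun m _ => hg0 k m
  rw [hU]
  linarith

/-- **Transfer, general form**: the sum over the nodes is at most `8` times the largest cost of a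
translated and cut function on a cube of scale `K`. -/
theorem transfer_gen {K : ℕ} (B : Pt) (φ : Pt → ℝ) (o : ℤ) (F1 F2 F3 : ℕ → ℤ → Pt → ℝ)
    (hI : ∀ k v, Inv c (F1 k v) (F2 k v) (F3 k v))
    (S : Finset (ℕ × ℤ)) (hS : ∀ s ∈ S, 1 ≤ s.1 ∧ s.1 ≤ K) {X : ℝ}
    (hX : ∀ q ∈ T K, ∀ t : ℤ, ∑ k ∈ Icc 1 K, (2 ^ k : ℝ)⁻¹ * ∑ m ∈ cbs K (t, B.2.1, B.2.2) k,
      |loc k (bx0 o m) (fun p => cut K B φ (sh c q.1 q.2 p)) (F1 k (nu c m)) (F2 k (nu c m))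
        (F3 k (nu c m))| ≤ X) :
    ∑ s ∈ S, (8 ^ s.1 : ℝ)⁻¹ * |loc s.1 (o - 2 - s.2, s.2, 0, 0)
      (fun p => push c K B φ (lf c p)) (F1 s.1 s.2) (F2 s.1 s.2) (F3 s.1 s.2)| ≤ 8 * X := by
  have hT0 : (0, 0) ∈ T K := by
    unfold T
    rw [mem_product, mem_Ioo]
    have : (0 : ℤ) < 2 ^ K := by positivity
    constructor <;> constructor <;> simp
  have hX0 : 0 ≤ X := le_trans (by positivity) (hX (0, 0) hT0 0)
  calc ∑ s ∈ S, (8 ^ s.1 : ℝ)⁻¹ * |loc s.1 (o - 2 - s.2, s.2, 0, 0)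
        (fun p => push c K B φ (lf c p)) (F1 s.1 s.2) (F2 s.1 s.2) (F3 s.1 s.2)|
      ≤ ∑ s ∈ S, (4 ^ K : ℝ)⁻¹ * ∑ q ∈ T K, (2 ^ s.1 : ℝ)⁻¹ *
        ∑ ab ∈ iv (K - s.1) B.2.1 ×ˢ iv (K - s.1) B.2.2,
          |loc s.1 (bxm c o s.2 ab.1 ab.2) (fun p => cut K B φ (sh c q.1 q.2 p))
            (F1 s.1 s.2) (F2 s.1 s.2) (F3 s.1 s.2)| :=
        sum_le_sum fun s hs => node_le c (hS s hs).1 (hS s hs).2 B φ o s.2 (hI s.1 s.2)
    _ = (4 ^ K : ℝ)⁻¹ * ∑ q ∈ T K, ∑ s ∈ S, (2 ^ s.1 : ℝ)⁻¹ *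
        ∑ ab ∈ iv (K - s.1) B.2.1 ×ˢ iv (K - s.1) B.2.2,
          |loc s.1 (bxm c o s.2 ab.1 ab.2) (fun p => cut K B φ (sh c q.1 q.2 p))
            (F1 s.1 s.2) (F2 s.1 s.2) (F3 s.1 s.2)| := by
        rw [← mul_sum, sum_comm]
    _ ≤ (4 ^ K : ℝ)⁻¹ * ∑ q ∈ T K, 2 * X := by
        refine mul_le_mul_of_nonneg_left (sum_le_sum fun q hq => ?_) (by positivity)
        refine (sum_nodes_le c B φ o F1 F2 F3 S hS q).trans ?_
        have hne : ix K (2 ^ K * B.1 - h1 c q.1 q.2) ≠ ix K (2 ^ K * B.1 - h1 c q.1 q.2) + 1 := by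
          omega
        rw [sum_pair hne]
        have a1 := hX q hq (ix K (2 ^ K * B.1 - h1 c q.1 q.2))
        have a2 := hX q hq (ix K (2 ^ K * B.1 - h1 c q.1 q.2) + 1)
        linarith
    _ = (4 ^ K : ℝ)⁻¹ * (T K).card * (2 * X) := by
        rw [sum_const, nsmul_eq_mul]; ring
    _ ≤ (4 ^ K : ℝ)⁻¹ * (4 * 4 ^ K) * (2 * X) := by
        gcongr
        exact card_T_le K
    _ = 8 * X := by
        have : (4 : ℝ) ^ K ≠ 0 := by positivity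
        field_simp
        ring

end

end Vale.Agent.P141.H347.Tr
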