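import Vale.Agent.P141.H347.Tr3
import Vale.Agent.P141.H922.PairW

/-!
# P141: the pair weight `wP` as a weight functional (`Wf`)

* `avg_cs_le`, `avg_e12'`, `avg_e13'`, `avg_e23'`: averages of `φ (u)` for arbitrary `φ ≥ 0`,
  `φ 0 = 0`, under translation and cut;
* `wf_wP`.
-/

namespace Vale.Agent.P141.H347.Tr

open Finset Vale.Agent.P141.PL Vale.Agent.P141.PL.H560
open Vale.Agent.P141.PL.H321 (t12 t23 u12 u23)
open Vale.Agent.P141.H922 (n2 n4 nN n2_nonneg n4_nonneg nN_nonneg pw3 pw3_nonneg wP wP_nonneg)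

noncomputable section

/-- averages of a function of a translated and cut function -/
theorem avg_cs_le {φ : ℝ → ℝ} (h0 : φ 0 = 0) (hφ : ∀ x, 0 ≤ φ x) {Q Q' : Finset (ℤ × ℤ)}
    (hc : Q'.card = Q.card) (h : ℤ × ℤ) (u : ℤ × ℤ → ℝ) :
    H315.avg Q' (fun x => φ (cs Q h u x)) ≤ H315.avg Q (fun x => φ (u x)) := by
  classical
  unfold H315.avg
  rw [hc]
  refine mul_le_mul_of_nonneg_left ?_ (by positivity)
  set τ : ℤ × ℤ → ℤ × ℤ := fun w => (w.1 + h.1, w.2 + h.2) with hτ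
  have e1 : ∑ x ∈ Q', φ (cs Q h u x) = ∑ x ∈ Q'.filter (fun x => τ x ∈ Q), φ (u (τ x)) := by
    rw [sum_filter]
    refine sum_congr rfl fun x _ => ?_
    split_ifs with hx
    · rw [cs_of_mem hx]
    · rw [cs_of_not_mem hx, h0]
  rw [e1]
  have hinj : Set.InjOn τ (Q'.filter (fun x => τ x ∈ Q) : Finset _) := by
    intro x _ y _ hxy
    simp only [hτ, Prod.mk.injEq, add_left_inj] at hxy
    exact Prod.ext hxy.1 hxy.2
  rw [← sum_image (f := fun y => φ (u y)) hinj]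
  refine sum_le_sum_of_subset_of_nonneg ?_ fun _ _ _ => hφ _
  intro y hy
  rw [mem_image] at hy
  obtain ⟨x, hx, rfl⟩ := hy
  exact (mem_filter.mp hx).2

theorem avg_e12' (k : ℕ) (φ : ℝ → ℝ) (u : ℤ × ℤ → ℝ) (p : Pt) :
    H315.avg (H315.cube3 k p) (fun q => φ (H315.e12 u q)) =
      H315.avg (H315.iv k p.1 ×ˢ H315.iv k p.2.1) fun w => φ (u w) := by
  unfold H315.avg H315.cube3 H315.e12
  rw [H315.sum_box12 _ _ _ (fun w => φ (u w)), Finset.card_product, Finset.card_product,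
    Finset.card_product]
  have h1 := H315.card_pos_iv k p.1
  have h2 := H315.card_pos_iv k p.2.1
  have h3 := H315.card_pos_iv k p.2.2
  push_cast
  field_simp

theorem avg_e13' (k : ℕ) (φ : ℝ → ℝ) (u : ℤ × ℤ → ℝ) (p : Pt) :
    H315.avg (H315.cube3 k p) (fun q => φ (H315.e13 u q)) =
      H315.avg (H315.iv k p.1 ×ˢ H315.iv k p.2.2) fun w => φ (u w) := by
  unfold H315.avg H315.cube3 H315.e13
  rw [H315.sum_box13 _ _ _ (fun w => φ (u w)), Finset.card_product, Finset.card_product,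
    Finset.card_product]
  have h1 := H315.card_pos_iv k p.1
  have h2 := H315.card_pos_iv k p.2.1
  have h3 := H315.card_pos_iv k p.2.2
  push_cast
  field_simp

theorem avg_e23' (k : ℕ) (φ : ℝ → ℝ) (u : ℤ × ℤ → ℝ) (p : Pt) :
    H315.avg (H315.cube3 k p) (fun q => φ (H315.e23 u q)) =
      H315.avg (H315.iv k p.2.1 ×ˢ H315.iv k p.2.2) fun w => φ (u w) := by
  unfold H315.avg H315.cube3 H315.e23
  rw [H315.sum_box23 _ _ _ (fun w => φ (u w)), Finset.card_product, Finset.card_product]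
  have h1 := H315.card_pos_iv k p.1
  have h2 := H315.card_pos_iv k p.2.1
  have h3 := H315.card_pos_iv k p.2.2
  push_cast
  field_simp

/-! ### the norms `n2`, `n4`, `nN` -/

theorem n2_e12 (k : ℕ) (u : ℤ × ℤ → ℝ) (p : Pt) :
    n2 (H315.cube3 k p) (H315.e12 u) = n2 (H315.iv k p.1 ×ˢ H315.iv k p.2.1) u := by
  unfold n2; rw [avg_e12' k (fun x => x ^ 2) u p]

theorem n2_e13 (k : ℕ) (u : ℤ × ℤ → ℝ) (p : Pt) :
    n2 (H315.cube3 k p) (H315.e13 u) = n2 (H315.iv k p.1 ×ˢ H315.iv k p.2.2) u := by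
  unfold n2; rw [avg_e13' k (fun x => x ^ 2) u p]

theorem n2_e23 (k : ℕ) (u : ℤ × ℤ → ℝ) (p : Pt) :
    n2 (H315.cube3 k p) (H315.e23 u) = n2 (H315.iv k p.2.1 ×ˢ H315.iv k p.2.2) u := by
  unfold n2; rw [avg_e23' k (fun x => x ^ 2) u p]

theorem n4_e12 (k : ℕ) (u : ℤ × ℤ → ℝ) (p : Pt) :
    n4 (H315.cube3 k p) (H315.e12 u) = n4 (H315.iv k p.1 ×ˢ H315.iv k p.2.1) u := by
  unfold H922.n4; rw [avg_e12' k (fun x => x ^ 4) u p]

theorem n4_e13 (k : ℕ) (u : ℤ × ℤ → ℝ) (p : Pt) :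
    n4 (H315.cube3 k p) (H315.e13 u) = n4 (H315.iv k p.1 ×ˢ H315.iv k p.2.2) u := by
  unfold H922.n4; rw [avg_e13' k (fun x => x ^ 4) u p]

theorem n4_e23 (k : ℕ) (u : ℤ × ℤ → ℝ) (p : Pt) :
    n4 (H315.cube3 k p) (H315.e23 u) = n4 (H315.iv k p.2.1 ×ˢ H315.iv k p.2.2) u := by
  unfold H922.n4; rw [avg_e23' k (fun x => x ^ 4) u p]

theorem nN_e12 (k : ℕ) (u : ℤ × ℤ → ℝ) (p : Pt) :
    nN (H315.cube3 k p) (H315.e12 u) = nN (H315.iv k p.1 ×ˢ H315.iv k p.2.1) u := by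
  unfold nN; rw [n2_e12, n4_e12]

theorem nN_e13 (k : ℕ) (u : ℤ × ℤ → ℝ) (p : Pt) :
    nN (H315.cube3 k p) (H315.e13 u) = nN (H315.iv k p.1 ×ˢ H315.iv k p.2.2) u := by
  unfold nN; rw [n2_e13, n4_e13]

theorem nN_e23 (k : ℕ) (u : ℤ × ℤ → ℝ) (p : Pt) :
    nN (H315.cube3 k p) (H315.e23 u) = nN (H315.iv k p.2.1 ×ˢ H315.iv k p.2.2) u := by
  unfold nN; rw [n2_e23, n4_e23]

theorem n2_cs_le {Q Q' : Finset (ℤ × ℤ)} (hc : Q'.card = Q.card) (h : ℤ × ℤ) (u : ℤ × ℤ → ℝ) :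
    n2 Q' (cs Q h u) ≤ n2 Q u :=
  Real.sqrt_le_sqrt (avg_cs_le (φ := fun x => x ^ 2) (by norm_num) (fun x => sq_nonneg x) hc h u)

theorem n4_cs_le {Q Q' : Finset (ℤ × ℤ)} (hc : Q'.card = Q.card) (h : ℤ × ℤ) (u : ℤ × ℤ → ℝ) :
    n4 Q' (cs Q h u) ≤ n4 Q u :=
  Real.sqrt_le_sqrt (Real.sqrt_le_sqrt (avg_cs_le (φ := fun x => x ^ 4) (by norm_num)
    (fun x => by positivity) hc h u))

theorem nN_cs_le {Q Q' : Finset (ℤ × ℤ)} (hc : Q'.card = Q.card) (h : ℤ × ℤ) (u : ℤ × ℤ → ℝ) :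
    nN Q' (cs Q h u) ≤ nN Q u :=
  Real.sqrt_le_sqrt (mul_le_mul (n2_cs_le hc h u) (n4_cs_le hc h u) (n4_nonneg _ _)
    (n2_nonneg _ _))

theorem n2_t12 (l : ℕ) (p : Pt) (f : Pt → ℝ) :
    n2 (H315.cube3 l p) (fun q => f (t12 q)) = n2 (H315.cube3 l (t12 p)) f := by
  unfold n2; rw [H321.avg_t12 l p (fun q => f q ^ 2)]

theorem n2_t23 (l : ℕ) (p : Pt) (f : Pt → ℝ) :
    n2 (H315.cube3 l p) (fun q => f (t23 q)) = n2 (H315.cube3 l (t23 p)) f := by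
  unfold n2; rw [H321.avg_t23 l p (fun q => f q ^ 2)]

theorem n4_t12 (l : ℕ) (p : Pt) (f : Pt → ℝ) :
    n4 (H315.cube3 l p) (fun q => f (t12 q)) = n4 (H315.cube3 l (t12 p)) f := by
  unfold H922.n4; rw [H321.avg_t12 l p (fun q => f q ^ 4)]

theorem n4_t23 (l : ℕ) (p : Pt) (f : Pt → ℝ) :
    n4 (H315.cube3 l p) (fun q => f (t23 q)) = n4 (H315.cube3 l (t23 p)) f := by
  unfold H922.n4; rw [H321.avg_t23 l p (fun q => f q ^ 4)]

theorem nN_t12 (l : ℕ) (p : Pt) (f : Pt → ℝ) :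
    nN (H315.cube3 l p) (fun q => f (t12 q)) = nN (H315.cube3 l (t12 p)) f := by
  unfold nN; rw [n2_t12, n4_t12]

theorem nN_t23 (l : ℕ) (p : Pt) (f : Pt → ℝ) :
    nN (H315.cube3 l p) (fun q => f (t23 q)) = nN (H315.cube3 l (t23 p)) f := by
  unfold nN; rw [n2_t23, n4_t23]

/-! ### the pair weight -/

theorem card_iv2 (K : ℕ) (s t s' t' : ℤ) : (H315.iv K s ×ˢ H315.iv K t).card =
    (iv K (ix K s') ×ˢ iv K (ix K t')).card := by
  rw [card_product, card_product, H315.card_iv, H315.card_iv, card_iv, card_iv]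

theorem pw3_uq_le (c : LF) (K : ℕ) (x y : Pt) (u : H315.Tri) (q : ℤ × ℤ) :
    pw3 (H315.cube3 K y) (uq c K (cx K x) u q) ≤ pw3 (H315.cube3 K x) u := by
  unfold pw3
  have a1 : nN (H315.cube3 K y) (H315.e12 (uq c K (cx K x) u q).1) ≤
      nN (H315.cube3 K x) (H315.e12 u.1) := by
    rw [nN_e12, nN_e12]; exact nN_cs_le (card_iv2 _ _ _ _ _) _ _
  have a2 : nN (H315.cube3 K y) (H315.e13 (uq c K (cx K x) u q).2.1) ≤
      nN (H315.cube3 K x) (H315.e13 u.2.1) := by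
    rw [nN_e13, nN_e13]; exact nN_cs_le (card_iv2 _ _ _ _ _) _ _
  have a3 : nN (H315.cube3 K y) (H315.e23 (uq c K (cx K x) u q).2.2) ≤
      nN (H315.cube3 K x) (H315.e23 u.2.2) := by
    rw [nN_e23, nN_e23]; exact nN_cs_le (card_iv2 _ _ _ _ _) _ _
  have b1 : n2 (H315.cube3 K y) (H315.e12 (uq c K (cx K x) u q).1) ≤
      n2 (H315.cube3 K x) (H315.e12 u.1) := by
    rw [n2_e12, n2_e12]; exact n2_cs_le (card_iv2 _ _ _ _ _) _ _
  have b2 : n2 (H315.cube3 K y) (H315.e13 (uq c K (cx K x) u q).2.1) ≤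
      n2 (H315.cube3 K x) (H315.e13 u.2.1) := by
    rw [n2_e13, n2_e13]; exact n2_cs_le (card_iv2 _ _ _ _ _) _ _
  have b3 : n2 (H315.cube3 K y) (H315.e23 (uq c K (cx K x) u q).2.2) ≤
      n2 (H315.cube3 K x) (H315.e23 u.2.2) := by
    rw [n2_e23, n2_e23]; exact n2_cs_le (card_iv2 _ _ _ _ _) _ _
  have m : ∀ {a b c a' b' c' : ℝ}, 0 ≤ b → 0 ≤ c → 0 ≤ a' → 0 ≤ b' → a ≤ a' → b ≤ b' → c ≤ c' →
      a * b * c ≤ a' * b' * c' := fun hb hc ha' hb' h1 h2 h3 =>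
    mul_le_mul (mul_le_mul h1 h2 hb ha') h3 hc (mul_nonneg ha' hb')
  exact add_le_add (add_le_add
    (m (nN_nonneg _ _) (n2_nonneg _ _) (nN_nonneg _ _) (nN_nonneg _ _) a1 a2 b3)
    (m (nN_nonneg _ _) (n2_nonneg _ _) (nN_nonneg _ _) (nN_nonneg _ _) a1 a3 b2))
    (m (nN_nonneg _ _) (n2_nonneg _ _) (nN_nonneg _ _) (nN_nonneg _ _) a2 a3 b1)

theorem pw3_t12 (K : ℕ) (p : Pt) (u : H315.Tri) :
    pw3 (H315.cube3 K (t12 p)) (u12 u) = pw3 (H315.cube3 K p) u := by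
  unfold pw3
  rw [← nN_t12, ← nN_t12, ← nN_t12, ← n2_t12, ← n2_t12, ← n2_t12]
  have h1 : (fun q => H315.e12 (u12 u).1 (t12 q)) = H315.e12 u.1 := rfl
  have h2 : (fun q => H315.e13 (u12 u).2.1 (t12 q)) = H315.e23 u.2.2 := rfl
  have h3 : (fun q => H315.e23 (u12 u).2.2 (t12 q)) = H315.e13 u.2.1 := rfl
  rw [h1, h2, h3]; ring

theorem pw3_t23 (K : ℕ) (p : Pt) (u : H315.Tri) :
    pw3 (H315.cube3 K (t23 p)) (u23 u) = pw3 (H315.cube3 K p) u := by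
  unfold pw3
  rw [← nN_t23, ← nN_t23, ← nN_t23, ← n2_t23, ← n2_t23, ← n2_t23]
  have h1 : (fun q => H315.e12 (u23 u).1 (t23 q)) = H315.e13 u.2.1 := rfl
  have h2 : (fun q => H315.e13 (u23 u).2.1 (t23 q)) = H315.e12 u.1 := rfl
  have h3 : (fun q => H315.e23 (u23 u).2.2 (t23 q)) = H315.e23 u.2.2 := rfl
  rw [h1, h2, h3]; ring

/-- **the pair weight is a weight functional** -/
theorem wf_wP {δ : ℝ} (hδ : 0 ≤ δ) : Wf (fun K p u => wP δ (H315.cube3 K p) u) where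
  uq_le c K x y u q := by
    unfold wP
    rw [H315.card_cube3, H315.card_cube3]
    exact mul_le_mul_of_nonneg_left (pw3_uq_le c K x y u q) (by positivity)
  t12 K p u := by unfold wP; rw [pw3_t12, H315.card_cube3, H315.card_cube3]
  t23 K p u := by unfold wP; rw [pw3_t23, H315.card_cube3, H315.card_cube3]

end

end Vale.Agent.P141.H347.Tr
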